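import Vale.Agent.P102.Basic

/-! P102, file AlgField: a lacunary linear relation in a field forces a root of unity.

PLAN. (1) `α` is integral over `ℤ`. Let `β := α⁻¹`, `R := Algebra.adjoin ℤ {β}` (Noetherian:
`Algebra.FiniteType.isNoetherianRing`, or let `ℤ[X]` act through `aeval β`), `N := span R (range a)`,
`i₀` the largest index with `a i₀ ≠ 0`. Dividing the relation by `α ^ t i₀` gives
`a i₀ = - ∑_{i < i₀} β ^ (t i₀ - t i) * a i ∈ (β) ^ g • N` for every `g`. Krull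
(`Ideal.mem_iInf_smul_pow_eq_bot_iff`): `r * a i₀ = a i₀` with `r ∈ (β)`, so `1 = β * p β` and
`α = p (α⁻¹)`; multiply by `α ^ deg p` to get a monic equation (or `isIntegral_of_mem_adjoin_inv`
style argument: `Polynomial.reverse`). (2) Characteristic `p > 0`: `Algebra.adjoin ℤ {α}` is a
finite `ℤ`-module killed by `p`, so finite (`Module.finite_of_fg_torsion` /
`AddCommGroup.finite_of_fg_torsion`), and two powers of `α` coincide. (3) Characteristic `0`:
`L := ℚ⟮α⟯` is a number field. Apply an `L`-linear functional `K → L` not vanishing at some `a i`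
(`Module.exists_dual_forall_apply_eq_zero`, `Module.forall_dual_apply_eq_zero_iff`) to get the same
relation in `L`. For each `φ : L →+* ℂ`, `norm_eq_one_of_rel` gives `‖φ α‖ = 1`; finish with
`NumberField.Embeddings.pow_eq_one_of_norm_eq_one`. `norm_eq_one_of_rel`: if `‖z‖ > 1` the largest
index with `a i ≠ 0` dominates, if `‖z‖ < 1` the smallest one. -/

open MeasureTheory ProbabilityTheory Filter Topology Set
open scoped ComplexConjugate ENNReal InnerProductSpace

namespace Vale.Agent.P102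

theorem af_top {K : Type*} [Field K] {k : ℕ} {α : K} (hα : α ≠ 0) {a : Fin k → K}
    (ha : a ≠ 0) (h : ∀ g : ℤ, ∃ t : Fin k → ℤ, Gaps g t ∧ ∑ i, α ^ t i * a i = 0) :
    ∃ i0, a i0 ≠ 0 ∧ ∀ g : ℕ, ∃ n : Fin k → ℕ,
      α ^ g * a i0 = -∑ i ∈ Finset.univ.erase i0, α⁻¹ ^ n i * a i := by
  classical
  obtain ⟨i1, hi1⟩ := Function.ne_iff.1 ha
  obtain ⟨i0, hi0, hmax⟩ := Finset.exists_max_image (Finset.univ.filter fun i => a i ≠ 0) id
    ⟨i1, Finset.mem_filter.2 ⟨Finset.mem_univ _, hi1⟩⟩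
  refine ⟨i0, (Finset.mem_filter.1 hi0).2, fun g => ?_⟩
  obtain ⟨t, ht, hs⟩ := h g
  refine ⟨fun i => (t i0 - t i - g).toNat, ?_⟩
  rw [← Finset.add_sum_erase _ _ (Finset.mem_univ i0)] at hs
  have h1 := congrArg (fun x => α ^ ((g : ℤ) - t i0) * x) hs
  simp only [mul_add, mul_zero, Finset.mul_sum, ← mul_assoc, ← zpow_add₀ hα, sub_add_cancel,
    zpow_natCast] at h1
  rw [eq_neg_iff_add_eq_zero, ← h1, add_right_inj]
  refine Finset.sum_congr rfl fun i hi => ?_
  by_cases h0 : a i = 0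
  · rw [h0, mul_zero, mul_zero]
  · have h2 : i < i0 := (hmax i (Finset.mem_filter.2 ⟨Finset.mem_univ _, h0⟩)).lt_of_ne
      (Finset.ne_of_mem_erase hi)
    have h3 := ht i i0 h2
    rw [← zpow_natCast, Int.toNat_of_nonneg (by omega), inv_zpow', neg_sub, 
      show (g : ℤ) - (t i0 - t i) = g - t i0 + t i by ring]

theorem af_norm_le {k : ℕ} {z : ℂ} (hz : z ≠ 0) {a : Fin k → ℂ} (ha : a ≠ 0)
    (h : ∀ g : ℤ, ∃ t : Fin k → ℤ, Gaps g t ∧ ∑ i, z ^ t i * a i = 0) : ‖z‖ ≤ 1 := by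
  by_contra hc
  rw [not_le] at hc
  obtain ⟨i0, h0, h1⟩ := af_top hz ha h
  have h2 : 0 < ‖a i0‖ := norm_pos_iff.2 h0
  obtain ⟨g, hg⟩ := pow_unbounded_of_one_lt ((∑ i ∈ Finset.univ.erase i0, ‖a i‖) / ‖a i0‖) hc
  obtain ⟨n, hn⟩ := h1 g
  have h3 : ‖z‖ ^ g * ‖a i0‖ ≤ ∑ i ∈ Finset.univ.erase i0, ‖a i‖ := by
    rw [← norm_pow, ← norm_mul, hn, norm_neg]
    refine (norm_sum_le _ _).trans (Finset.sum_le_sum fun i _ => ?_)
    rw [norm_mul, norm_pow, norm_inv]
    exact mul_le_of_le_one_left (norm_nonneg _)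
      (pow_le_one₀ (by positivity) (inv_le_one_of_one_le₀ hc.le))
  rw [div_lt_iff₀ h2] at hg
  exact absurd h3 (not_le.2 hg)

theorem norm_eq_one_of_rel {k : ℕ} {z : ℂ} (hz : z ≠ 0) {a : Fin k → ℂ} (ha : a ≠ 0)
    (h : ∀ g : ℤ, ∃ t : Fin k → ℤ, Gaps g t ∧ ∑ i, z ^ t i * a i = 0) : ‖z‖ = 1 := by
  refine le_antisymm (af_norm_le hz ha h) ?_
  have h1 : ‖z⁻¹‖ ≤ 1 := by
    refine af_norm_le (a := fun i => a i.rev) (inv_ne_zero hz) (fun e => ha ?_) fun g => ?_
    · funext i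
      simpa using congrFun e i.rev
    · obtain ⟨t, ht, hs⟩ := h g
      refine ⟨fun i => -t i.rev, fun i j hij => ?_, ?_⟩
      · have := ht j.rev i.rev (Fin.rev_lt_rev.2 hij)
        simp only
        omega
      · rw [← hs, ← Equiv.sum_comp Fin.revPerm (fun i => z ^ t i * a i)]
        simp
  rw [norm_inv] at h1
  exact (inv_le_one₀ (norm_pos_iff.2 hz)).1 h1

theorem af_integral {K : Type*} [Field K] {k : ℕ} {α : K} (hα : α ≠ 0) {a : Fin k → K}
    (ha : a ≠ 0) (h : ∀ g : ℤ, ∃ t : Fin k → ℤ, Gaps g t ∧ ∑ i, α ^ t i * a i = 0) :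
    IsIntegral ℤ α := by
  classical
  obtain ⟨i0, h0, h1⟩ := af_top hα ha h
  let R := Algebra.adjoin ℤ {α⁻¹}
  have hR : IsNoetherianRing R := isNoetherianRing_of_fg (by
    simpa using Subalgebra.fg_adjoin_finset (R := ℤ) ({α⁻¹} : Finset K))
  have hβ : α⁻¹ ∈ R := Algebra.self_mem_adjoin_singleton ℤ _
  let f : ℕ →o Submodule R K := ⟨fun g => Submodule.span R {α ^ g * a i0},
    monotone_nat_of_le_succ fun g => by
      rw [Submodule.span_singleton_le_iff_mem, Submodule.mem_span_singleton]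
      refine ⟨⟨α⁻¹, hβ⟩, ?_⟩
      change α⁻¹ * (α ^ (g + 1) * a i0) = _
      rw [pow_succ', mul_assoc, inv_mul_cancel_left₀ hα]⟩
  have hle : iSup f ≤ Submodule.span R (range a) := by
    refine iSup_le fun g => (Submodule.span_singleton_le_iff_mem _ _).2 ?_
    obtain ⟨n, hn⟩ := h1 g
    rw [hn]
    refine Submodule.neg_mem _ (Submodule.sum_mem _ fun i _ => ?_)
    exact Submodule.smul_mem _ (⟨α⁻¹ ^ n i, pow_mem hβ _⟩ : R) (Submodule.subset_span ⟨i, rfl⟩)
  have hfg : (iSup f).FG :=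
    isNoetherian_submodule.1 (isNoetherian_span_of_finite R (finite_range a)) _ hle
  obtain ⟨n, hn⟩ := hfg.stabilizes_of_iSup_eq f rfl
  have h2 : α ^ (n + 1) * a i0 ∈ f n := by
    rw [← hn]
    exact le_iSup f (n + 1) (Submodule.mem_span_singleton_self _)
  obtain ⟨r, hr⟩ := Submodule.mem_span_singleton.1 h2
  have h3 : (r : K) = α := by
    change (r : K) * (α ^ n * a i0) = _ at hr
    rw [pow_succ', mul_assoc] at hr
    exact mul_right_cancel₀ (mul_ne_zero (pow_ne_zero _ hα) h0) hr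
  have h4 : (r : K) ∈ Algebra.adjoin ℤ {α⁻¹} := r.2
  rw [h3, Algebra.adjoin_singleton_eq_range_aeval] at h4
  obtain ⟨p, hp⟩ := h4
  let _ : Invertible α⁻¹ := invertibleOfNonzero (inv_ne_zero hα)
  have h5 := Polynomial.eval₂_reverse_mul_pow (algebraMap ℤ K) α⁻¹ p
  rw [invOf_eq_inv, inv_inv] at h5
  refine ⟨Polynomial.X ^ (p.natDegree + 1) - p.reverse, Polynomial.monic_X_pow_sub
    (Polynomial.degree_le_natDegree.trans_lt (by
      exact_mod_cast Nat.lt_succ_of_le p.reverse_natDegree_le)), ?_⟩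
  have h6 : Polynomial.eval₂ (algebraMap ℤ K) α⁻¹ p = α := hp
  rw [h6, inv_pow, mul_inv_eq_iff_eq_mul₀ (pow_ne_zero _ hα)] at h5
  rw [Polynomial.eval₂_sub, Polynomial.eval₂_X_pow, h5, pow_succ', sub_self]

theorem pow_eq_one_of_rel {K : Type*} [Field K] {k : ℕ} {α : K} (hα : α ≠ 0) {a : Fin k → K}
    (ha : a ≠ 0) (h : ∀ g : ℤ, ∃ t : Fin k → ℤ, Gaps g t ∧ ∑ i, α ^ t i * a i = 0) :
    ∃ d : ℕ, 0 < d ∧ α ^ d = 1 := by
  have hint := af_integral hα ha h
  obtain ⟨p, hp⟩ := CharP.exists K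
  rcases CharP.char_is_prime_or_zero K p with hpr | rfl
  · have hfg : Module.Finite ℤ (Subalgebra.toSubmodule (Algebra.adjoin ℤ {α})) :=
      Module.Finite.iff_fg.2 hint.fg_adjoin_singleton
    have hfin : Finite (Subalgebra.toSubmodule (Algebra.adjoin ℤ {α})) := by
      refine Module.finite_of_fg_torsion _ fun x => ⟨⟨(p : ℤ), mem_nonZeroDivisors_of_ne_zero
        (by exact_mod_cast hpr.ne_zero)⟩, Subtype.ext ?_⟩
      change (p : ℤ) • (x : K) = 0
      simp
    obtain ⟨m, n, hmn, e⟩ := Set.Finite.exists_lt_map_eq_of_forall_mem (f := fun n : ℕ => α ^ n)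
      (t := (Subalgebra.toSubmodule (Algebra.adjoin ℤ {α}) : Set K))
      (fun n => pow_mem (Algebra.self_mem_adjoin_singleton ℤ α) n) (Set.toFinite _)
    refine ⟨n - m, Nat.sub_pos_of_lt hmn, ?_⟩
    rw [pow_sub₀ _ hα hmn.le, ← e, mul_inv_cancel₀ (pow_ne_zero _ hα)]
  · have : CharZero K := CharP.charP_to_charZero K
    let L := IntermediateField.adjoin ℚ {α}
    have : NumberField L :=
      { to_finiteDimensional := IntermediateField.adjoin.finiteDimensional hint.tower_top }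
    let β : L := IntermediateField.AdjoinSimple.gen ℚ α
    have hβ : (β : K) = α := rfl
    have hβ0 : β ≠ 0 := fun e => hα (by rw [← hβ, e]; rfl)
    obtain ⟨i0, hi0⟩ := Function.ne_iff.1 ha
    obtain ⟨φ, hφ⟩ := Module.Projective.exists_dual_ne_zero L hi0
    obtain ⟨d, hd, e⟩ := NumberField.Embeddings.pow_eq_one_of_norm_eq_one L ℂ (x := β)
      (IntermediateField.coe_isIntegral_iff.1 hint) fun ψ => by
        refine norm_eq_one_of_rel (a := fun i => ψ (φ (a i))) ((map_ne_zero ψ).2 hβ0)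
          (fun e => hφ ((map_eq_zero ψ).1 (congrFun e i0))) fun g => ?_
        obtain ⟨t, ht, hs⟩ := h g
        refine ⟨t, ht, ?_⟩
        have h1 : ∑ i, β ^ t i • a i = 0 := by
          rw [← hs]
          refine Finset.sum_congr rfl fun i _ => ?_
          rw [Algebra.smul_def, map_zpow₀]
          rfl
        have h2 := congrArg (fun x => ψ (φ x)) h1
        simpa only [map_sum, map_smul, smul_eq_mul, map_mul, map_zpow₀, map_zero] using h2
    exact ⟨d, hd, by simpa [hβ] using congrArg Subtype.val e⟩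

end Vale.Agent.P102
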