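import Vale.Agent.P102.AlgField

/-! P102, file AlgMod: lacunary relations in a `ℤ[u, u⁻¹]`-module force quasi-unipotence.

PLAN. Let `R := AddMonoidAlgebra ℤ ℤ` (or `LaurentPolynomial ℤ`), `T n := single n 1`, and
`φ : R →ₐ[ℤ] Module.End ℤ M` with `φ (T n) = u ^ n` (`AddMonoidAlgebra.lift`). Let
`J := {p | ∀ i, φ p (δ i) = 0}` (an ideal) and `S := Submonoid.closure {T d - 1 | d : ℕ, 0 < d}`.
If `J` meets `S`: every element of `S` divides some `(T d - 1) ^ r` (`Submonoid.closure_induction`,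
`T d - 1 ∣ T (d * e) - 1` by `sub_one_dvd_pow_sub_one`), done. Otherwise take a prime `𝔭 ⊇ J`
disjoint from `S` (`Ideal.exists_le_prime_disjoint`), `K := FractionRing (R ⧸ 𝔭)`, `α :=` image of
`T 1` (a unit, not a root of unity). Let `𝒯` be the set of all `t` with `∑ u ^ t i (δ i) = 0` and
`v t := fun i => α ^ t i : Fin k → K`. If the `v t` span `Fin k → K`, pick a basis among them
(`exists_linearIndependent`, `Module.Basis.mk`, reindex by `Fin k`), so the matrix
`A j i = T (t j i)` over `R` has `det A ∉ 𝔭` (`RingHom.map_det`,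
`Matrix.linearIndependent_rows_iff_isUnit`), while `adjugate A * A = det A • 1` gives `det A ∈ J`,
a contradiction. So a nonzero functional kills all `v t`
(`Submodule.exists_dual_map_eq_bot_of_lt_top`), i.e. there is `a ≠ 0` with
`∑ α ^ t i * a i = 0` for `t ∈ 𝒯`, and `pow_eq_one_of_rel` gives `T d - 1 ∈ 𝔭`, contradiction. -/

open MeasureTheory ProbabilityTheory Filter Topology Set
open scoped ComplexConjugate ENNReal InnerProductSpace

namespace Vale.Agent.P102

theorem am_det {R M : Type*} [CommRing R] [AddCommGroup M] {k : ℕ} (φ : R →+* Module.End ℤ M)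
    (δ : Fin k → M) (A : Matrix (Fin k) (Fin k) R) (hA : ∀ j, ∑ i, φ (A j i) (δ i) = 0)
    (l : Fin k) : φ A.det (δ l) = 0 := by
  have h1 : φ A.det (δ l) = ∑ i, φ ((A.adjugate * A) l i) (δ i) := by
    rw [Matrix.adjugate_mul, Finset.sum_eq_single l]
    · simp
    · intro i _ hi
      simp [Matrix.one_apply_ne hi.symm]
    · simp
  rw [h1]
  simp only [Matrix.mul_apply, map_sum, map_mul, LinearMap.sum_apply, Module.End.mul_apply]
  rw [Finset.sum_comm]
  exact Finset.sum_eq_zero fun j _ => by rw [← map_sum, hA j, map_zero]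

theorem am_main {R M : Type*} [CommRing R] [AddCommGroup M] {k : ℕ} (T : Multiplicative ℤ →* R)
    (φ : R →+* Module.End ℤ M) (δ : Fin k → M)
    (h : ∀ g : ℤ, ∃ t : Fin k → ℤ, Gaps g t ∧
      ∑ i, φ (T (Multiplicative.ofAdd (t i))) (δ i) = 0) :
    ∃ d r : ℕ, 0 < d ∧ ∀ i, φ ((T (Multiplicative.ofAdd 1) ^ d - 1) ^ r) (δ i) = 0 := by
  let J : Ideal R :=
    { carrier := {p | ∀ i, φ p (δ i) = 0}
      add_mem' := fun {a b} ha hb i => by rw [map_add, LinearMap.add_apply, ha i, hb i, add_zero]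
      zero_mem' := fun i => by simp
      smul_mem' := fun c a ha i => by
        rw [smul_eq_mul, map_mul, Module.End.mul_apply, ha i, map_zero] }
  set x := T (Multiplicative.ofAdd 1) with hx
  let S := Submonoid.closure {y : R | ∃ d : ℕ, 0 < d ∧ y = x ^ d - 1}
  by_cases hd : Disjoint (J : Set R) S
  swap
  · obtain ⟨s, hsJ, hsS⟩ := Set.not_disjoint_iff.1 hd
    have key : ∀ s ∈ S, ∃ d r : ℕ, 0 < d ∧ s ∣ (x ^ d - 1) ^ r := by
      intro s hs
      induction hs using Submonoid.closure_induction with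
      | mem y hy =>
        obtain ⟨d, hd, rfl⟩ := hy
        exact ⟨d, 1, hd, by rw [pow_one]⟩
      | one => exact ⟨1, 0, one_pos, one_dvd _⟩
      | mul a b _ _ ha hb =>
        obtain ⟨d, r, hd, ha⟩ := ha
        obtain ⟨e, s, he, hb⟩ := hb
        refine ⟨d * e, r + s, Nat.mul_pos hd he, ?_⟩
        rw [pow_add]
        refine mul_dvd_mul (ha.trans (pow_dvd_pow_of_dvd ?_ _)) (hb.trans (pow_dvd_pow_of_dvd ?_ _))
        · rw [pow_mul]
          exact sub_one_dvd_pow_sub_one _ _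
        · rw [mul_comm, pow_mul]
          exact sub_one_dvd_pow_sub_one _ _
    obtain ⟨d, r, hd, hs⟩ := key s hsS
    exact ⟨d, r, hd, (J.mem_of_dvd hs hsJ : _ ∈ J)⟩
  exfalso
  obtain ⟨p, hp, hJp, hpS⟩ := J.exists_le_prime_disjoint S hd
  let K := FractionRing (R ⧸ p)
  let π : R →+* K := (algebraMap (R ⧸ p) K).comp (Ideal.Quotient.mk p)
  have hπ : ∀ y, π y = 0 → y ∈ p := fun y hy => Ideal.Quotient.eq_zero_iff_mem.1
    ((map_eq_zero_iff _ (IsFractionRing.injective (R ⧸ p) K)).1 hy)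
  have hπ' : ∀ y ∈ p, π y = 0 := fun y hy => by
    rw [RingHom.comp_apply, Ideal.Quotient.eq_zero_iff_mem.2 hy, map_zero]
  have hT : ∀ n : ℤ, π (T (Multiplicative.ofAdd n)) = π x ^ n := by
    intro n
    have := map_zpow ((π : R →* K).comp T) (Multiplicative.ofAdd 1) n
    rwa [← ofAdd_zsmul, smul_eq_mul, mul_one] at this
  have hα : π x ≠ 0 := (((Group.isUnit (Multiplicative.ofAdd (1 : ℤ))).map T).map π).ne_zero
  let V : Set (Fin k → K) := {v | ∃ t : Fin k → ℤ,
    ∑ i, φ (T (Multiplicative.ofAdd (t i))) (δ i) = 0 ∧ v = fun i => π x ^ t i}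
  by_cases hV : Submodule.span K V = ⊤
  · obtain ⟨f, hf, -, hli⟩ := Submodule.exists_fun_fin_finrank_span_eq K V
    have hk : k = Module.finrank K (Submodule.span K V) := by
      rw [hV, finrank_top, Module.finrank_fin_fun]
    choose t ht1 ht2 using fun j : Fin k => hf (Fin.cast hk j)
    let A : Matrix (Fin k) (Fin k) R := Matrix.of fun j i => T (Multiplicative.ofAdd (t j i))
    have h1 : LinearIndependent K (π.mapMatrix A).row := by
      have e : (π.mapMatrix A).row = f ∘ Fin.cast hk := by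
        funext j i
        rw [Function.comp_apply, ht2 j]
        exact hT _
      rw [e]
      exact hli.comp _ (Fin.cast_injective hk)
    have h2 := ((Matrix.isUnit_iff_isUnit_det _).1
      (Matrix.linearIndependent_rows_iff_isUnit.1 h1)).ne_zero
    rw [← RingHom.map_det] at h2
    exact h2 (hπ' _ (hJp (am_det φ δ A ht1)))
  · obtain ⟨f, hf0, hf⟩ := Submodule.exists_dual_map_eq_bot_of_lt_top (lt_top_iff_ne_top.2 hV)
      inferInstance
    have hf1 : ∀ v : Fin k → K, f v = ∑ i, v i * f (Pi.single i 1) := by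
      intro v
      conv_lhs => rw [pi_eq_sum_univ' v]
      simp only [map_sum, map_smul, smul_eq_mul]
    obtain ⟨d, hd, e⟩ := pow_eq_one_of_rel hα (a := fun i => f (Pi.single i 1))
      (fun e => hf0 (LinearMap.ext fun v => by
        rw [hf1]
        exact Finset.sum_eq_zero fun i _ => by rw [show f (Pi.single i 1) = 0 from congrFun e i,
          mul_zero])) fun g => by
        obtain ⟨t, ht, hs⟩ := h g
        refine ⟨t, ht, ?_⟩
        rw [← hf1 fun i => π x ^ t i, ← Submodule.mem_bot K, ← hf]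
        exact Submodule.mem_map_of_mem (Submodule.subset_span ⟨t, hs, rfl⟩)
    exact Set.disjoint_left.1 hpS (hπ (x ^ d - 1) (by rw [map_sub, map_pow, e, map_one, sub_self]))
      (Submonoid.subset_closure ⟨d, hd, rfl⟩)

theorem quasi_unipotent {M : Type*} [AddCommGroup M] {k : ℕ} (u : M ≃ₗ[ℤ] M) (δ : Fin k → M)
    (h : ∀ g : ℤ, ∃ t : Fin k → ℤ, Gaps g t ∧ ∑ i, (u ^ t i) (δ i) = 0) :
    ∃ d r : ℕ, 0 < d ∧ ∀ i, (((u ^ d : M ≃ₗ[ℤ] M).toLinearMap - 1) ^ r) (δ i) = 0 := by
  let F : Multiplicative ℤ →* Module.End ℤ M :=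
    LinearEquiv.automorphismGroup.toLinearMapMonoidHom.comp (zpowersHom _ u)
  let φ := MonoidAlgebra.lift ℤ (Module.End ℤ M) (Multiplicative ℤ) F
  have hφ : ∀ n : ℤ, φ (MonoidAlgebra.of ℤ _ (Multiplicative.ofAdd n)) =
      (u ^ n : M ≃ₗ[ℤ] M).toLinearMap := fun n => MonoidAlgebra.lift_of F _
  obtain ⟨d, r, hd, h1⟩ := am_main (MonoidAlgebra.of ℤ (Multiplicative ℤ)) φ.toRingHom δ fun g => by
    obtain ⟨t, ht, hs⟩ := h g
    refine ⟨t, ht, hs ▸ Finset.sum_congr rfl fun i _ => ?_⟩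
    exact congrArg (fun f : Module.End ℤ M => f (δ i)) (hφ (t i))
  refine ⟨d, r, hd, fun i => ?_⟩
  have h2 := h1 i
  rw [← map_pow, ← ofAdd_nsmul, nsmul_eq_mul, mul_one] at h2
  change φ _ _ = 0 at h2
  rwa [map_pow, map_sub, map_one, hφ, zpow_natCast] at h2

end Vale.Agent.P102
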