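import Mathlib

/-! P102 (Rokhlin multiple mixing): basic definitions for the probabilistic part.
See notes/P102.md. Convention: in statements with several sigma-algebras on `Ω` the ambient one
`m0` is declared LAST among the `MeasurableSpace Ω` variables, so that it is the local instance. -/

open MeasureTheory ProbabilityTheory Filter Topology Set
open scoped ComplexConjugate ENNReal InnerProductSpace

namespace Vale.Agent.P102

variable {Ω : Type*}

/-- Complex indicator function. -/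
noncomputable def ind (s : Set Ω) : Ω → ℂ := s.indicator fun _ => 1

/-- `A` and `C` are conditionally independent given `D` (Markov form). -/
structure CI {m0 : MeasurableSpace Ω} (μ : @Measure Ω m0) (A C D : MeasurableSpace Ω) : Prop where
  leA : A ≤ m0
  leC : C ≤ m0
  leD : D ≤ m0
  eq : ∀ s : Set Ω, MeasurableSet[A] s → μ[ind s | C ⊔ D] =ᵐ[μ] μ[ind s | D]

/-- Essentially bounded and (a.e.) `m`-measurable. -/
def BM {m0 : MeasurableSpace Ω} (μ : @Measure Ω m0) (m : MeasurableSpace Ω) (f : Ω → ℂ) : Prop :=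
  AEStronglyMeasurable[m] f μ ∧ ∃ C : ℝ, ∀ᵐ ω ∂μ, ‖f ω‖ ≤ C

/-- Everywhere unimodular and `m`-measurable. -/
def Uni (m : MeasurableSpace Ω) (a : Ω → ℂ) : Prop := Measurable[m] a ∧ ∀ ω, ‖a ω‖ = 1

/-- Countably generated sigma-algebra. -/
abbrev CG (m : MeasurableSpace Ω) : Prop := @MeasurableSpace.CountablyGenerated Ω m

/-- Sets of `A` that are a.e. equal to a set of `A'`. -/
@[instance_reducible] def aeInf {m0 : MeasurableSpace Ω} (μ : @Measure Ω m0) (A A' : MeasurableSpace Ω) :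
    MeasurableSpace Ω where
  MeasurableSet' s := MeasurableSet[A] s ∧ ∃ t, MeasurableSet[A'] t ∧ s =ᵐ[μ] t
  measurableSet_empty := ⟨@MeasurableSet.empty _ A, ∅, @MeasurableSet.empty _ A', ae_eq_refl _⟩
  measurableSet_compl := fun _ ⟨h, t, ht, e⟩ => ⟨h.compl, tᶜ, ht.compl, e.compl⟩
  measurableSet_iUnion := fun f h => by
    choose t ht e using fun i => (h i).2
    exact ⟨MeasurableSet.iUnion fun i => (h i).1, ⋃ i, t i, MeasurableSet.iUnion ht,
      Filter.EventuallyEq.countable_iUnion e⟩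

open Classical in
/-- Orthogonal projection of `L²` onto the `m`-measurable functions. -/
noncomputable def pr {m0 : MeasurableSpace Ω} (μ : @Measure Ω m0) (m : MeasurableSpace Ω) :
    Lp ℂ 2 μ →L[ℂ] Lp ℂ 2 μ :=
  if hm : m ≤ m0 then (@lpMeas Ω ℂ ℂ _ _ _ m m0 2 μ).subtypeL ∘L condExpL2 ℂ ℂ hm else 0

open Classical in
/-- Multiplication by an essentially bounded function on `L²`. -/
noncomputable def mulL {m0 : MeasurableSpace Ω} (μ : @Measure Ω m0) (g : Ω → ℂ) :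
    Lp ℂ 2 μ →L[ℂ] Lp ℂ 2 μ :=
  if hg : MemLp g ∞ μ then (ContinuousLinearMap.mul ℂ ℂ).holderL μ ∞ 2 2 (hg.toLp g) else 0

/-- `ρ` and `ρ'` give the same mass to the sets of `m`. -/
def Agree {m0 : MeasurableSpace Ω} (m : MeasurableSpace Ω) (ρ ρ' : @Measure Ω m0) : Prop :=
  ∀ s : Set Ω, MeasurableSet[m] s → ρ s = ρ' s

/-- a.e. constant. -/
def Triv {m0 : MeasurableSpace Ω} (ρ : @Measure Ω m0) (a : Ω → ℂ) : Prop :=
  ∃ c : ℂ, a =ᵐ[ρ] fun _ => c

theorem Uni.one (m : MeasurableSpace Ω) : Uni m (1 : Ω → ℂ) :=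
  ⟨measurable_const, fun _ => norm_one⟩

theorem Uni.mul {m : MeasurableSpace Ω} {a b : Ω → ℂ} (ha : Uni m a) (hb : Uni m b) :
    Uni m (a * b) :=
  ⟨ha.1.mul hb.1, fun ω => by simp [ha.2 ω, hb.2 ω]⟩

theorem Uni.star {m : MeasurableSpace Ω} {a : Ω → ℂ} (ha : Uni m a) : Uni m (star a) :=
  ⟨Complex.continuous_conj.measurable.comp ha.1, fun ω => by simp [ha.2 ω]⟩

theorem Uni.mono {m m' : MeasurableSpace Ω} {a : Ω → ℂ} (ha : Uni m a) (h : m ≤ m') :
    Uni m' a :=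
  ⟨ha.1.mono h le_rfl, ha.2⟩

theorem Uni.comp {Ω' : Type*} {m : MeasurableSpace Ω} {m' : MeasurableSpace Ω'} {a : Ω → ℂ}
    (ha : Uni m a) {Θ : Ω' → Ω} (hΘ : Measurable[m', m] Θ) : Uni m' (a ∘ Θ) :=
  ⟨ha.1.comp hΘ, fun ω => ha.2 (Θ ω)⟩

theorem Uni.prod {ι : Type*} {m : MeasurableSpace Ω} (S : Finset ι) {a : ι → Ω → ℂ}
    (ha : ∀ i ∈ S, Uni m (a i)) : Uni m (∏ i ∈ S, a i) :=
  Finset.prod_induction a (Uni m) (fun _ _ => Uni.mul) (Uni.one m) ha

theorem Uni.star_mul_self {m : MeasurableSpace Ω} {a : Ω → ℂ} (ha : Uni m a) :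
    Star.star a * a = 1 := by
  funext ω
  simp only [Pi.mul_apply, Pi.star_apply, Pi.one_apply, RCLike.star_def]
  rw [Complex.conj_mul', ha.2 ω]; simp

/-- The unimodular `m`-measurable functions. -/
def UG (m : MeasurableSpace Ω) : Submonoid (Ω → ℂ) where
  carrier := {a | Uni m a}
  mul_mem' := Uni.mul
  one_mem' := Uni.one m

theorem UG.uni {m : MeasurableSpace Ω} (a : UG m) : Uni m (a : Ω → ℂ) := a.2

noncomputable instance UG.instCommGroup (m : MeasurableSpace Ω) : CommGroup (UG m) :=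
  { (inferInstance : CommMonoid (UG m)) with
    inv := fun a => ⟨star (a : Ω → ℂ), Uni.star a.2⟩
    inv_mul_cancel := fun a => Subtype.ext (Uni.star_mul_self a.2) }

@[simp] theorem UG.coe_inv {m : MeasurableSpace Ω} (a : UG m) :
    ((a⁻¹ : UG m) : Ω → ℂ) = star (a : Ω → ℂ) := rfl

@[simp] theorem UG.coe_div {m : MeasurableSpace Ω} (a b : UG m) :
    ((a / b : UG m) : Ω → ℂ) = (a : Ω → ℂ) * star (b : Ω → ℂ) := by
  rw [div_eq_mul_inv]; rfl

/-- Pull-back of unimodular functions along a measurable map. -/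
noncomputable def UG.pull {Ω' : Type*} {m : MeasurableSpace Ω} {m' : MeasurableSpace Ω'}
    (Θ : Ω' → Ω) (hΘ : Measurable[m', m] Θ) : UG m →* UG m' where
  toFun a := ⟨(a : Ω → ℂ) ∘ Θ, Uni.comp a.2 hΘ⟩
  map_one' := rfl
  map_mul' _ _ := rfl

@[simp] theorem UG.coe_pull {Ω' : Type*} {m : MeasurableSpace Ω} {m' : MeasurableSpace Ω'}
    (Θ : Ω' → Ω) (hΘ : Measurable[m', m] Θ) (a : UG m) :
    ((UG.pull Θ hΘ a : UG m') : Ω' → ℂ) = (a : Ω → ℂ) ∘ Θ := rfl

/-- The a.e. constant unimodular functions. -/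
def TG {m0 : MeasurableSpace Ω} (ρ : @Measure Ω m0) (m : MeasurableSpace Ω) : Subgroup (UG m) where
  carrier := {a | Triv ρ (a : Ω → ℂ)}
  mul_mem' := fun {a b} ⟨c, hc⟩ ⟨d, hd⟩ => ⟨c * d, by
    filter_upwards [hc, hd] with ω h1 h2
    simp [h1, h2]⟩
  one_mem' := ⟨1, Eventually.of_forall fun _ => rfl⟩
  inv_mem' := fun {a} ⟨c, hc⟩ => ⟨star c, by
    filter_upwards [hc] with ω h1
    simp [h1]⟩

theorem mem_TG {m m0 : MeasurableSpace Ω} {ρ : Measure Ω} {a : UG m} :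
    a ∈ TG ρ m ↔ Triv ρ (a : Ω → ℂ) := Iff.rfl

/-- Polynomial sequences modulo `K`. -/
def Poly {G : Type*} [CommGroup G] (K : Subgroup G) : ℕ → (ℕ → G) → Prop
  | 0, H => ∀ n, H n ∈ K
  | r + 1, H => ∀ h : ℕ, Poly K r fun n => H (n + h) / H n

/-- A graph-like correspondence matching `O i (t + d)` with `O' i t`. -/
def Iso {G ι : Type*} [CommGroup G] (d : ℤ) (K K' : Subgroup G) (O O' : ι → ℤ → Set G) : Prop :=
  ∃ Γ : Subgroup (G × G), (∀ a a', (a, a') ∈ Γ → (a ∈ K ↔ a' ∈ K')) ∧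
    (∀ i t, ∀ a ∈ O i (t + d), ∃ a' ∈ O' i t, (a, a') ∈ Γ) ∧
    (∀ i t, ∀ a' ∈ O' i t, ∃ a ∈ O i (t + d), (a, a') ∈ Γ)

/-- A multiplicative relation at times `t`. -/
def Rel {G ι : Type*} [CommGroup G] [Fintype ι] (K : Subgroup G) (O : ι → ℤ → Set G)
    (t : ι → ℤ) : Prop :=
  ∃ a : ι → G, (∀ i, a i ∈ O i (t i)) ∧ ∏ i, a i ∈ K

/-- All gaps of the time vector `t` are at least `g`. -/
def Gaps {k : ℕ} (g : ℤ) (t : Fin k → ℤ) : Prop := ∀ i j : Fin k, i < j → g ≤ t j - t i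

/-- Regular conditional distribution of `P` given `η`. -/
noncomputable def kd {E : Type*} [MeasurableSpace Ω] [StandardBorelSpace Ω] [Nonempty Ω]
    [MeasurableSpace E] (P : Measure Ω) [IsFiniteMeasure P] (η : Ω → E) : Kernel E Ω :=
  condDistrib id η P

instance {E : Type*} [MeasurableSpace Ω] [StandardBorelSpace Ω] [Nonempty Ω]
    [MeasurableSpace E] (P : Measure Ω) [IsFiniteMeasure P] (η : Ω → E) :
    IsMarkovKernel (kd P η) := by
  unfold kd; infer_instance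

/-- `a` is a character of the triple `B 0, B 1, B 2` under `ρ`. -/
def Ch {m0 : MeasurableSpace Ω} (B : Fin 3 → MeasurableSpace Ω) (ρ : @Measure Ω m0) (a : Ω → ℂ) :
    Prop :=
  ∀ ε : ℝ, 0 < ε → ∃ c w : Ω → ℂ, Uni (B 1) c ∧ Uni (B 2) w ∧ ∫ ω, ‖a ω - c ω * w ω‖ ∂ρ < ε

/-- The three slots are pairwise independent under `ρ`. -/
def Good {m0 : MeasurableSpace Ω} (B : Fin 3 → MeasurableSpace Ω) (ρ : @Measure Ω m0) : Prop :=
  Indep (B 0) (B 1) ρ ∧ Indep (B 0) (B 2) ρ ∧ Indep (B 1) (B 2) ρ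

/-- A common character of `ρ` and `ρ'` lies within `η` of `φ`. -/
def Near {m0 : MeasurableSpace Ω} (B : Fin 3 → MeasurableSpace Ω) (ρ ρ' : @Measure Ω m0)
    (φ : Ω → ℂ) (η : ℝ) : Prop :=
  ∃ a : Ω → ℂ, Uni (B 0) a ∧ Ch B ρ a ∧ Ch B ρ' a ∧ ∫ ω, ‖a ω - φ ω‖ ∂ρ < η

/-- There are `n` orthogonal characters with label `> ε`. -/
def Cnt {m0 : MeasurableSpace Ω} (B : Fin 3 → MeasurableSpace Ω) (ρ : @Measure Ω m0)
    (F : Ω → ℂ) (ε : ℝ) (n : ℕ) : Prop :=
  ∃ a : Fin n → Ω → ℂ, (∀ j, Uni (B 0) (a j) ∧ Ch B ρ (a j) ∧ ε < ‖∫ ω, a j ω * F ω ∂ρ‖) ∧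
    ∀ j j', j ≠ j' → ∫ ω, a j ω * conj (a j' ω) ∂ρ = 0

/-- Hypotheses of the fibre lemma: three rows `x, y, z` of an array whose columns are indexed
by `ι`; `x S` is the sigma-algebra of row `x` in the columns `S`. -/
structure Fib {ι : Type*} {m0 : MeasurableSpace Ω} (μ : @Measure Ω m0)
    (x y z : Set ι → MeasurableSpace Ω) : Prop where
  xle : ∀ S, x S ≤ m0
  yle : ∀ S, y S ≤ m0
  zle : ∀ S, z S ≤ m0
  xun : ∀ S S', x (S ∪ S') = x S ⊔ x S'
  yun : ∀ S S', y (S ∪ S') = y S ⊔ y S'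
  zun : ∀ S S', z (S ∪ S') = z S ⊔ z S'
  xy : Indep (x univ) (y univ) μ
  xz : Indep (x univ) (z univ) μ
  yz : Indep (y univ) (z univ) μ
  cx : ∀ S, S ≠ univ → CI μ (x S) (y univ ⊔ z univ) (y S ⊔ z S)
  cy : ∀ S, S ≠ univ → CI μ (y S) (x univ ⊔ z univ) (x S ⊔ z S)
  cz : ∀ S, S ≠ univ → CI μ (z S) (x univ ⊔ y univ) (x S ⊔ y S)

/-- The column blocks `I` and `J` are independent. -/
def ColInd {ι : Type*} {m0 : MeasurableSpace Ω} (μ : @Measure Ω m0)
    (x y z : Set ι → MeasurableSpace Ω) (I J : Set ι) : Prop :=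
  Indep (x I ⊔ y I ⊔ z I) (x J ⊔ y J ⊔ z J) μ

/-- Three pairwise independent column blocks, no two of which fill all columns. -/
structure Tri {ι : Type*} {m0 : MeasurableSpace Ω} (μ : @Measure Ω m0)
    (x y z : Set ι → MeasurableSpace Ω) (I J K : Set ι) : Prop where
  ij : ColInd μ x y z I J
  ik : ColInd μ x y z I K
  jk : ColInd μ x y z J K
  nij : I ∪ J ≠ univ
  nik : I ∪ K ≠ univ
  njk : J ∪ K ≠ univ

end Vale.Agent.P102
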