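import Vale.Agent.P102.Tools

/-! P102, file CI: the calculus of conditional independence (semi-graphoid rules).

PLAN. (1) `CI.condExp_eq`: for `f = ind (s ∩ t)`, `s ∈ A`, `t ∈ D`, pull `ind t` out on both sides
(`condExp_mul_right`, `ind_inter`). In general, for `u ∈ C ⊔ D` and `g := μ[ind u | A ⊔ D]` it is
simplest to argue by duality: first prove the product formula
`μ[ind s * ind t | D] =ᵐ μ[ind s | D] * μ[ind t | D]` for `s ∈ A`, `t ∈ C` (tower + pull-out), get
`CI.symm` from it (`ae_eq_condExp_of_forall_setIntegral_eq`, test sets `piInter A D`, i.e.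
`ae_zero_of_sup`), and then `condExp_eq`: both sides are `C ⊔ D`-measurable, so by
`ae_zero_of_sup` it suffices to test on `t ∩ d`; `∫ f * ind t * ind d = ∫ f * μ[ind t | A ⊔ D] *
ind d = ∫ f * μ[ind t | D] * ind d` (symmetric form) `= ∫ μ[f | D] * ind t * ind d`.
(2) `of_pi`: if `μ[ind s | C ⊔ D]` is `D`-measurable it equals `μ[ind s | D]` (tower,
`condExp_of_aestronglyMeasurable'`). To pass from the pi-system to `A` use the symmetric form again:
for `t ∈ C` the function `μ[ind t | A ⊔ D] - μ[ind t | D]` vanishes on test sets `s ∩ d`, `s ∈ p`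
(a pi-system generating `A ⊔ D`, add `univ` to `p`), then `symm`.
(3) `cond_left` etc. follow from `condExp_eq` and the tower property `condExp_condExp_of_le`.
`of_indep`: `condExp_indep_eq`, `condExp_bot`. `comap`, `of_comap`: `condExp_comp_map`,
`MeasurableSpace.comap_sup`, `ae_map_iff` / `ae_of_ae_map` (the two conditional expectations are
strongly measurable, so the set where they agree is measurable). -/

open MeasureTheory ProbabilityTheory Filter Topology Set
open scoped ComplexConjugate ENNReal InnerProductSpace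

namespace Vale.Agent.P102

variable {Ω : Type*} {A A' C C' D D' m0 : MeasurableSpace Ω} {μ : Measure Ω}
  [IsProbabilityMeasure μ] {f : Ω → ℂ}

theorem ci_test (hC : C ≤ m0) (hD : D ≤ m0) (hf : Integrable f μ)
    (h : ∀ t d, MeasurableSet[C] t → MeasurableSet[D] d →
      ∫ ω in t ∩ d, f ω ∂μ = ∫ ω in t ∩ d, (μ[f | D]) ω ∂μ) : μ[f | C ⊔ D] =ᵐ[μ] μ[f | D] := by
  refine sub_ae_eq_zero _ _ |>.1 (ae_zero_of_sup hC hD (integrable_condExp.sub integrable_condExp)
    (stronglyMeasurable_condExp.aestronglyMeasurable.sub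
      (stronglyMeasurable_condExp.aestronglyMeasurable.mono (le_sup_right : D ≤ C ⊔ D)))
    fun t d ht hd => ?_)
  rw [integral_sub' integrable_condExp.integrableOn integrable_condExp.integrableOn,
    setIntegral_condExp (sup_le hC hD) hf (MeasurableSet.inter ((le_sup_left : C ≤ C ⊔ D) t ht)
      ((le_sup_right : D ≤ C ⊔ D) d hd)), h t d ht hd, sub_self]

theorem ci_dual (hA : A ≤ m0) (hD : D ≤ m0) {t d : Set Ω} (ht : MeasurableSet t)
    (h : μ[ind t | A ⊔ D] =ᵐ[μ] μ[ind t | D]) (hf : Integrable f μ)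
    (hm : AEStronglyMeasurable[A ⊔ D] f μ) (hd : MeasurableSet[D] d) :
    ∫ ω in t ∩ d, f ω ∂μ = ∫ ω in t ∩ d, (μ[f | D]) ω ∂μ := by
  have bt : BM μ m0 (ind t) := BM.ind ht
  have bd : BM μ D (ind d) := BM.ind hd
  have key : ∀ (E : MeasurableSpace Ω) {g : Ω → ℂ}, E ≤ m0 → D ≤ E → Integrable g μ →
      AEStronglyMeasurable[E] g μ → ∫ ω in t ∩ d, g ω ∂μ =
        ∫ ω, (ind d * g) ω * (μ[ind t | E]) ω ∂μ := fun E g hE hDE hg hgm => by
    rw [integral_mul_condExp hE ((bd.1.mono hDE).mul hgm) (by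
      rw [mul_comm]
      exact bt.mul_integrable le_rfl (bd.mul_integrable hD hg)) (bt.integrable le_rfl),
      ← integral_ind_mul (@MeasurableSet.inter _ m0 _ _ ht (hD d hd)), ind_inter]
    refine integral_congr_ae (Eventually.of_forall fun ω => ?_)
    simp only [Pi.mul_apply]
    ring
  have b1 := bd.mul (bt.condExp D)
  rw [key _ (sup_le hA hD) le_sup_right hf hm, key _ hD le_rfl integrable_condExp
    stronglyMeasurable_condExp.aestronglyMeasurable]
  calc _ = ∫ ω, (ind d * μ[ind t | D]) ω * f ω ∂μ := by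
        refine integral_congr_ae ?_
        filter_upwards [h] with ω hω
        simp only [Pi.mul_apply, hω]
        ring
    _ = ∫ ω, (ind d * μ[ind t | D]) ω * (μ[f | D]) ω ∂μ :=
        (integral_mul_condExp hD b1.1 (b1.mul_integrable hD hf) hf).symm
    _ = _ := by
        refine integral_congr_ae (Eventually.of_forall fun ω => ?_)
        simp only [Pi.mul_apply]
        ring

theorem ci_flip (h : CI μ C A D) (hf : Integrable f μ) (hm : AEStronglyMeasurable[A ⊔ D] f μ) :
    μ[f | C ⊔ D] =ᵐ[μ] μ[f | D] :=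
  ci_test h.leA h.leD hf fun t _ ht hd => ci_dual h.leC h.leD (h.leA t ht) (h.eq t ht) hf hm hd

theorem CI.symm (h : CI μ A C D) : CI μ C A D :=
  ⟨h.leC, h.leA, h.leD, fun _ ht => ci_flip h ((BM.ind ht).integrable h.leC)
    ((BM.ind ht).1.mono le_sup_left)⟩

theorem CI.condExp_eq (h : CI μ A C D) (hf : Integrable f μ)
    (hm : AEStronglyMeasurable[A ⊔ D] f μ) : μ[f | C ⊔ D] =ᵐ[μ] μ[f | D] := ci_flip h.symm hf hm

/-- Most used form: the conditional expectation given `C ≥ D` is `D`-measurable. -/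
theorem CI.condExp_eq' (h : CI μ A C D) (hDC : D ≤ C) (hf : Integrable f μ)
    (hm : AEStronglyMeasurable[A ⊔ D] f μ) : μ[f | C] =ᵐ[μ] μ[f | D] := by
  have h1 := h.condExp_eq hf hm
  rwa [sup_eq_left.2 hDC] at h1

theorem CI.aesm (h : CI μ A C D) (hDC : D ≤ C) (hf : Integrable f μ)
    (hm : AEStronglyMeasurable[A ⊔ D] f μ) : AEStronglyMeasurable[D] (μ[f | C]) μ :=
  stronglyMeasurable_condExp.aestronglyMeasurable.congr (h.condExp_eq' hDC hf hm).symm

theorem CI.of_pi (hA : A ≤ m0) (hC : C ≤ m0) (hD : D ≤ m0) {p : Set (Set Ω)} (hp : IsPiSystem p)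
    (hgen : A = MeasurableSpace.generateFrom p)
    (h : ∀ s ∈ p, AEStronglyMeasurable[D] (μ[ind s | C ⊔ D]) μ) : CI μ A C D := by
  refine CI.symm ⟨hC, hA, hD, fun t ht => ?_⟩
  have hi : Integrable (ind t) μ := (BM.ind ht).integrable hC
  refine ci_test hA hD hi fun s d hs hd => ?_
  have h1 := setIntegral_zero_of_pi (μ := μ.restrict d) (f := ind t - μ[ind t | D]) hA hp hgen
    (hi.sub integrable_condExp).integrableOn (by
      rw [integral_sub' hi.integrableOn integrable_condExp.integrableOn,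
        setIntegral_condExp hD hi hd, sub_self]) (fun u hu => by
      have hu' : MeasurableSet[A] u := hgen ▸ MeasurableSpace.measurableSet_generateFrom hu
      have h2 : μ[ind u | C ⊔ D] =ᵐ[μ] μ[ind u | D] :=
        (condExp_of_aestronglyMeasurable' hD (h u hu) integrable_condExp).symm.trans
          (condExp_condExp_of_le le_sup_right (sup_le hC hD))
      rw [Measure.restrict_restrict (hA u hu'), integral_sub' hi.integrableOn
        integrable_condExp.integrableOn, ci_dual hC hD (hA u hu') h2 hi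
          ((BM.ind ht).1.mono le_sup_left) hd, sub_self]) s hs
  rwa [Measure.restrict_restrict (hA s hs), integral_sub' hi.integrableOn
    integrable_condExp.integrableOn, sub_eq_zero] at h1

theorem ci_between (h1 : D ≤ D') (h2 : D' ≤ C) (h3 : C ≤ m0) (h : μ[f | C] =ᵐ[μ] μ[f | D]) :
    μ[f | D'] =ᵐ[μ] μ[f | D] :=
  (condExp_condExp_of_le h2 h3).symm.trans ((condExp_congr_ae h).trans
    (condExp_of_aestronglyMeasurable' (h2.trans h3)
      (stronglyMeasurable_condExp.mono h1).aestronglyMeasurable integrable_condExp))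

theorem ci_cond (h : CI μ A C D) (h1 : D ≤ D') (h2 : D' ≤ C ⊔ D) : CI μ A C D' := by
  refine ⟨h.leA, h.leC, h2.trans (sup_le h.leC h.leD), fun s hs => ?_⟩
  rw [le_antisymm (sup_le le_sup_left h2) (sup_le_sup_left h1 C)]
  exact (h.eq s hs).trans (ci_between h1 h2 (sup_le h.leC h.leD) (h.eq s hs)).symm

theorem CI.mono (h : CI μ A C D) (hA : A' ≤ A ⊔ D) (hC : C' ≤ C ⊔ D) : CI μ A' C' D := by
  have hA0 := hA.trans (sup_le h.leA h.leD)
  exact ⟨hA0, hC.trans (sup_le h.leC h.leD), h.leD, fun s hs =>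
    ci_between le_sup_right (sup_le hC le_sup_right) (sup_le h.leC h.leD)
      (h.condExp_eq ((BM.ind hs).integrable hA0) ((BM.ind hs).1.mono hA))⟩

/-- Weak union (left). -/
theorem CI.cond_left (h : CI μ A C D) (h1 : D ≤ D') (h2 : D' ≤ A ⊔ D) : CI μ A C D' :=
  (ci_cond h.symm h1 h2).symm

/-- Weak union (right). -/
theorem CI.cond_right (h : CI μ A C D) (h1 : D ≤ D') (h2 : D' ≤ C ⊔ D) : CI μ A C D' :=
  ci_cond h h1 h2

/-- Contraction. -/
theorem CI.contr (h1 : CI μ A C D) (h2 : CI μ A C' (C ⊔ D)) : CI μ A (C ⊔ C') D := by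
  refine ⟨h1.leA, sup_le h1.leC h2.leC, h1.leD, fun s hs => ?_⟩
  rw [sup_comm C, sup_assoc]
  exact (h2.eq s hs).trans (h1.eq s hs)

theorem CI.of_le (hA : A ≤ m0) (hD : D ≤ m0) (hC : C ≤ D) : CI μ A C D :=
  ⟨hA, hC.trans hD, hD, fun _ _ => by rw [sup_eq_right.2 hC]⟩

theorem CI.of_indep (hA : A ≤ m0) (hC : C ≤ m0) (h : Indep A C μ) : CI μ A C ⊥ :=
  ⟨hA, hC, bot_le, fun s hs => by
    rw [sup_bot_eq, condExp_bot]
    exact condExp_indep_eq hA hC (measurable_ind hs).stronglyMeasurable h⟩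

theorem CI.indep (h : CI μ A C ⊥) : Indep A C μ := by
  rw [Indep_iff]
  intro s t hs ht
  have h1 := h.eq s hs
  rw [sup_bot_eq, condExp_bot] at h1
  have h2 := setIntegral_condExp h.leC ((BM.ind (μ := μ) hs).integrable h.leA) ht
  rw [setIntegral_congr_ae (h.leC t ht) (h1.mono fun _ h _ => h), setIntegral_const,
    integral_ind (h.leA s hs), integral_ind (h.leA s hs),
    measureReal_restrict_apply (h.leA s hs), Complex.real_smul] at h2
  have h3 : μ.real t * μ.real s = μ.real (s ∩ t) := by exact_mod_cast h2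
  rw [← ofReal_measureReal (s := s ∩ t), ← h3, ENNReal.ofReal_mul measureReal_nonneg,
    ofReal_measureReal, ofReal_measureReal, mul_comm]

theorem CI.of_directed {ι : Type*} [Nonempty ι] {F : ι → MeasurableSpace Ω}
    (hF : Directed (· ≤ ·) F) (h : ∀ i, CI μ (F i) C D) : CI μ (⨆ i, F i) C D := by
  obtain ⟨i₀⟩ := ‹Nonempty ι›
  refine CI.of_pi (iSup_le fun i => (h i).leA) (h i₀).leC (h i₀).leD
    (isPiSystem_iUnion_of_directed_le (fun i => {t | MeasurableSet[F i] t})
      (fun i => @MeasurableSpace.isPiSystem_measurableSet _ (F i)) hF)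
    (MeasurableSpace.generateFrom_iUnion_measurableSet F).symm fun s hs => ?_
  obtain ⟨i, hi⟩ := mem_iUnion.1 hs
  exact stronglyMeasurable_condExp.aestronglyMeasurable.congr ((h i).eq s hi).symm

theorem CI.comap {Ω' : Type*} {mΩ' : MeasurableSpace Ω'} {P : Measure Ω'} [IsProbabilityMeasure P]
    {Θ : Ω' → Ω} (hΘ : Measurable Θ) (h : CI (P.map Θ) A C D) :
    CI P (A.comap Θ) (C.comap Θ) (D.comap Θ) := by
  have := Measure.isProbabilityMeasure_map (μ := P) hΘ.aemeasurable
  refine ⟨(MeasurableSpace.comap_mono h.leA).trans hΘ.comap_le,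
    (MeasurableSpace.comap_mono h.leC).trans hΘ.comap_le,
    (MeasurableSpace.comap_mono h.leD).trans hΘ.comap_le, ?_⟩
  rintro _ ⟨s, hs, rfl⟩
  have hi : Integrable (ind s) (P.map Θ) := (BM.ind hs).integrable h.leA
  rw [ind_preimage, ← MeasurableSpace.comap_sup]
  exact (condExp_comp_map hΘ (sup_le h.leC h.leD) hi).trans
    ((ae_eq_comp hΘ.aemeasurable (h.eq s hs)).trans (condExp_comp_map hΘ h.leD hi).symm)

theorem CI.of_comap {Ω' : Type*} {mΩ' : MeasurableSpace Ω'} {P : Measure Ω'}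
    [IsProbabilityMeasure P] {Θ : Ω' → Ω} (hΘ : Measurable Θ) (hA : A ≤ m0) (hC : C ≤ m0)
    (hD : D ≤ m0) (h : CI P (A.comap Θ) (C.comap Θ) (D.comap Θ)) : CI (P.map Θ) A C D := by
  have := Measure.isProbabilityMeasure_map (μ := P) hΘ.aemeasurable
  refine ⟨hA, hC, hD, fun s hs => ?_⟩
  have hi : Integrable (ind s) (P.map Θ) := (BM.ind hs).integrable hA
  have h1 := h.eq _ ⟨s, hs, rfl⟩
  rw [ind_preimage, ← MeasurableSpace.comap_sup] at h1
  exact (ae_map_iff hΘ.aemeasurable (measurableSet_eq_fun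
    (stronglyMeasurable_condExp.mono (sup_le hC hD)).measurable
    (stronglyMeasurable_condExp.mono hD).measurable)).2
    ((condExp_comp_map hΘ (sup_le hC hD) hi).symm.trans (h1.trans (condExp_comp_map hΘ hD hi)))

end Vale.Agent.P102
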