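import Vale.Agent.P102.AlgMod

/-! P102, file Chain: from correspondences to polynomial sequences.

PLAN. `Iso.symm`: `Γ.map (MulEquiv.prodComm)`; `Iso.trans`: relational composition (a subgroup).
`exists_poly`: let `π : G → N := G ⧸ K`, `N₀ := Subgroup.closure (⋃ i t, π '' O i t)`, and let
`Γ₀ ≤ N₀ × N₀` be the set of `(n, n')` with `n = π a`, `n' = π a'`, `(a, a') ∈ Γ`. Both
projections of `Γ₀` are injective (graph-like property) and surjective (`closure_induction`), so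
`Γ₀` is the graph of an automorphism (`Subgroup.exists_mulEquiv_eq_graph`); let `u` be the one
with `(u n, n) ∈ Γ₀`. It maps `π '' O i t` onto `π '' O i (t + 1)`, so `u ^ t` maps `π '' O i 0`
onto `π '' O i t` (`Int.induction_on`). A relation at times `t` reads `∏ (u ^ t i) (δ i) = 1` with
`δ i ∈ π '' O i 0`. The tuples `δ` range over a finite set, and `Gaps g` is antitone in `g`, so one
tuple works for all `g` (`Finite.exists_infinite_fiber` on `g : ℕ`). `quasi_unipotent` in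
`Additive N₀`. Choose `H n ∈ O i (d * n)` with `π (H n) = (u ^ (d * n)) (δ i)`. `poly_of_nil`:
induction on `r`, generalising `δ`: if `(v - 1) ^ (r + 1) δ = 0` then
`v ^ (n + h) δ - v ^ n δ = v ^ n δ'` with `δ' = (v ^ h - 1) δ`, and `(v - 1) ^ r δ' = 0` because
`v - 1 ∣ v ^ h - 1` (`mul_geom_sum`, `Commute`). -/

open MeasureTheory ProbabilityTheory Filter Topology Set
open scoped ComplexConjugate ENNReal InnerProductSpace

namespace Vale.Agent.P102

variable {G ι : Type*} [CommGroup G] {K K' K'' : Subgroup G} {O O' O'' : ι → ℤ → Set G} {d d' : ℤ}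

theorem Iso.symm (h : Iso d K K' O O') : Iso (-d) K' K O' O := by
  obtain ⟨Γ, h1, h2, h3⟩ := h
  refine ⟨Γ.comap (MulEquiv.prodComm : G × G ≃* G × G).toMonoidHom,
    fun a a' ha => (h1 a' a ha).symm, fun i t a ha => ?_, fun i t a ha => ?_⟩
  · have := h3 i (t + -d) a ha
    rwa [neg_add_cancel_right] at this
  · exact h2 i (t + -d) a (by rwa [neg_add_cancel_right])

theorem Iso.trans (h : Iso d K K' O O') (h' : Iso d' K' K'' O' O'') : Iso (d + d') K K'' O O'' :=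
  by
  obtain ⟨Γ, h1, h2, h3⟩ := h
  obtain ⟨Γ', h1', h2', h3'⟩ := h'
  refine ⟨{ carrier := {x | ∃ b, (x.1, b) ∈ Γ ∧ (b, x.2) ∈ Γ'}
            mul_mem' := fun ⟨b, hb, hb'⟩ ⟨c, hc, hc'⟩ =>
              ⟨b * c, Γ.mul_mem hb hc, Γ'.mul_mem hb' hc'⟩
            one_mem' := ⟨1, Γ.one_mem, Γ'.one_mem⟩
            inv_mem' := fun ⟨b, hb, hb'⟩ => ⟨b⁻¹, Γ.inv_mem hb, Γ'.inv_mem hb'⟩ }, ?_, ?_, ?_⟩
  · rintro a a' ⟨b, hb, hb'⟩
    exact (h1 a b hb).trans (h1' b a' hb')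
  · intro i t a ha
    obtain ⟨b, hb, hab⟩ := h2 i (t + d') a (by rwa [add_assoc, add_comm d'])
    obtain ⟨c, hc, hbc⟩ := h2' i t b hb
    exact ⟨c, hc, b, hab, hbc⟩
  · intro i t c hc
    obtain ⟨b, hb, hbc⟩ := h3' i t c hc
    obtain ⟨a, ha, hab⟩ := h3 i (t + d') b hb
    exact ⟨a, by rwa [add_assoc, add_comm d'] at ha, b, hab, hbc⟩

theorem Iso.rel [Fintype ι] (h : Iso 0 K K' O O') {t : ι → ℤ} (hr : Rel K O t) : Rel K' O' t :=
  by
  obtain ⟨Γ, h1, h2, -⟩ := h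
  obtain ⟨a, ha, hK⟩ := hr
  choose b hb hab using fun i => h2 i (t i) (a i) (by rw [add_zero]; exact ha i)
  refine ⟨b, hb, (h1 _ _ ?_).1 hK⟩
  rw [prod_mk_prod]
  exact Γ.prod_mem fun i _ => hab i

theorem poly_of_nil {M : Type*} [AddCommGroup M] (p : G →* Multiplicative M)
    (hp : ∀ a, p a = 1 → a ∈ K) (v : Module.End ℤ M) (r : ℕ) (δ : M) (h : ((v - 1) ^ r) δ = 0)
    (H : ℕ → G) (hH : ∀ n, p (H n) = Multiplicative.ofAdd ((v ^ n) δ)) : Poly K r H := by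
  induction r generalizing δ H with
  | zero =>
    intro n
    refine hp _ ?_
    have h0 : δ = 0 := by simpa using h
    rw [hH, h0, map_zero, ofAdd_zero]
  | succ r ih =>
    intro m
    refine ih ((v ^ m - 1) δ) ?_ _ fun n => ?_
    · have hc : Commute (v - 1) (∑ i ∈ Finset.range m, v ^ i) :=
        (mul_geom_sum v m).trans (geom_sum_mul v m).symm
      rw [← Module.End.mul_apply, ← mul_geom_sum, ← mul_assoc, ← pow_succ, (hc.pow_left _).eq,
        Module.End.mul_apply, h, map_zero]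
    · rw [map_div, hH, hH, ← ofAdd_sub, LinearMap.sub_apply, map_sub (v ^ n), pow_add,
        Module.End.mul_apply, Module.End.one_apply]

theorem chain_poly_sub {G₀ : Subgroup G} (r : ℕ) (H : ℕ → G₀) (h : Poly (K.subgroupOf G₀) r H) :
    Poly K r fun n => (H n : G) := by
  induction r generalizing H with
  | zero => exact h
  | succ r ih => exact fun m => ih _ (h m)

theorem chain_aut {G₀ : Subgroup G} {Γ : Subgroup (G × G)}
    (h1 : ∀ a a', (a, a') ∈ Γ → (a ∈ K ↔ a' ∈ K)) (h2 : ∀ a ∈ G₀, ∃ a' ∈ G₀, (a, a') ∈ Γ)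
    (h3 : ∀ a' ∈ G₀, ∃ a ∈ G₀, (a, a') ∈ Γ) :
    ∃ e : (G₀ ⧸ K.subgroupOf G₀) ≃* (G₀ ⧸ K.subgroupOf G₀), ∀ a a' : G₀, (a.1, a'.1) ∈ Γ →
      e (QuotientGroup.mk a) = QuotientGroup.mk a' := by
  let π := QuotientGroup.mk' (K.subgroupOf G₀)
  let Γ₀ := (Γ.comap (G₀.subtype.prodMap G₀.subtype)).map (π.prodMap π)
  refine (Subgroup.exists_mulEquiv_eq_graph (G := Γ₀) ⟨?_, ?_⟩ ⟨?_, ?_⟩).imp fun e he a a' h => ?_
  rotate_right
  · have h4 : (π a, π a') ∈ Γ₀ := ⟨(a, a'), h, rfl⟩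
    rw [he] at h4
    exact h4
  · refine (injective_iff_map_eq_one ((MonoidHom.fst _ _).comp Γ₀.subtype)).2 ?_
    rintro ⟨_, ⟨a, a'⟩, h, rfl⟩ h4
    refine Subtype.ext (Prod.ext h4 ((QuotientGroup.eq_one_iff a').2 ?_))
    exact (h1 _ _ h).1 ((QuotientGroup.eq_one_iff a).1 h4)
  · intro n
    obtain ⟨a, rfl⟩ := QuotientGroup.mk_surjective n
    obtain ⟨a', ha', h⟩ := h2 a a.2
    exact ⟨⟨_, (a, ⟨a', ha'⟩), h, rfl⟩, rfl⟩
  · refine (injective_iff_map_eq_one ((MonoidHom.snd _ _).comp Γ₀.subtype)).2 ?_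
    rintro ⟨_, ⟨a, a'⟩, h, rfl⟩ h4
    refine Subtype.ext (Prod.ext ((QuotientGroup.eq_one_iff a).2 ?_) h4)
    exact (h1 _ _ h).2 ((QuotientGroup.eq_one_iff a').1 h4)
  · intro n
    obtain ⟨a', rfl⟩ := QuotientGroup.mk_surjective n
    obtain ⟨a, ha, h⟩ := h3 a' a'.2
    exact ⟨⟨_, (⟨a, ha⟩, a'), h, rfl⟩, rfl⟩

theorem exists_poly {k : ℕ} {O : Fin k → ℤ → Set G} (hI : Iso 1 K K O O)
    (hfin : ∀ i, ((QuotientGroup.mk : G → G ⧸ K) '' O i 0).Finite)
    (hrel : ∀ g : ℤ, ∃ t : Fin k → ℤ, Gaps g t ∧ Rel K O t) (i : Fin k) :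
    ∃ (d r : ℕ) (H : ℕ → G), 0 < d ∧ (∀ n : ℕ, H n ∈ O i ((d : ℤ) * n)) ∧ Poly K r H := by
  obtain ⟨Γ, h1, h2, h3⟩ := hI
  let G₀ := Subgroup.closure (⋃ i, ⋃ t, O i t)
  have hm : ∀ {i t a}, a ∈ O i t → a ∈ G₀ := fun {i t _} ha =>
    Subgroup.subset_closure (mem_iUnion₂.2 ⟨i, t, ha⟩)
  obtain ⟨e, he⟩ := chain_aut (G₀ := G₀) h1 (fun a ha => by
      induction ha using Subgroup.closure_induction with
      | mem a ha =>
        obtain ⟨i, t, ha⟩ := mem_iUnion₂.1 ha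
        obtain ⟨a', ha', h⟩ := h2 i (t - 1) a (by rwa [sub_add_cancel])
        exact ⟨a', hm ha', h⟩
      | one => exact ⟨1, G₀.one_mem, Γ.one_mem⟩
      | mul a b _ _ ha hb =>
        obtain ⟨a', ha', h⟩ := ha
        obtain ⟨b', hb', h'⟩ := hb
        exact ⟨a' * b', G₀.mul_mem ha' hb', Γ.mul_mem h h'⟩
      | inv a _ ha =>
        obtain ⟨a', ha', h⟩ := ha
        exact ⟨a'⁻¹, G₀.inv_mem ha', Γ.inv_mem h⟩) (fun a ha => by
      induction ha using Subgroup.closure_induction with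
      | mem a ha =>
        obtain ⟨i, t, ha⟩ := mem_iUnion₂.1 ha
        obtain ⟨a', ha', h⟩ := h3 i t a ha
        exact ⟨a', hm ha', h⟩
      | one => exact ⟨1, G₀.one_mem, Γ.one_mem⟩
      | mul a b _ _ ha hb =>
        obtain ⟨a', ha', h⟩ := ha
        obtain ⟨b', hb', h'⟩ := hb
        exact ⟨a' * b', G₀.mul_mem ha' hb', Γ.mul_mem h h'⟩
      | inv a _ ha =>
        obtain ⟨a', ha', h⟩ := ha
        exact ⟨a'⁻¹, G₀.inv_mem ha', Γ.inv_mem h⟩)
  let M := Additive (G₀ ⧸ K.subgroupOf G₀)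
  let q : G₀ → M := fun a => Additive.ofMul (QuotientGroup.mk a)
  let u : M ≃ₗ[ℤ] M := (MulEquiv.toAdditive e.symm).toIntLinearEquiv
  have hu : ∀ a a' : G₀, (a.1, a'.1) ∈ Γ → u (q a') = q a := fun a a' h =>
    congrArg Additive.ofMul (e.symm_apply_eq.2 (he a a' h).symm)
  let P : Fin k → ℤ → M → Prop := fun i t n => ∃ a : G₀, a.1 ∈ O i t ∧ q a = n
  have hP : ∀ i (t s : ℤ) n, P i s n → P i (s + t) ((u ^ t) n) := by
    intro i t s n hn
    induction t using Int.induction_on with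
    | zero => simpa using hn
    | succ t ih =>
      obtain ⟨a', ha', h⟩ := ih
      obtain ⟨a, ha, h'⟩ := h3 i _ _ ha'
      refine ⟨⟨a, hm ha⟩, by rwa [← add_assoc], ?_⟩
      rw [add_comm (t : ℤ) 1, zpow_one_add, LinearEquiv.mul_apply, ← h, hu ⟨a, hm ha⟩ a' h']
    | pred t ih =>
      obtain ⟨a, ha, h⟩ := ih
      obtain ⟨a', ha', h'⟩ := h2 i (s + (-t - 1)) a (by rwa [add_assoc, sub_add_cancel])
      refine ⟨⟨a', hm ha'⟩, ha', u.injective ?_⟩
      rw [hu a ⟨a', hm ha'⟩ h', h, ← LinearEquiv.mul_apply, ← zpow_one_add, add_sub_cancel]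
  have hD : {δ : Fin k → M | ∀ i, δ i ∈ {n | P i 0 n}}.Finite := by
    refine Set.Finite.pi' fun i => ?_
    let j := QuotientGroup.map (K.subgroupOf G₀) K G₀.subtype le_rfl
    have hj : Function.Injective j := by
      refine (injective_iff_map_eq_one j).2 fun n hn => ?_
      obtain ⟨a, rfl⟩ := QuotientGroup.mk_surjective n
      exact (QuotientGroup.eq_one_iff a).2 ((QuotientGroup.eq_one_iff a.1).1 hn)
    refine (((hfin i).preimage hj.injOn).image Additive.ofMul).subset ?_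
    rintro _ ⟨a, ha, rfl⟩
    exact ⟨QuotientGroup.mk a, ⟨a.1, ha, rfl⟩, rfl⟩
  obtain ⟨δ, hδ, hδ'⟩ : ∃ δ : Fin k → M, (∀ i, P i 0 (δ i)) ∧
      ∀ g : ℤ, ∃ t : Fin k → ℤ, Gaps g t ∧ ∑ i, (u ^ t i) (δ i) = 0 := by
    by_contra hc
    push Not at hc
    choose! γ hγ using hc
    obtain ⟨g, hg⟩ := (hD.image γ).bddAbove
    obtain ⟨t, ht, a, ha, hK⟩ := hrel g
    have h4 : ∀ i, P i 0 ((u ^ (-t i)) (q ⟨a i, hm (ha i)⟩)) := fun i => by
      have := hP i (-t i) (t i) _ ⟨⟨a i, hm (ha i)⟩, ha i, rfl⟩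
      rwa [add_neg_cancel] at this
    refine hγ _ h4 t (fun i j hij => (hg ⟨_, h4, rfl⟩).trans (ht i j hij)) ?_
    simp only [← LinearEquiv.mul_apply, ← zpow_add, add_neg_cancel, zpow_zero,
      LinearEquiv.coe_one, id]
    rw [← ofMul_prod, ← QuotientGroup.mk_prod, ofMul_eq_zero, QuotientGroup.eq_one_iff,
      Subgroup.mem_subgroupOf]
    simpa using hK
  obtain ⟨d, r, hd, hr⟩ := quasi_unipotent u δ hδ'
  choose H hH hH' using fun n : ℕ => hP i ((d : ℤ) * n) 0 _ (hδ i)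
  refine ⟨d, r, fun n => H n, hd, fun n => by simpa using hH n, chain_poly_sub r H ?_⟩
  refine poly_of_nil (M := M) ⟨⟨fun a => Multiplicative.ofAdd (q a), rfl⟩, fun _ _ => rfl⟩
    (fun a ha => (QuotientGroup.eq_one_iff a).1 ha) _ r (δ i) (hr i) H fun n => ?_
  change Multiplicative.ofAdd (q (H n)) = _
  rw [hH' n, ← Nat.cast_mul, zpow_natCast, pow_mul]
  exact congrArg (fun f : Module.End ℤ M => Multiplicative.ofAdd (f (δ i)))
    (map_pow LinearEquiv.automorphismGroup.toLinearMapMonoidHom (u ^ d) n)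

end Vale.Agent.P102
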