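import Vale.Agent.P102.Cube2

/-! P102, file Closed: moving a level, closedness, peeling.

PLAN. `move`: `spread` with `I` and `θ = Function.update id p p'`.
`closed`: let `O := D' ∩ Mk m`. Prove `Cl j F`: for all `m' ≤ m` (pointwise) with
`card (m' l) ≤ j` for `l ∉ F` and `≤ j + 1` for all `l`, `CI (cyl (D ∩ Mk m')) (cyl D') (cyl O)`.
Outer induction on `j` for the statement `Cl' j` (all cards `≤ j`; for `j = 0` the region is empty,
`cyl_empty`, `CI.of_le`), inner induction on the finset `F`; `Cl' (j+1)` follows from all `Cl j F`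
by `CI.of_finite` (a finite set of marked points uses finitely many levels `F`; cut `m'` down to
`F`). Inner step at `p`: if `card (m' p) ≤ j` use the hypothesis. Else take `c ∈ m' p`,
`S := (m' p).erase c`, `m'' l := if l = p then S else if σ l = c ∧ m l = S then S else m' l`,
`B := D ∩ Mk m''`, `A := D ∩ At p {c}`. The hypothesis gives `CI (cyl B) (cyl D') (cyl O)`;
`saturation` with `R₀ = A`, `R₁ = O ∪ B`, `R₂ = D' ∪ B`, `ψ s = (s.upd p' (s p)).upd p c`, where
`p'` is given by `Rich` for `I =` the levels where some point moves (add `p` for `move`);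
`CI.contr`, `D ∩ Mk m' ⊆ A ∪ B`.
`peel`: let `L' = L \ {t}`, `m' = m` cut down to `L'`, `c' ∉ insert (σ t) (m t)`,
`Cc := Qr L ∩ At t {c'} ∩ Mk m'`, `D' := Qr L ∩ At t {c'}ᶜ`,
`B := (Qr L ∩ Mk m) ∩ At t {c'}ᶜ`. (i) `CI (Qr L') B (Qr L' ∩ Mk m)` from `a3` with `c = σ t`
(`of_indep`, `cond_left`, `mono`; points of `B` in the row `σ t` are in `Qr L' ∩ Mk m` since
`σ t ∉ m t`). (ii) `closed` gives `CI Cc D' (D' ∩ Mk m')`, then `cond_right` to `B`, `mono`, `symm`.
`contr`.
`r3`: induction on `j` for: all `L`, `La` as in the statement with `card (m l) < j` on `L \ La`.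
`j = 0`: `L = La`, `CI.of_le`. Step: `L j F := La ∪ {l ∈ L | card (m l) < j} ∪ F` for finsets
`F ⊆ L \ La`; `Finset.induction_on_max`; with `p = max F`, `La' := {l ∈ L j F | l ∈ La ∨ l ≤ p}`
(it equals `{l ∈ L j F | l ≤ p}` as `La` is an initial segment not containing `p`): outer hypothesis
for `(La', L j F)`, `peel` at `p`, inner hypothesis, chained by `contr`; finish with
`CI.of_finite`. All these sets are `RichB` (the new level is below and thinner). -/

open MeasureTheory ProbabilityTheory Filter Topology Set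
open scoped ComplexConjugate ENNReal InnerProductSpace

namespace Vale.Agent.P102

namespace Dyn

variable {k : ℕ} {X : Type} [TopologicalSpace X] [PolishSpace X] [CompactSpace X]
  [MeasurableSpace X] [BorelSpace X] (D : Dyn k X)

variable {A : Type} [Countable A] {U : Type} [LinearOrder U] [Countable U] {σ : U → Fin k}

section closedCalc

variable {B Y : Type} [MeasurableSpace Y] {P : Measure (B → Y)} [IsProbabilityMeasure P]
  {R R' C C' E E' : Set B}

theorem closed_mono (h : CI P (cyl Y R) (cyl Y C) (cyl Y E)) (hR : R' ⊆ R ∪ E) (hC : C' ⊆ C ∪ E) :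
    CI P (cyl Y R') (cyl Y C') (cyl Y E) :=
  h.mono ((cyl_mono hR).trans (cyl_union R E).le) ((cyl_mono hC).trans (cyl_union C E).le)

theorem closed_cond_left (h : CI P (cyl Y R) (cyl Y C) (cyl Y E)) (h1 : E ⊆ E')
    (h2 : E' ⊆ R ∪ E) : CI P (cyl Y R) (cyl Y C) (cyl Y E') :=
  h.cond_left (cyl_mono h1) ((cyl_mono h2).trans (cyl_union R E).le)

theorem closed_cond_right (h : CI P (cyl Y R) (cyl Y C) (cyl Y E)) (h1 : E ⊆ E')
    (h2 : E' ⊆ C ∪ E) : CI P (cyl Y R) (cyl Y C) (cyl Y E') :=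
  h.cond_right (cyl_mono h1) ((cyl_mono h2).trans (cyl_union C E).le)

theorem closed_contr (h1 : CI P (cyl Y R) (cyl Y C) (cyl Y E))
    (h2 : CI P (cyl Y R) (cyl Y C') (cyl Y (C ∪ E))) :
    CI P (cyl Y R) (cyl Y (C ∪ C')) (cyl Y E) := by
  rw [cyl_union] at h2 ⊢
  exact h1.contr h2

theorem closed_of_le (h : C ⊆ E) : CI P (cyl Y R) (cyl Y C) (cyl Y E) :=
  CI.of_le (cyl_le _) (cyl_le _) (cyl_mono h)

theorem closed_chain (h1 : CI P (cyl Y R) (cyl Y C) (cyl Y E))
    (h2 : CI P (cyl Y R') (cyl Y C') (cyl Y C)) (hR : R ⊆ R') (hE : E ⊆ C) :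
    CI P (cyl Y R) (cyl Y C') (cyl Y E) := by
  have h3 : CI P (cyl Y R) (cyl Y C') (cyl Y (C ∪ E)) := by
    rw [union_eq_left.2 hE]
    exact closed_mono h2 (hR.trans subset_union_left) subset_union_left
  exact closed_mono (closed_contr h1 h3) subset_union_left
    (subset_union_right.trans subset_union_left)

theorem closed_of_indep (h : Indep (cyl Y R) (cyl Y C) P) :
    CI P (cyl Y R) (cyl Y C) (cyl Y ∅) := by
  rw [cyl_empty]
  exact CI.of_indep (cyl_le _) (cyl_le _) h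

end closedCalc

theorem closed_supp {U : Type} {k : ℕ} {σ : U → Fin k} (S : Finset (Pt σ)) :
    ∃ I : Finset U, (∀ l ∉ I, ∀ s ∈ S, s.1 l = σ l) ∧ ∀ l ∈ I, ∃ s ∈ S, s.1 l ≠ σ l := by
  classical
  refine ⟨S.biUnion fun s => s.2.toFinset, fun l hl s hs => ?_, fun l hl => ?_⟩
  · by_contra h
    exact hl (Finset.mem_biUnion.2 ⟨s, hs, by simpa using h⟩)
  · obtain ⟨s, hs, h⟩ := Finset.mem_biUnion.1 hl
    exact ⟨s, hs, by simpa using h⟩

theorem closed_qr_mono {U : Type} {k : ℕ} {σ : U → Fin k} {L L' : Set U} (h : L ⊆ L') :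
    Qr σ L ⊆ Qr σ L' := fun _ hs l hl => hs l fun h' => hl (h h')

theorem move (s : A → Pt σ) (I : Finset U) (hI : ∀ l ∉ I, ∀ a, (s a).1 l = σ l) {p p' : U}
    (hp : p ∈ I) (hp' : p' ∉ I) (hadj : ∀ l ∈ I, l ≠ p → (l < p' ↔ l < p)) (c : Fin k) :
    (D.PP σ).map (pre fun a => ((s a).upd p' ((s a).1 p)).upd p c) = (D.PP σ).map (pre s) := by
  classical
  have hne : p' ≠ p := fun e => hp' (e ▸ hp)
  refine D.spread s _ I (Function.update id p p') ?_ ?_ ?_ ?_
  · intro l hl l' hl' h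
    by_cases e : l = p
    · subst e
      have h1 := hadj l' hl' h.ne'
      rw [Function.update_self, Function.update_of_ne h.ne']
      refine lt_of_le_of_ne (not_lt.1 fun h2 => absurd (h1.1 h2) (not_lt.2 h.le)) ?_
      rintro rfl
      exact hp' hl'
    · rw [Function.update_of_ne e]
      by_cases e' : l' = p
      · subst e'
        rw [Function.update_self]
        exact (hadj l hl e).2 h
      · rw [Function.update_of_ne e']
        exact h
  · intro l hl a
    by_cases e : l = p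
    · subst e
      rw [Function.update_self, Pt.upd_ne _ _ hne, Pt.upd_self]
    · have e' : l ≠ p' := fun e' => hp' (e' ▸ hl)
      rw [Function.update_of_ne e, id, Pt.upd_ne _ _ e, Pt.upd_ne _ _ e']
  · intro l hl a b
    rw [hI l hl, hI l hl]
  · intro l hl a b
    by_cases e : l = p
    · subst e
      rw [Pt.upd_self, Pt.upd_self]
    · have e' : l ≠ p' := fun e' => hl p hp (by rw [Function.update_self, e'])
      have hl' : l ∉ I := fun h => hl l h (by rw [Function.update_of_ne e, id])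
      rw [Pt.upd_ne _ _ e, Pt.upd_ne _ _ e', Pt.upd_ne _ _ e, Pt.upd_ne _ _ e', hI l hl', hI l hl']

theorem closed_sat {V L : Set U} {m m'' : U → Finset (Fin k)}
    (hm : ∀ l, (m l).Nonempty → l ∈ L) (hR : Rich σ V L m) {R R' : Set (Pt σ)}
    (hD : Inv σ L R) (hD' : Inv σ L R') (hV : R ⊆ Qr σ V) (hV' : R' ⊆ Qr σ V) {p : U} {c : Fin k}
    (hc : c ∈ m p) (hS : m'' p ⊆ (m p).erase c)
    (h2 : ∀ l, l ≠ p → σ l = c → m l = m'' p → m'' l = m'' p) :
    CI (D.PP σ) (cyl X (R ∩ At σ p {c})) (cyl X (R' ∪ R ∩ Mk σ m''))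
      (cyl X (R' ∩ Mk σ m ∪ R ∩ Mk σ m'')) := by
  classical
  refine saturation _ (union_subset_union_left _ inter_subset_left) fun S hS0 => ?_
  obtain ⟨I, hI1, hI2⟩ := closed_supp S
  have hIV : (I : Set U) ⊆ V := fun l hl => by
    obtain ⟨s, hs, h⟩ := hI2 l hl
    by_contra hlV
    rcases hS0 hs with h1 | h1 | h1
    · exact h (hV h1.1 l hlV)
    · exact h (hV' h1 l hlV)
    · exact h (hV h1.1 l hlV)
  obtain ⟨p', hp'L, hp'I, hne, hσ, hmp', hadj⟩ := hR p c hc _ hS I hIV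
  have hpL : p ∈ L := hm p ⟨c, hc⟩
  have hinv : ∀ s : Pt σ, ∀ l ∉ L, s.1 l = ((s.upd p' (s.1 p)).upd p c).1 l := fun s l hl => by
    have e1 : l ≠ p := fun e => hl (e ▸ hpL)
    have e2 : l ≠ p' := fun e => hl (e ▸ hp'L)
    rw [Pt.upd_ne _ _ e1, Pt.upd_ne _ _ e2]
  refine ⟨fun s => (s.upd p' (s.1 p)).upd p c, ?_, fun s hs hA => ?_, fun s hs hB => ?_⟩
  · refine D.move (fun a : S => (a : Pt σ)) (insert p I)
      (fun l hl a => hI1 l (fun h => hl (Finset.mem_insert_of_mem h)) a a.2)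
      (Finset.mem_insert_self p I) (by simp [hne, hp'I]) (fun l hl e => ?_) c
    exact hadj l ((Finset.mem_insert.1 hl).resolve_left e) e
  · have e : s.1 p = c := hA.2
    have e' : s.upd p' (s.1 p) = s := s.upd_eq_self (by rw [hI1 p' hp'I s hs, hσ, e])
    show (s.upd p' (s.1 p)).upd p c = s
    rw [e', s.upd_eq_self e]
  · rcases hB with h1 | ⟨h1, l, hl⟩
    · exact Or.inl ⟨hD' s _ (hinv s) h1, p, by rw [Pt.upd_self]; exact hc⟩
    · refine Or.inr ⟨hD s _ (hinv s) h1, ?_⟩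
      have e0 : m'' p' = m'' p := h2 p' hne hσ hmp'
      by_cases e : l = p
      · subst e
        exact ⟨p', by rw [Pt.upd_ne _ _ hne, Pt.upd_self, e0]; exact hl⟩
      · by_cases e' : l = p'
        · subst e'
          rw [hI1 l hp'I s hs, hσ, e0] at hl
          exact absurd (hS hl) (Finset.notMem_erase _ _)
        · exact ⟨l, by rw [Pt.upd_ne _ _ e, Pt.upd_ne _ _ e']; exact hl⟩

theorem closed_step {V L : Set U} {m : U → Finset (Fin k)}
    (hm : ∀ l, (m l).Nonempty → l ∈ L) (hR : Rich σ V L m) {R R' : Set (Pt σ)}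
    (hD : Inv σ L R) (hD' : Inv σ L R') (hV : R ⊆ Qr σ V) (hV' : R' ⊆ Qr σ V) {j : ℕ}
    (ih : ∀ m' : U → Finset (Fin k), (∀ l, m' l ⊆ m l) → (∀ l, (m' l).card ≤ j) →
      CI (D.PP σ) (cyl X (R ∩ Mk σ m')) (cyl X R') (cyl X (R' ∩ Mk σ m))) (F : Finset U) :
    ∀ m' : U → Finset (Fin k), (∀ l, m' l ⊆ m l) → (∀ l ∉ F, (m' l).card ≤ j) →
      (∀ l, (m' l).card ≤ j + 1) →
      CI (D.PP σ) (cyl X (R ∩ Mk σ m')) (cyl X R') (cyl X (R' ∩ Mk σ m)) := by
  classical
  induction F using Finset.induction_on with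
  | empty => exact fun m' h1 h2 _ => ih m' h1 fun l => h2 l (Finset.notMem_empty l)
  | insert p F _ ihF =>
    intro m' h1 h2 h3
    by_cases hp : (m' p).card ≤ j
    · refine ihF m' h1 (fun l hl => ?_) h3
      by_cases e : l = p
      · rw [e]; exact hp
      · exact h2 l (by simp [e, hl])
    obtain ⟨c, hc⟩ : (m' p).Nonempty := Finset.card_pos.1 (by omega)
    have hcard : ((m' p).erase c).card ≤ j := by
      rw [Finset.card_erase_of_mem hc]
      have := h3 p
      omega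
    let m'' : U → Finset (Fin k) := fun l =>
      if l = p ∨ (σ l = c ∧ m l = (m' p).erase c) then (m' p).erase c else m' l
    have ep : m'' p = (m' p).erase c := if_pos (Or.inl rfl)
    have hB := ihF m'' (fun l => by
        by_cases e : l = p ∨ (σ l = c ∧ m l = (m' p).erase c)
        · rw [show m'' l = _ from if_pos e]
          rcases e with rfl | e
          · exact (Finset.erase_subset _ _).trans (h1 l)
          · rw [e.2]
        · rw [show m'' l = _ from if_neg e]; exact h1 l)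
      (fun l hl => by
        by_cases e : l = p ∨ (σ l = c ∧ m l = (m' p).erase c)
        · rw [show m'' l = _ from if_pos e]; exact hcard
        · rw [show m'' l = _ from if_neg e]
          exact h2 l (by simp [hl, (not_or.1 e).1]))
      (fun l => by
        by_cases e : l = p ∨ (σ l = c ∧ m l = (m' p).erase c)
        · rw [show m'' l = _ from if_pos e]; omega
        · rw [show m'' l = _ from if_neg e]; exact h3 l)
    have hA := D.closed_sat (m'' := m'') hm hR hD hD' hV hV' (h1 p hc)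
      (by rw [ep]; exact Finset.erase_subset_erase _ (h1 p))
      (fun l _ e1 e2 => by rw [ep] at e2 ⊢; exact if_pos (Or.inr ⟨e1, e2⟩))
    rw [union_comm (R' ∩ Mk σ m)] at hA
    refine closed_mono (closed_contr hB.symm (closed_mono hA.symm
      (subset_union_left.trans subset_union_left) subset_union_left)).symm ?_ subset_union_left
    rintro s ⟨hs, l, hl⟩
    left
    by_cases e : l = p
    · subst e
      by_cases e' : s.1 l = c
      · exact Or.inr ⟨hs, e'⟩
      · exact Or.inl ⟨hs, l, by rw [ep]; exact Finset.mem_erase.2 ⟨e', hl⟩⟩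
    · refine Or.inl ⟨hs, l, ?_⟩
      by_cases e' : σ l = c ∧ m l = (m' p).erase c
      · rw [show m'' l = _ from if_pos (Or.inr e'), ← e'.2]
        exact h1 l hl
      · rw [show m'' l = _ from if_neg (not_or.2 ⟨e, e'⟩)]
        exact hl

theorem closed {V L : Set U} {m : U → Finset (Fin k)} (hm : ∀ l, (m l).Nonempty → l ∈ L)
    (hR : Rich σ V L m) {R R' : Set (Pt σ)} (hD : Inv σ L R) (hD' : Inv σ L R') (hV : R ⊆ Qr σ V)
    (hV' : R' ⊆ Qr σ V) :
    CI (D.PP σ) (cyl X (R ∩ Mk σ m)) (cyl X R') (cyl X (R' ∩ Mk σ m)) := by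
  classical
  have key : ∀ j : ℕ, ∀ m' : U → Finset (Fin k), (∀ l, m' l ⊆ m l) → (∀ l, (m' l).card ≤ j) →
      CI (D.PP σ) (cyl X (R ∩ Mk σ m')) (cyl X R') (cyl X (R' ∩ Mk σ m)) := by
    intro j
    induction j with
    | zero =>
      intro m' _ h2
      refine (closed_of_le ?_).symm
      rintro s ⟨-, l, hl⟩
      rw [Finset.card_eq_zero.1 (Nat.le_zero.1 (h2 l))] at hl
      exact absurd hl (Finset.notMem_empty _)
    | succ j ih =>
      intro m' h1 h2
      refine CI.of_finite fun S hS => ?_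
      choose lv hlv using fun s : S => (hS s.2).2
      let F : Finset U := Finset.univ.image lv
      have h3 := D.closed_step hm hR hD hD' hV hV' ih F (fun l => if l ∈ F then m' l else ∅)
        (fun l => by
          split_ifs
          · exact h1 l
          · exact Finset.empty_subset _)
        (fun l hl => by rw [if_neg hl]; exact Nat.zero_le _)
        (fun l => by
          split_ifs
          · exact h2 l
          · exact Nat.zero_le _)
      refine closed_mono h3 (fun s hs => Or.inl ⟨(hS hs).1, lv ⟨s, hs⟩, ?_⟩) subset_union_left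
      have h4 : lv ⟨s, hs⟩ ∈ F := Finset.mem_image_of_mem lv (Finset.mem_univ _)
      simp only [if_pos h4]
      exact hlv ⟨s, hs⟩
  exact key k m (fun _ => subset_rfl) fun l => by simpa using (m l).card_le_univ

theorem peel (hM : D.Mix) {L : Set U} {m : U → Finset (Fin k)} (hσ : ∀ l, σ l ∉ m l)
    (hc : ∀ l, (m l).card + 2 ≤ k) (hR : RichB σ L m) {t : U} (ht : t ∈ L)
    (htop : ∀ l ∈ L, l ≤ t) :
    CI (D.PP σ) (cyl X (Qr σ (L \ {t}))) (cyl X (Qr σ L ∩ Mk σ m))
      (cyl X (Qr σ (L \ {t}) ∩ Mk σ m)) := by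
  classical
  obtain ⟨c', hc'⟩ : ∃ c', c' ∉ insert (σ t) (m t) := by
    by_contra h
    push Not at h
    have h1 := Finset.card_le_card (fun c (_ : c ∈ Finset.univ) => h c)
    have h2 := Finset.card_insert_le (σ t) (m t)
    have h3 := hc t
    rw [Finset.card_univ, Fintype.card_fin] at h1
    omega
  have hc1 : σ t ≠ c' := fun e => hc' (e ▸ Finset.mem_insert_self _ _)
  have hc2 : c' ∉ m t := fun e => hc' (Finset.mem_insert_of_mem e)
  have hq : ∀ s ∈ Qr σ (L \ {t}), s.1 t = σ t := fun s hs => hs t (by simp)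
  have hq' : ∀ s ∈ Qr σ L, s.1 t = σ t → s ∈ Qr σ (L \ {t}) := fun s hs e l hl => by
    by_cases e' : l = t
    · rw [e', e]
    · exact hs l fun h => hl ⟨h, e'⟩
  have hsub : Qr σ (L \ {t}) ⊆ Qr σ L := closed_qr_mono sdiff_subset
  have h1 := closed_of_indep (D.a3 (σ := σ) hM (L := L \ {t}) (t := t)
    (fun l hl => lt_of_le_of_ne (htop l hl.1) hl.2) hc1)
  rw [insert_sdiff_singleton, insert_eq_of_mem ht] at h1
  have h2 : CI (D.PP σ) (cyl X (Qr σ (L \ {t}))) (cyl X ((Qr σ L ∩ Mk σ m) ∩ At σ t {c'}ᶜ))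
      (cyl X (Qr σ (L \ {t}) ∩ Mk σ m)) := by
    refine closed_mono (closed_cond_left h1 (empty_subset _)
      fun s hs => Or.inl ⟨hsub hs.1, hq s hs.1⟩) (fun s hs => Or.inl ⟨hsub hs, hq s hs⟩) ?_
    rintro s ⟨⟨hs, hs'⟩, hs''⟩
    by_cases e : s.1 t = σ t
    · exact Or.inr ⟨hq' s hs e, hs'⟩
    · exact Or.inl ⟨hs, fun h => h.elim e hs''⟩
  let m' : U → Finset (Fin k) := fun l => if l ∈ L \ {t} then m l else ∅
  have hm' : ∀ l, (m' l).Nonempty → l ∈ L \ {t} := fun l hl => by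
    by_contra h
    rw [show m' l = ∅ from if_neg h] at hl
    exact Finset.not_nonempty_empty hl
  have hm'' : ∀ l ∈ L \ {t}, m' l = m l := fun l hl => if_pos hl
  have hinv : ∀ G, Inv σ (L \ {t}) (Qr σ L ∩ At σ t G) := fun G s s' h hs =>
    ⟨fun l hl => (h l fun h' => hl h'.1).symm.trans (hs.1 l hl), by
      have : s.1 t ∈ G := hs.2
      rwa [h t (by simp)] at this⟩
  have h3 := D.closed (V := L) (L := L \ {t}) (m := m') hm' (fun l c hl S hS I hI => by
      have hlL := hm' l ⟨c, hl⟩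
      rw [hm'' l hlL] at hl hS
      obtain ⟨p, hp, hpl, e1, e2, h⟩ := hR l hlL.1 c hl S hS I hI
      have hp' : p ∈ L \ {t} := ⟨hp, (hpl.trans_le (htop l hlL.1)).ne⟩
      exact ⟨p, hp', fun hpI => lt_irrefl p (h p hpI hpl), hpl.ne, e1, (hm'' p hp').trans e2,
        fun l' hl' _ => ⟨fun h' => h'.trans hpl, h l' hl'⟩⟩)
    (hinv {c'}) (hinv {c'}ᶜ) inter_subset_left inter_subset_left
  have hmk : Mk σ m' ⊆ Mk σ m := by
    rintro s ⟨l, hl⟩
    exact ⟨l, by rwa [hm'' l (hm' l ⟨_, hl⟩)] at hl⟩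
  have hE : Qr σ (L \ {t}) ⊆ Qr σ L ∩ At σ t {c'}ᶜ := fun s hs =>
    ⟨hsub hs, fun e => hc1 ((hq s hs).symm.trans e)⟩
  have h4 := closed_mono (closed_cond_right (E' := (Qr σ L ∩ Mk σ m) ∩ At σ t {c'}ᶜ) h3
    (fun s hs => ⟨⟨hs.1.1, hmk hs.2⟩, hs.1.2⟩) fun s hs => Or.inl ⟨hs.1.1, hs.2⟩)
    subset_union_left (hE.trans subset_union_left)
  have h5 : Qr σ (L \ {t}) ∩ Mk σ m ⊆ (Qr σ L ∩ Mk σ m) ∩ At σ t {c'}ᶜ :=
    fun s hs => ⟨⟨hsub hs.1, hs.2⟩, (hE hs.1).2⟩
  refine closed_mono (closed_contr h2 (by rw [union_eq_left.2 h5]; exact h4.symm))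
    subset_union_left ?_
  rintro s ⟨hs, l, hl⟩
  left
  by_cases e : s.1 t = c'
  · refine Or.inr ⟨⟨hs, e⟩, l, ?_⟩
    have hlL : l ∈ L := by
      by_contra h
      rw [hs l h] at hl
      exact hσ l hl
    have hlt : l ≠ t := by
      rintro rfl
      exact hc2 (e ▸ hl)
    rw [hm'' l ⟨hlL, hlt⟩]
    exact hl
  · exact Or.inl ⟨⟨hs, l, hl⟩, e⟩

omit [Countable U] in
theorem closed_richB {L La L1 : Set U} {m : U → Finset (Fin k)} (hR : RichB σ L m) {j : ℕ}
    (hlow : ∀ l ∈ La, ∀ l' ∈ L, l' < l → l' ∈ La) (hj : ∀ l ∈ L, l ∉ La → (m l).card < j + 1)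
    (h1 : L1 ⊆ L) (h2 : La ⊆ L1) (h3 : ∀ l ∈ L, (m l).card < j → l ∈ L1) : RichB σ L1 m := by
  intro l hl c hc S hS I hI
  obtain ⟨p, hp, hpl, e1, e2, h⟩ := hR l (h1 hl) c hc S hS I (hI.trans h1)
  refine ⟨p, ?_, hpl, e1, e2, h⟩
  by_cases hla : l ∈ La
  · exact h2 (hlow l hla p hp hpl)
  · refine h3 p hp ?_
    have h4 := Finset.card_le_card hS
    have h5 := hj l (h1 hl) hla
    have h6 := Finset.card_pos.2 ⟨c, hc⟩
    rw [Finset.card_erase_of_mem hc] at h4
    rw [e2]
    omega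

omit [Countable U] in
theorem closed_richB_le {L : Set U} {m : U → Finset (Fin k)} (hR : RichB σ L m) (p : U) :
    RichB σ {l ∈ L | l ≤ p} m := by
  intro l hl c hc S hS I hI
  obtain ⟨q, hq, hql, e1, e2, h⟩ := hR l hl.1 c hc S hS I fun x hx => (hI hx).1
  exact ⟨q, ⟨hq, hql.le.trans hl.2⟩, hql, e1, e2, h⟩

theorem closed_r3_step (hM : D.Mix) {m : U → Finset (Fin k)} (hσ : ∀ l, σ l ∉ m l)
    (hc : ∀ l, (m l).card + 2 ≤ k) {j : ℕ}
    (ih : ∀ L La : Set U, RichB σ L m → La ⊆ L → (∀ l ∈ La, ∀ l' ∈ L, l' < l → l' ∈ La) →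
      (∀ l ∈ L, l ∉ La → (m l).card < j) →
      CI (D.PP σ) (cyl X (Qr σ La)) (cyl X (Qr σ L ∩ Mk σ m)) (cyl X (Qr σ La ∩ Mk σ m)))
    {L La : Set U} (hR : RichB σ L m) (hLa : La ⊆ L)
    (hlow : ∀ l ∈ La, ∀ l' ∈ L, l' < l → l' ∈ La) (hj : ∀ l ∈ L, l ∉ La → (m l).card < j + 1)
    (F : Finset U) (hF : ∀ l ∈ F, l ∈ L ∧ l ∉ La) :
    CI (D.PP σ) (cyl X (Qr σ La))
      (cyl X (Qr σ {l ∈ L | l ∈ La ∨ (m l).card < j ∨ l ∈ F} ∩ Mk σ m))
      (cyl X (Qr σ La ∩ Mk σ m)) := by
  have hrich : ∀ F : Finset U, RichB σ {l ∈ L | l ∈ La ∨ (m l).card < j ∨ l ∈ F} m := fun F =>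
    closed_richB hR hlow hj (fun _ h => h.1) (fun l hl => ⟨hLa hl, Or.inl hl⟩)
      fun l hl h => ⟨hl, Or.inr (Or.inl h)⟩
  induction F using Finset.induction_on_max with
  | empty =>
    refine ih _ La (hrich ∅) (fun l hl => ⟨hLa hl, Or.inl hl⟩)
      (fun l hl l' hl' h => hlow l hl l' hl'.1 h) fun l hl hla => ?_
    rcases hl.2 with h | h | h
    · exact absurd h hla
    · exact h
    · exact absurd h (Finset.notMem_empty l)
  | insert p F hp ihF =>
    have hc3 := ihF fun l hl => hF l (Finset.mem_insert_of_mem hl)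
    obtain ⟨hpL, hpa⟩ := hF p (Finset.mem_insert_self p F)
    set L1 := {l ∈ L | l ∈ La ∨ (m l).card < j ∨ l ∈ insert p F}
    have hlt : ∀ l ∈ La, l < p := fun l hl => by
      rcases lt_trichotomy l p with h | rfl | h
      · exact h
      · exact absurd hl hpa
      · exact absurd (hlow l hl p hpL h) hpa
    have ha := ih L1 {l ∈ L1 | l ≤ p} (hrich _) (fun _ h => h.1)
      (fun l hl l' hl' h => ⟨hl', h.le.trans hl.2⟩) fun l hl hla => by
        have h1 : p < l := not_le.1 fun h => hla ⟨hl, h⟩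
        rcases hl.2 with h | h | h
        · exact absurd (hlt l h) (not_lt.2 h1.le)
        · exact h
        · rcases Finset.mem_insert.1 h with h | h
          · exact absurd h h1.ne'
          · exact absurd (hp l h) (not_lt.2 h1.le)
    have hb := D.peel hM hσ hc (closed_richB_le (hrich (insert p F)) p) (t := p)
      ⟨⟨hpL, Or.inr (Or.inr (Finset.mem_insert_self p F))⟩, le_rfl⟩ fun l hl => hl.2
    have hs1 : La ⊆ {l ∈ L1 | l ≤ p} \ {p} := fun l hl =>
      ⟨⟨⟨hLa hl, Or.inl hl⟩, (hlt l hl).le⟩, (hlt l hl).ne⟩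
    have hs2 : {l ∈ L1 | l ≤ p} \ {p} ⊆ {l ∈ L | l ∈ La ∨ (m l).card < j ∨ l ∈ F} := by
      rintro l ⟨⟨⟨h1, h2⟩, -⟩, h3⟩
      refine ⟨h1, h2.imp_right (Or.imp_right fun h => ?_)⟩
      exact (Finset.mem_insert.1 h).resolve_left h3
    have hd := closed_mono (C' := Qr σ ({l ∈ L1 | l ≤ p} \ {p}) ∩ Mk σ m) hc3 subset_union_left
      ((inter_subset_inter_left _ (closed_qr_mono hs2)).trans subset_union_left)
    have he := closed_chain hd hb (closed_qr_mono hs1)
      (inter_subset_inter_left _ (closed_qr_mono hs1))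
    exact closed_chain he ha (closed_qr_mono (hs1.trans sdiff_subset))
      (inter_subset_inter_left _ (closed_qr_mono (hs1.trans sdiff_subset)))

theorem r3 (hM : D.Mix) {L La : Set U} {m : U → Finset (Fin k)} (hσ : ∀ l, σ l ∉ m l)
    (hc : ∀ l, (m l).card + 2 ≤ k) (hR : RichB σ L m) (hLa : La ⊆ L)
    (hlow : ∀ l ∈ La, ∀ l' ∈ L, l' < l → l' ∈ La) :
    CI (D.PP σ) (cyl X (Qr σ La)) (cyl X (Qr σ L ∩ Mk σ m)) (cyl X (Qr σ La ∩ Mk σ m)) := by
  classical
  have key : ∀ (j : ℕ) (L La : Set U), RichB σ L m → La ⊆ L →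
      (∀ l ∈ La, ∀ l' ∈ L, l' < l → l' ∈ La) → (∀ l ∈ L, l ∉ La → (m l).card < j) →
      CI (D.PP σ) (cyl X (Qr σ La)) (cyl X (Qr σ L ∩ Mk σ m)) (cyl X (Qr σ La ∩ Mk σ m)) := by
    intro j
    induction j with
    | zero =>
      intro L La _ _ _ h
      refine closed_of_le (inter_subset_inter_left _ (closed_qr_mono fun l hl => ?_))
      by_contra h'
      exact absurd (h l hl h') (Nat.not_lt_zero _)
    | succ j ih =>
      intro L La hR hLa hlow hj
      refine (CI.of_finite fun S hS => ?_).symm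
      obtain ⟨I, hI1, hI2⟩ := closed_supp S
      have h1 := D.closed_r3_step hM hσ hc ih hR hLa hlow hj (I.filter (· ∉ La)) fun l hl => by
        obtain ⟨h2, h3⟩ := Finset.mem_filter.1 hl
        obtain ⟨s, hs, h⟩ := hI2 l h2
        exact ⟨by_contra fun h4 => h ((hS hs).1 l h4), h3⟩
      refine closed_mono h1.symm (fun s hs => Or.inl ⟨fun l hl => ?_, (hS hs).2⟩) subset_union_left
      by_contra h
      refine hl ⟨by_contra fun h4 => h ((hS hs).1 l h4), ?_⟩
      by_cases h5 : l ∈ La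
      · exact Or.inl h5
      · exact Or.inr (Or.inr (Finset.mem_filter.2 ⟨by_contra fun h6 => h (hI1 l h6 s hs), h5⟩))
  exact key k L La hR hLa hlow fun l _ _ => by have := hc l; omega

end Dyn

end Vale.Agent.P102
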