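import Vale.Agent.P102.CI

/-! P102, file Prod: consequences of independence.

PLAN. `integral_mul_indep`: replace `f, g` by their `mk`, `IndepFun.integral_mul_eq_mul_integral`.
`condExp_indep`: `condExp_indep_eq`. `condExp_mul_indep`: from `CI.of_indep` and weak union get
`CI μ W W' (A ⊔ A')`-type facts: `μ[f * g | A ⊔ W'] = μ[f | A] * g` (`CI μ W W' A`, pull-out), then
condition on `A ⊔ A'` (`CI μ W' W A'`). `norm_const_of_mul`: put `α = ‖a‖, β = ‖b‖, γ = ‖c‖`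
(real, bounded), `α = β γ` a.e.; `E α = E β * E γ > 0`; `E (α β) = E α * E β = (E β)^2 * E γ` and
`E (α β) = E (β^2 γ) = E (β^2) * E γ`, so `E (β^2) = (E β)^2` and `β` is a.e. constant
(`∫ (β - E β)^2 = 0`); the same for `γ`. `slot_meas`: `c * w = μ[c * w | Y' ⊔ Z'] =
μ[c | Y'] * μ[w | Z']`, both factors have norm `≤ 1` and the product has norm 1, then
`eq_condExp_of_norm`. -/

open MeasureTheory ProbabilityTheory Filter Topology Set
open scoped ComplexConjugate ENNReal InnerProductSpace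

namespace Vale.Agent.P102

variable {Ω : Type*} {A A' C D W W' m0 : MeasurableSpace Ω} {μ : Measure Ω}
  [IsProbabilityMeasure μ] {f g a b c : Ω → ℂ}

theorem integral_mul_indep_gen {K : Type*} [RCLike K] {f g : Ω → K} (hA : A ≤ m0) (hC : C ≤ m0)
    (hi : Indep A C μ) (hf : AEStronglyMeasurable[A] f μ) (hg : AEStronglyMeasurable[C] g μ) :
    ∫ ω, f ω * g ω ∂μ = (∫ ω, f ω ∂μ) * ∫ ω, g ω ∂μ := by
  obtain ⟨f', hf', e⟩ := hf
  obtain ⟨g', hg', e'⟩ := hg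
  have h1 : IndepFun f' g' μ := (IndepFun_iff_Indep _ _ _).2
    (indep_of_indep_of_le hi hf'.measurable.comap_le hg'.measurable.comap_le)
  rw [integral_congr_ae e, integral_congr_ae e', ← h1.integral_fun_mul_eq_mul_integral
    (hf'.mono hA).aestronglyMeasurable (hg'.mono hC).aestronglyMeasurable]
  exact integral_congr_ae (e.mul e')

theorem integral_mul_indep (hA : A ≤ m0) (hC : C ≤ m0) (hi : Indep A C μ)
    (hf : AEStronglyMeasurable[A] f μ) (hg : AEStronglyMeasurable[C] g μ) :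
    ∫ ω, f ω * g ω ∂μ = (∫ ω, f ω ∂μ) * ∫ ω, g ω ∂μ :=
  integral_mul_indep_gen hA hC hi hf hg

theorem eLpNorm_mul_indep (hA : A ≤ m0) (hC : C ≤ m0) (hi : Indep A C μ)
    (hf : AEStronglyMeasurable[A] f μ) (hg : AEStronglyMeasurable[C] g μ) :
    eLpNorm (f * g) 2 μ = eLpNorm f 2 μ * eLpNorm g 2 μ := by
  obtain ⟨f', hf', e⟩ := hf
  obtain ⟨g', hg', e'⟩ := hg
  have h0 : Measurable fun z : ℂ => ‖z‖ₑ ^ (2 : ℝ≥0∞).toReal := measurable_enorm.pow_const _
  have h1 := lintegral_mul_eq_lintegral_mul_lintegral_of_independent_measurableSpace hA hC hi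
    (h0.comp hf'.measurable) (h0.comp hg'.measurable)
  simp only [Function.comp_apply] at h1
  rw [eLpNorm_congr_ae (e.mul e'), eLpNorm_congr_ae e, eLpNorm_congr_ae e',
    eLpNorm_eq_lintegral_rpow_enorm_toReal two_ne_zero ENNReal.ofNat_ne_top,
    eLpNorm_eq_lintegral_rpow_enorm_toReal two_ne_zero ENNReal.ofNat_ne_top,
    eLpNorm_eq_lintegral_rpow_enorm_toReal two_ne_zero ENNReal.ofNat_ne_top,
    ← ENNReal.mul_rpow_of_nonneg _ _ (by positivity), ← h1]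
  simp only [Pi.mul_apply, enorm_mul, ENNReal.mul_rpow_of_nonneg _ _ ENNReal.toReal_nonneg]

theorem condExp_indep (hA : A ≤ m0) (hC : C ≤ m0) (hi : Indep A C μ)
    (hf : AEStronglyMeasurable[A] f μ) : μ[f | C] =ᵐ[μ] fun _ => ∫ ω, f ω ∂μ := by
  obtain ⟨f', hf', e⟩ := hf
  rw [integral_congr_ae e]
  exact (condExp_congr_ae e).trans (condExp_indep_eq hA hC hf' hi)

theorem ae_const_of_indep (hA : A ≤ m0) (hC : C ≤ m0) (hi : Indep A C μ) (hf : Integrable f μ)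
    (h1 : AEStronglyMeasurable[A] f μ) (h2 : AEStronglyMeasurable[C] f μ) :
    f =ᵐ[μ] fun _ => ∫ ω, f ω ∂μ :=
  (condExp_of_aestronglyMeasurable' hC h2 hf).symm.trans (condExp_indep hA hC hi h1)

theorem condExp_mul_indep (hW : W ≤ m0) (hW' : W' ≤ m0) (hi : Indep W W' μ) (hA : A ≤ W)
    (hA' : A' ≤ W') (hf : BM μ W f) (hg : BM μ W' g) :
    μ[f * g | A ⊔ A'] =ᵐ[μ] μ[f | A] * μ[g | A'] := by
  have h := CI.of_indep hW hW' hi
  have i1 := hf.integrable hW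
  have i2 := hg.integrable hW'
  have h1 := (h.cond_left bot_le (hA.trans le_sup_left)).condExp_eq i1 (hf.1.mono le_sup_left)
  have h2 := ((h.symm.cond_left bot_le (hA'.trans le_sup_left)).mono le_sup_left
    (hA.trans le_sup_left)).condExp_eq i2 (hg.1.mono le_sup_left)
  have h3 := (condExp_mul_right (hg.1.mono (le_sup_left : W' ≤ W' ⊔ A))
    (hf.mul_integrable hW i2) i1).trans (h1.mul (ae_eq_refl g))
  have b1 := hf.condExp A
  refine (condExp_condExp_of_le (sup_le le_sup_right (hA'.trans le_sup_left))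
    (sup_le hW' (hA.trans hW))).symm.trans ((condExp_congr_ae h3).trans ?_)
  exact (condExp_mul_left (b1.1.mono (le_sup_left : A ≤ A ⊔ A'))
    (b1.mul_integrable (hA.trans hW) i2) i2).trans ((ae_eq_refl _).mul h2)

theorem norm_const_aux (hA : A ≤ m0) (hC : C ≤ m0) (hD : D ≤ m0) (hAC : Indep A C μ)
    (hCD : Indep C D μ) (ha : BM μ A a) (hb : BM μ C b) (hc : BM μ D c)
    (h : a =ᵐ[μ] b * c) (h0 : ¬ a =ᵐ[μ] 0) : ∃ β : ℝ, 0 < β ∧ ∀ᵐ ω ∂μ, ‖b ω‖ = β := by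
  have e : ∀ᵐ ω ∂μ, ‖a ω‖ = ‖b ω‖ * ‖c ω‖ := h.mono fun ω hω => by
    rw [hω, Pi.mul_apply, norm_mul]
  have na := continuous_norm.comp_aestronglyMeasurable ha.1
  have nb := continuous_norm.comp_aestronglyMeasurable hb.1
  have nc := continuous_norm.comp_aestronglyMeasurable hc.1
  have h1 := (integral_congr_ae e).trans (integral_mul_indep_gen hC hD hCD nb nc)
  have h2 := integral_mul_indep_gen hA hC hAC na nb
  have h3 := integral_mul_indep_gen hC hD hCD (nb.pow 2) nc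
  have h4 : ∫ ω, ‖a ω‖ * ‖b ω‖ ∂μ = ∫ ω, ((fun ω => ‖b ω‖) ^ 2) ω * ‖c ω‖ ∂μ := by
    refine integral_congr_ae (e.mono fun ω hω => ?_)
    simp only [hω, Pi.pow_apply]
    ring
  have h5 : ∫ ω, ‖a ω‖ ∂μ ≠ 0 := fun h5 => h0 (((integral_eq_zero_iff_of_nonneg
    (fun ω => norm_nonneg (a ω)) (ha.integrable hA).norm).1 h5).mono fun ω hω => norm_eq_zero.1 hω)
  rw [h1] at h5
  rw [h4, h3, h1, mul_right_comm, ← sq] at h2
  refine ⟨_, (integral_nonneg fun ω => norm_nonneg (b ω)).lt_of_ne' (left_ne_zero_of_mul h5),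
    ae_eq_integral_of_variance_eq_zero (hb.memLp hC 2).norm ?_⟩
  rw [variance_eq_sub (hb.memLp hC 2).norm, mul_right_cancel₀ (right_ne_zero_of_mul h5) h2,
    sub_self]

theorem norm_const_of_mul (hA : A ≤ m0) (hC : C ≤ m0) (hD : D ≤ m0) (hAC : Indep A C μ)
    (hAD : Indep A D μ) (hCD : Indep C D μ) (ha : BM μ A a) (hb : BM μ C b) (hc : BM μ D c)
    (h : a =ᵐ[μ] b * c) (h0 : ¬ a =ᵐ[μ] 0) :
    ∃ β γ : ℝ, 0 < β ∧ 0 < γ ∧ (∀ᵐ ω ∂μ, ‖b ω‖ = β) ∧ ∀ᵐ ω ∂μ, ‖c ω‖ = γ := by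
  obtain ⟨β, h1, h2⟩ := norm_const_aux hA hC hD hAC hCD ha hb hc h h0
  obtain ⟨γ, h3, h4⟩ := norm_const_aux hA hD hC hAD hCD.symm ha hc hb (mul_comm b c ▸ h) h0
  exact ⟨β, γ, h1, h3, h2, h4⟩

theorem slot_meas (hW : W ≤ m0) (hW' : W' ≤ m0) (hi : Indep W W' μ) (hA : A ≤ W) (hA' : A' ≤ W')
    (hb : Uni W b) (hc : Uni W' c) (h : AEStronglyMeasurable[A ⊔ A'] (b * c) μ) :
    AEStronglyMeasurable[A] b μ ∧ AEStronglyMeasurable[A'] c μ := by
  have b1 : BM μ W b := hb.bm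
  have b2 : BM μ W' c := hc.bm
  have e := (condExp_of_aestronglyMeasurable' (sup_le (hA.trans hW) (hA'.trans hW')) h
    (b1.mul_integrable hW (b2.integrable hW'))).symm.trans
    (condExp_mul_indep hW hW' hi hA hA' b1 b2)
  have n1 : ∀ᵐ ω ∂μ, ‖b ω‖ ≤ 1 := Eventually.of_forall fun ω => (hb.2 ω).le
  have n2 : ∀ᵐ ω ∂μ, ‖c ω‖ ≤ 1 := Eventually.of_forall fun ω => (hc.2 ω).le
  have key : ∀ᵐ ω ∂μ, ‖(μ[b | A]) ω‖ = 1 ∧ ‖(μ[c | A']) ω‖ = 1 := by
    filter_upwards [e, norm_condExp_le_of_bound zero_le_one n1 A,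
      norm_condExp_le_of_bound zero_le_one n2 A'] with ω e1 e2 e3
    have e4 := congrArg norm e1
    rw [Pi.mul_apply, Pi.mul_apply, norm_mul, norm_mul, hb.2, hc.2, one_mul] at e4
    exact ⟨le_antisymm e2 (e4.le.trans (mul_le_of_le_one_right (norm_nonneg _) e3)),
      le_antisymm e3 (e4.le.trans (mul_le_of_le_one_left (norm_nonneg _) e2))⟩
  exact ⟨stronglyMeasurable_condExp.aestronglyMeasurable.congr (eq_condExp_of_norm (hA.trans hW)
      (b1.1.mono hW) n1 (key.mono fun _ h => h.1)).symm,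
    stronglyMeasurable_condExp.aestronglyMeasurable.congr (eq_condExp_of_norm (hA'.trans hW')
      (b2.1.mono hW') n2 (key.mono fun _ h => h.2)).symm⟩

end Vale.Agent.P102
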