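import Vale.Agent.P102.Op
import Vale.Agent.P102.Prod

/-! P102, file Compact: `u ↦ E[conj γ * E[u | A] | C]` is compact when `A` and `C` are independent.

PLAN. Write `op κ := pr C ∘L mulL κ ∘L pr A` for bounded `κ`; it is linear in `κ` (`mulL_add` ...).
(1) `op γ = op κ` with `κ := μ[γ | A ⊔ C]` (tower and pull-out of the `A`-measurable `pr A u`).
(2) `‖op κ‖ ≤ ‖κ‖₂`: `|⟪v, op κ u⟫| = |∫ κ * (pr A u) * conj (pr C v)| ≤ ‖κ‖₂ * ‖(pr A u) *
conj (pr C v)‖₂` and `eLpNorm_mul_indep`; take `v := op κ u`.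
(3) For `κ = ind s * ind t`, `op κ u = (∫ ind s * pr A u) • ind t` (`condExp_indep`), rank one,
so compact (e.g. `IsCompactOperator` of a map factoring through `ℂ`:
`isCompactOperator_of_locallyCompactSpace_dom` or `IsCompactOperator.comp_clm`).
(4) Let `V₀` be the submodule of `k : Lp ℂ 2 μ` with `BM μ m0 k` and `op k` compact; by
`mem_of_sup` with `V := V₀.topologicalClosure`, `κ` lies in the closure; by (2) `op κ` is a norm
limit of compact operators (`isClosed_setOf_isCompactOperator`). -/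

open MeasureTheory ProbabilityTheory Filter Topology Set
open scoped ComplexConjugate ENNReal InnerProductSpace

namespace Vale.Agent.P102

variable {Ω : Type*} {A C m0 : MeasurableSpace Ω} {μ : Measure Ω} [IsProbabilityMeasure μ]

/-- `u ↦ E[κ * E[u | A] | C]`. -/
noncomputable def cop {m0 : MeasurableSpace Ω} (μ : @Measure Ω m0) (A C : MeasurableSpace Ω)
    (κ : Ω → ℂ) : Lp ℂ 2 μ →L[ℂ] Lp ℂ 2 μ :=
  pr μ C ∘L mulL μ κ ∘L pr μ A

theorem inner_pr_pr (m : MeasurableSpace Ω) (u v : Lp ℂ 2 μ) :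
    ⟪v, pr μ m u⟫_ℂ = ⟪pr μ m v, u⟫_ℂ := by
  rw [← ContinuousLinearMap.adjoint_inner_left, pr_adjoint]

theorem norm_cop_le (hA : A ≤ m0) (hC : C ≤ m0) (hi : Indep A C μ) {k : Lp ℂ 2 μ}
    (hk : BM μ m0 k) : ‖cop μ A C k‖ ≤ ‖pr μ (A ⊔ C) k‖ := by
  have key : ∀ u v, ‖⟪v, cop μ A C k u⟫_ℂ‖ ≤ ‖pr μ (A ⊔ C) k‖ * ‖u‖ * ‖v‖ := fun u v => by
    have ha : AEStronglyMeasurable[A] (star ⇑(pr μ A u)) μ :=
      continuous_star.comp_aestronglyMeasurable (pr_aesm hA u)
    have hc := pr_aesm hC v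
    have e := eLpNorm_mul_indep hA hC hi ha hc
    rw [eLpNorm_star] at e
    have hw : MemLp (star ⇑(pr μ A u) * ⇑(pr μ C v)) 2 μ :=
      ⟨(ha.mono hA).mul (hc.mono hC), e ▸ ENNReal.mul_lt_top (Lp.eLpNorm_lt_top _)
        (Lp.eLpNorm_lt_top _)⟩
    have hW : pr μ (A ⊔ C) (hw.toLp _) = hw.toLp _ := pr_eq_self (sup_le hA hC)
      (((ha.mono le_sup_left).mul (hc.mono le_sup_right)).congr hw.coeFn_toLp.symm)
    have e1 : ⟪v, cop μ A C k u⟫_ℂ = ⟪hw.toLp _, pr μ (A ⊔ C) k⟫_ℂ := by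
      rw [inner_pr_pr, hW]
      simp only [cop, ContinuousLinearMap.comp_apply]
      rw [inner_pr_pr, inner_eq, inner_eq]
      refine integral_congr_ae ?_
      filter_upwards [mulL_ae hk (pr μ A u), hw.coeFn_toLp] with ω h1 h2
      simp only [h1, h2, Pi.mul_apply, Pi.star_apply, RCLike.star_def, map_mul, Complex.conj_conj]
      ring
    have e2 : ‖hw.toLp _‖ ≤ ‖u‖ * ‖v‖ := by
      rw [Lp.norm_toLp, e, ENNReal.toReal_mul, ← Lp.norm_def, ← Lp.norm_def]
      exact mul_le_mul (norm_pr_le _ _) (norm_pr_le _ _) (norm_nonneg _) (norm_nonneg _)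
    rw [e1]
    refine (norm_inner_le_norm _ _).trans ?_
    rw [mul_comm, mul_assoc]
    exact mul_le_mul_of_nonneg_left e2 (norm_nonneg _)
  refine ContinuousLinearMap.opNorm_le_bound _ (norm_nonneg _) fun u => ?_
  have h := key u (cop μ A C k u)
  rw [inner_self_eq_norm_sq_to_K, norm_pow, RCLike.norm_ofReal, abs_norm, sq] at h
  rcases (norm_nonneg (cop μ A C k u)).eq_or_lt with h0 | h0
  · rw [← h0]; positivity
  · exact le_of_mul_le_mul_right h h0

theorem isCompactOperator_cop_ind (hA : A ≤ m0) (hC : C ≤ m0) (hi : Indep A C μ) {s t : Set Ω}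
    (hs : MeasurableSet[A] s) (ht : MeasurableSet[C] t) :
    IsCompactOperator (cop μ A C (ind s * ind t)) := by
  have hS : BM μ A (ind s) := BM.ind hs
  have hT : BM μ C (ind t) := BM.ind ht
  have h := (isCompactOperator_of_locallyCompactSpace_dom
    (innerSL ℂ ((hS.memLp hA 2).toLp _) ∘L pr μ A)).clm_comp
      (ContinuousLinearMap.toSpanSingleton ℂ ((hT.memLp hC 2).toLp _))
  refine (funext fun u => ?_ : _ = ⇑(cop μ A C (ind s * ind t))) ▸ h
  have hu : Integrable (pr μ A u) μ := (Lp.memLp _).integrable one_le_two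
  have hsu := hS.mul_integrable hA hu
  have e1 : μ[⇑(mulL μ (ind s * ind t) (pr μ A u)) | C] =ᵐ[μ]
      μ[ind t * (ind s * ⇑(pr μ A u)) | C] :=
    condExp_congr_ae ((mulL_ae ((hS.mono hA).mul (hT.mono hC)) _).trans (.of_eq (by ring)))
  have e2 : ⟪(hS.memLp hA 2).toLp _, pr μ A u⟫_ℂ = ∫ ω, (ind s * ⇑(pr μ A u)) ω ∂μ := by
    rw [inner_eq]
    refine integral_congr_ae ((hS.memLp hA 2).coeFn_toLp.mono fun ω h => ?_)
    simp only [h, Pi.mul_apply]
    exact congrArg (· * _) (congrFun (star_ind s) ω)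
  ext1
  simp only [cop, Function.comp_apply, ContinuousLinearMap.comp_apply, innerSL_apply_apply,
    ContinuousLinearMap.toSpanSingleton_apply, e2]
  filter_upwards [Lp.coeFn_smul (∫ ω, (ind s * ⇑(pr μ A u)) ω ∂μ) ((hT.memLp hC 2).toLp _),
    (hT.memLp hC 2).coeFn_toLp, pr_ae hC (mulL μ (ind s * ind t) (pr μ A u)), e1,
    condExp_mul_left hT.1 (hT.mul_integrable hC hsu) hsu,
    condExp_indep hA hC hi (hS.1.mul (pr_aesm hA u))] with ω h1 h2 h3 h4 h5 h6
  rw [h1, h3, h4, h5, Pi.mul_apply, h6, Pi.smul_apply, h2, smul_eq_mul, mul_comm]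

/-- The bounded kernels whose operator is compact. -/
def cptKer {m0 : MeasurableSpace Ω} (μ : @Measure Ω m0) [IsProbabilityMeasure μ]
    (A C : MeasurableSpace Ω) : Submodule ℂ (Lp ℂ 2 μ) where
  carrier := {k | BM μ m0 k ∧ IsCompactOperator (cop μ A C k)}
  add_mem' := fun {a b} ha hb => ⟨(ha.1.add hb.1).congr (Lp.coeFn_add a b).symm, by
    have e : cop μ A C ⇑(a + b) = cop μ A C a + cop μ A C b := by
      simp only [cop, mulL_congr (Lp.coeFn_add a b), mulL_add ha.1 hb.1,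
        ContinuousLinearMap.add_comp, ContinuousLinearMap.comp_add]
    rw [e]
    exact ha.2.add hb.2⟩
  zero_mem' := ⟨(BM.const 0).congr (Lp.coeFn_zero ℂ 2 μ).symm, by
    have e : cop μ A C ⇑(0 : Lp ℂ 2 μ) = 0 := by
      have h := mulL_smul (μ := μ) (0 : ℂ) (BM.const 0)
      rw [zero_smul, zero_smul] at h
      rw [cop, mulL_congr (Lp.coeFn_zero ℂ 2 μ), h, ContinuousLinearMap.zero_comp,
        ContinuousLinearMap.comp_zero]
    rw [e]
    exact isCompactOperator_zero⟩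
  smul_mem' := fun c a ha => ⟨(ha.1.smul c).congr (Lp.coeFn_smul c a).symm, by
    have e : cop μ A C ⇑(c • a) = c • cop μ A C a := by
      simp only [cop, mulL_congr (Lp.coeFn_smul c a), mulL_smul c ha.1,
        ContinuousLinearMap.smul_comp, ContinuousLinearMap.comp_smul]
    rw [e]
    exact ha.2.smul c⟩

theorem isCompactOperator_Mop (hA : A ≤ m0) (hC : C ≤ m0) (hi : Indep A C μ) {γ : Ω → ℂ}
    (hγ : BM μ m0 γ) : IsCompactOperator (Mop μ A C γ) := by
  have hk := hγ.star.memLp le_rfl 2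
  have hk' : BM μ m0 (hk.toLp _) := hγ.star.congr hk.coeFn_toLp.symm
  have e : Mop μ A C γ = cop μ A C (hk.toLp _) := by
    rw [cop, mulL_congr hk.coeFn_toLp, Mop]
  have h : pr μ (A ⊔ C) (hk.toLp _) ∈ (cptKer μ A C).topologicalClosure :=
    mem_of_sup hA hC _ (Submodule.isClosed_topologicalClosure _)
      (fun s t hs ht f hf => (cptKer μ A C).le_topologicalClosure
        ⟨(((BM.ind hs).mono hA).mul ((BM.ind ht).mono hC)).congr hf.symm, by
          rw [cop, mulL_congr hf]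
          exact isCompactOperator_cop_ind hA hC hi hs ht⟩) (pr_aesm (sup_le hA hC) _)
  rw [e]
  generalize hk.toLp _ = k at hk' h
  refine isClosed_setOfPred_isCompactOperator.closure_subset
    (Metric.mem_closure_iff.2 fun ε hε => ?_)
  obtain ⟨k', h1, h2⟩ := Metric.mem_closure_iff.1 h ε hε
  refine ⟨cop μ A C k', h1.2, lt_of_le_of_lt ?_ h2⟩
  have e1 : cop μ A C k - cop μ A C k' = cop μ A C ⇑(k - k') := by
    simp only [cop, mulL_congr (Lp.coeFn_sub k k'), mulL_sub hk' h1.1,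
      ContinuousLinearMap.sub_comp, ContinuousLinearMap.comp_sub]
  rw [dist_eq_norm, dist_eq_norm, e1]
  refine (norm_cop_le hA hC hi ((hk'.sub h1.1).congr (Lp.coeFn_sub k k').symm)).trans
    (le_trans (le_of_eq ?_) (norm_pr_le (A ⊔ C) _))
  rw [map_sub, map_sub, pr_pr_of_le le_rfl (sup_le hA hC)]

end Vale.Agent.P102
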