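import Vale.Agent.P102.Near

/-! P102, file Count: counting labelled characters.

PLAN. `bessel`: the `conj (a j)` are orthonormal in `L²`; expand
`0 ≤ ∫ ‖F - ∑ l j * conj (a j)‖²` with `l j := ∫ a j * F` (or `Orthonormal.sum_inner_products_le`).
`exists_measurable_cnt`: `N := {v | ∃ (j : Fin n → ℕ) (q : ℚ), 0 < q ∧ q ≤ 1/10 ∧
(∀ i, Near (κ v) (κ v) (φ (j i)) q) ∧ (∀ i ≠ i', ‖∫ φ (j i) * conj (φ (j i'))‖ < 1/2) ∧
∀ i, ε + q < ‖∫ φ (j i) * F‖}` with the measurable versions of `Near`; `Ch.dich₂`,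
`norm_integral_of_triv`, `norm_integral_mul_sub_le`. `surj_of_cnt`: take a rational `0 < ε <`
label of `a` and the largest `n` with `Cnt (ρ.map Θ) F ε n` (`Cnt.le`; `Nat.findGreatest` or
`Nat.find`), with family `a' j`. The `a' j ∘ Θ` witness `Cnt ρ` (`Ch.comp`, `integral_map`). If `a`
is orthogonal to all of them, `Fin.cons` gives `Cnt ρ F ε (n + 1)`, contradiction; so `Ch.dich₂`.
`card_le_of_weight`: for `κ`-a.e. `ω`, `∑ j, 1_{Ch (ρ ω) (a j)} ≤ 1 / ε²` (`bessel` on the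
sub-family, `Agree`), integrate. -/

open MeasureTheory ProbabilityTheory Filter Topology Set
open scoped ComplexConjugate ENNReal InnerProductSpace

namespace Vale.Agent.P102

variable {Ω V : Type*} {m0 : MeasurableSpace Ω} {B : Fin 3 → MeasurableSpace Ω}
  {mV : MeasurableSpace V}

theorem bessel {ι : Type*} {ρ : Measure Ω} [IsProbabilityMeasure ρ] (S : Finset ι)
    {a : ι → Ω → ℂ} (ha : ∀ j ∈ S, Uni m0 (a j))
    (ho : ∀ j ∈ S, ∀ j' ∈ S, j ≠ j' → ∫ ω, a j ω * conj (a j' ω) ∂ρ = 0) {F : Ω → ℂ}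
    (hF : Measurable F) (hF1 : ∀ ω, ‖F ω‖ ≤ 1) : ∑ j ∈ S, ‖∫ ω, a j ω * F ω ∂ρ‖ ^ 2 ≤ 1 := by
  have hm : ∀ j : S, MemLp (star (a j)) 2 ρ := fun j => (ha j j.2).star.bm.memLp le_rfl 2
  have hFm : MemLp F 2 ρ := (BM.of_le hF hF1).memLp le_rfl 2
  have key : ∀ (j : S) {G : Ω → ℂ} (hG : MemLp G 2 ρ),
      ⟪(hm j).toLp _, hG.toLp _⟫_ℂ = ∫ ω, a j ω * G ω ∂ρ := by
    intro j G hG
    rw [L2.inner_def]
    refine integral_congr_ae ?_
    filter_upwards [(hm j).coeFn_toLp, hG.coeFn_toLp] with ω h1 h2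
    rw [h1, h2]
    simp [mul_comm]
  have ho' : Orthonormal ℂ fun j : S => (hm j).toLp _ := by
    classical
    rw [orthonormal_iff_ite]
    intro i j
    rw [key]
    split_ifs with h
    · subst h
      have : ∀ ω, a i ω * star (a i) ω = 1 := fun ω => by
        rw [mul_comm]
        exact congrFun (ha i i.2).star_mul_self ω
      simp only [this]
      simp
    · exact ho i i.2 j j.2 fun e => h (Subtype.ext e)
  have h1 := ho'.sum_inner_products_le (s := Finset.univ) (hFm.toLp _)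
  simp only [key] at h1
  rw [Finset.sum_coe_sort S fun j => ‖∫ ω, a j ω * F ω ∂ρ‖ ^ 2] at h1
  refine h1.trans (pow_le_one₀ (norm_nonneg _) ?_)
  have h2 := Lp.norm_le_of_ae_bound (f := hFm.toLp _) zero_le_one (by
    filter_upwards [hFm.coeFn_toLp] with ω h
    rw [h]
    exact hF1 ω)
  simpa [measureUnivNNReal] using h2

theorem Cnt.le (hB : ∀ j, B j ≤ m0) {ρ : Measure Ω} [IsProbabilityMeasure ρ] {F : Ω → ℂ}
    (hF : Measurable F) (hF1 : ∀ ω, ‖F ω‖ ≤ 1) {ε : ℝ} (hε : 0 ≤ ε) {n : ℕ}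
    (h : Cnt B ρ F ε n) : n * ε ^ 2 ≤ 1 := by
  obtain ⟨a, ha, ho⟩ := h
  have h1 := bessel Finset.univ (fun j _ => (ha j).1.mono (hB 0)) (fun j _ j' _ => ho j j') hF hF1
  refine le_trans ?_ h1
  simpa using Finset.card_nsmul_le_sum Finset.univ (fun j => ‖∫ ω, a j ω * F ω ∂ρ‖ ^ 2) (ε ^ 2)
    fun j _ => pow_le_pow_left₀ hε (ha j).2.2.le 2

theorem cnt_map {ρ : Measure Ω} {Θ : Ω → Ω} (hΘ : Measurable Θ) {a F : Ω → ℂ}
    (ha : Measurable a) (hF : Measurable F) (hFΘ : F ∘ Θ = F) :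
    ∫ ω, a ω * F ω ∂ρ.map Θ = ∫ ω, (a ∘ Θ) ω * F ω ∂ρ := by
  refine (integral_map hΘ.aemeasurable (ha.mul hF).aestronglyMeasurable).trans ?_
  exact integral_congr_ae
    (Eventually.of_forall fun ω => congrArg (a (Θ ω) * ·) (congrFun hFΘ ω))

theorem cnt_cross {ρ : Measure Ω} [IsProbabilityMeasure ρ] {a a' b b' : Ω → ℂ} (ha : Uni m0 a)
    (ha' : Uni m0 a') (hb : Uni m0 b) (hb' : Uni m0 b') :
    ‖∫ ω, a ω * conj (a' ω) ∂ρ - ∫ ω, b ω * conj (b' ω) ∂ρ‖ ≤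
      ∫ ω, ‖a ω - b ω‖ ∂ρ + ∫ ω, ‖a' ω - b' ω‖ ∂ρ := by
  have h1 := norm_integral_mul_sub_le (ρ := ρ) le_rfl ha hb ha'.star.1 fun ω => (ha'.star.2 ω).le
  have h2 := norm_integral_mul_sub_le (ρ := ρ) le_rfl ha'.star hb'.star hb.1 fun ω => (hb.2 ω).le
  simp only [Pi.star_apply, ← star_sub, norm_star, mul_comm _ (b _)] at h2
  exact (norm_sub_le_norm_sub_add_norm_sub _ _ _).trans (add_le_add h1 h2)

theorem Cnt.comp (hB : ∀ j, B j ≤ m0) {ρ : Measure Ω} [IsProbabilityMeasure ρ] {Θ : Ω → Ω}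
    (hΘ : Measurable Θ) (hΘB : ∀ j, Measurable[B j, B j] Θ) {F : Ω → ℂ} (hF : Measurable F)
    (hFΘ : F ∘ Θ = F) {ε : ℝ} {n : ℕ} (h : Cnt B (ρ.map Θ) F ε n) : Cnt B ρ F ε n := by
  obtain ⟨a, ha, ho⟩ := h
  have hm : ∀ j, Measurable (a j) := fun j => ((ha j).1.mono (hB 0)).1
  refine ⟨fun j => a j ∘ Θ, fun j => ⟨(ha j).1.comp (hΘB 0),
    Ch.comp hB hΘ hΘB (ha j).1 (ha j).2.1, ?_⟩, fun j j' hj => ?_⟩
  · exact cnt_map hΘ (hm j) hF hFΘ ▸ (ha j).2.2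
  · exact (integral_map hΘ.aemeasurable
      ((hm j).mul ((ha j').1.mono (hB 0)).star.1).aestronglyMeasurable).symm.trans (ho j j' hj)

theorem exists_measurable_cnt (hB : ∀ j, B j ≤ m0) (hcg : ∀ j, CG (B j)) (κ : Kernel V Ω)
    [IsMarkovKernel κ] {F : Ω → ℂ} (hF : Measurable F) (hF1 : ∀ ω, ‖F ω‖ ≤ 1) (ε : ℝ) (n : ℕ) :
    ∃ N : Set V, MeasurableSet N ∧ ∀ v, Good B (κ v) → (v ∈ N ↔ Cnt B (κ v) F ε n) := by
  obtain ⟨φ, hφ, hd⟩ := exists_dense_uni (hB 0) (hcg 0)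
  have hφ0 : ∀ j, Uni m0 (φ j) := fun j => (hφ j).mono (hB 0)
  choose! N hN hN' using fun (j : ℕ) (q : ℚ) (hq : (q : ℝ) ≤ 1 / 10) =>
    exists_measurable_near hB hcg κ κ (hφ j) hq
  refine ⟨⋃ j : Fin n → ℕ, ⋃ q : ℚ, ⋃ _ : (q : ℝ) ≤ 1 / 10,
    (⋂ i, N (j i) q ∩ {v | ε + q < ‖∫ ω, φ (j i) ω * F ω ∂κ v‖}) ∩
      ⋂ i, ⋂ i', ⋂ _ : i ≠ i', {v | ‖∫ ω, φ (j i) ω * conj (φ (j i') ω) ∂κ v‖ < 1 / 2},
    ?_, fun v hv => ?_⟩
  · refine MeasurableSet.iUnion fun j => MeasurableSet.iUnion fun q =>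
      MeasurableSet.iUnion fun hq => MeasurableSet.inter
        (MeasurableSet.iInter fun i => (hN _ _ hq).inter ?_)
        (MeasurableSet.iInter fun i => MeasurableSet.iInter fun i' =>
          MeasurableSet.iInter fun _ => ?_)
    · exact measurableSet_lt measurable_const
        (((hφ0 _).1.mul hF).stronglyMeasurable.integral_kernel (κ := κ)).measurable.norm
    · exact measurableSet_lt (((hφ0 _).1.mul
        (hφ0 _).star.1).stronglyMeasurable.integral_kernel (κ := κ)).measurable.norm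
        measurable_const
  simp only [mem_iUnion, mem_inter_iff, mem_iInter, mem_ofPred_eq]
  constructor
  · rintro ⟨j, q, hq, h1, h2⟩
    choose a ha hc _ hq' using fun i => (hN' _ _ hq v hv (Agree.refl _ _)).1 (h1 i).1
    refine ⟨a, fun i => ⟨ha i, hc i, ?_⟩, fun i i' hi => ?_⟩
    · have h3 := norm_integral_mul_sub_le (ρ := κ v) (hB 0) (ha i) (hφ (j i)) hF hF1
      have h4 := norm_sub_norm_le (∫ ω, φ (j i) ω * F ω ∂κ v) (∫ ω, a i ω * F ω ∂κ v)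
      rw [norm_sub_rev] at h4
      linarith [(h1 i).2, hq' i]
    · refine (Ch.dich₂ hB hv (ha i) (ha i') (hc i) (hc i')).resolve_right fun ht => ?_
      have h3 : ‖∫ ω, a i ω * conj (a i' ω) ∂κ v‖ = 1 :=
        norm_integral_of_triv ((ha i).mul (ha i').star) ht
      have h4 := cnt_cross (ρ := κ v) ((ha i).mono (hB 0)) ((ha i').mono (hB 0)) (hφ0 (j i))
        (hφ0 (j i'))
      have h5 := norm_sub_norm_le (∫ ω, a i ω * conj (a i' ω) ∂κ v)
        (∫ ω, φ (j i) ω * conj (φ (j i') ω) ∂κ v)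
      linarith [h2 i i' hi, hq' i, hq' i']
  · rintro ⟨a, ha, ho⟩
    have h0 : ∀ᶠ δ : ℝ in 𝓝[>] 0,
        (∀ i, ε + 2 * δ < ‖∫ ω, a i ω * F ω ∂κ v‖) ∧ δ < 1 / 10 := by
      refine mem_nhdsWithin_of_mem_nhds (Eventually.and (eventually_all.2 fun i => ?_)
        (gt_mem_nhds (by norm_num)))
      exact ContinuousAt.eventually_lt (by fun_prop) continuousAt_const (by simpa using (ha i).2.2)
    obtain ⟨δ, ⟨h1, h2⟩, hδ⟩ := (h0.and self_mem_nhdsWithin).exists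
    obtain ⟨q, hq0, hq⟩ := exists_rat_btwn (show 0 < δ from hδ)
    choose j hj using fun i => hd (κ v) inferInstance (a i) (ha i).1 q hq0
    have hq1 : (q : ℝ) ≤ 1 / 10 := by linarith
    refine ⟨j, q, hq1, fun i => ⟨(hN' _ _ hq1 v hv (Agree.refl _ _)).2
      ⟨a i, (ha i).1, (ha i).2.1, (ha i).2.1, hj i⟩, ?_⟩, fun i i' hi => ?_⟩
    · have h3 := norm_integral_mul_sub_le (ρ := κ v) (hB 0) (ha i).1 (hφ (j i)) hF hF1
      have h4 := norm_sub_norm_le (∫ ω, a i ω * F ω ∂κ v) (∫ ω, φ (j i) ω * F ω ∂κ v)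
      linarith [h1 i, hj i]
    · have h4 := cnt_cross (ρ := κ v) ((ha i).1.mono (hB 0)) ((ha i').1.mono (hB 0)) (hφ0 (j i))
        (hφ0 (j i'))
      rw [ho i i' hi, zero_sub, norm_neg] at h4
      linarith [hj i, hj i']

theorem surj_of_cnt (hB : ∀ j, B j ≤ m0) {ρ : Measure Ω} [IsProbabilityMeasure ρ] (hG : Good B ρ)
    {Θ : Ω → Ω} (hΘ : Measurable Θ) (hΘB : ∀ j, Measurable[B j, B j] Θ) {F : Ω → ℂ}
    (hF : Measurable F) (hF1 : ∀ ω, ‖F ω‖ ≤ 1) (hFΘ : F ∘ Θ = F)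
    (h : ∀ (q : ℚ) (n : ℕ), Cnt B ρ F q n → Cnt B (ρ.map Θ) F q n) {a : Ω → ℂ}
    (ha : Uni (B 0) a) (hc : Ch B ρ a) (h0 : ∫ ω, a ω * F ω ∂ρ ≠ 0) :
    ∃ a', Uni (B 0) a' ∧ Ch B (ρ.map Θ) a' ∧ Triv ρ (a * star (a' ∘ Θ)) := by
  by_contra! hcon
  obtain ⟨q, hq0, hq⟩ := exists_rat_btwn (norm_pos_iff.2 h0)
  have : IsProbabilityMeasure (ρ.map Θ) := Measure.isProbabilityMeasure_map hΘ.aemeasurable
  have key : ∀ n, Cnt B (ρ.map Θ) F q n := by
    intro n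
    induction n with
    | zero => exact ⟨Fin.elim0, fun j => j.elim0, fun j => j.elim0⟩
    | succ n ih =>
      obtain ⟨b, hb, ho⟩ := ih
      have hm : ∀ j, Uni m0 (b j) := fun j => (hb j).1.mono (hB 0)
      have h1 : ∀ j, Ch B ρ (b j ∘ Θ) := fun j => Ch.comp hB hΘ hΘB (hb j).1 (hb j).2.1
      have h2 : ∀ j, ∫ ω, a ω * conj ((b j ∘ Θ) ω) ∂ρ = 0 := fun j =>
        (Ch.dich₂ hB hG ha ((hb j).1.comp (hΘB 0)) hc (h1 j)).resolve_right
          (hcon _ (hb j).1 (hb j).2.1)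
      refine h q _ ⟨Fin.cons a fun j => b j ∘ Θ, fun j => ?_, fun j j' hj => ?_⟩
      · induction j using Fin.cases with
        | zero => exact ⟨ha, hc, hq⟩
        | succ j =>
          exact ⟨(hb j).1.comp (hΘB 0), h1 j, cnt_map hΘ (hm j).1 hF hFΘ ▸ (hb j).2.2⟩
      · induction j using Fin.cases with
        | zero =>
          induction j' using Fin.cases with
          | zero => exact absurd rfl hj
          | succ j' => exact h2 j'
        | succ j =>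
          induction j' using Fin.cases with
          | zero =>
            have h3 := congrArg conj (h2 j)
            rw [← integral_conj, map_zero] at h3
            simpa [mul_comm] using h3
          | succ j' =>
            exact (integral_map hΘ.aemeasurable
              ((hm j).1.mul (hm j').star.1).aestronglyMeasurable).symm.trans
              (ho j j' fun e => hj (congrArg _ e))
  obtain ⟨n, hn⟩ := exists_nat_gt (1 / (q : ℝ) ^ 2)
  have h1 := (key n).le hB hF hF1 hq0.le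
  rw [div_lt_iff₀ (by positivity)] at hn
  linarith

theorem card_le_of_weight (hB : ∀ j, B j ≤ m0) (hcg : ∀ j, CG (B j)) (κ : Measure Ω)
    [IsProbabilityMeasure κ] (lam : Measure V) [IsProbabilityMeasure lam] (ρ : Kernel V Ω)
    [IsMarkovKernel ρ] (hρ : ∀ᵐ v ∂lam, Good B (ρ v) ∧ Agree (B 0) (ρ v) κ) {F : Ω → ℂ}
    (hF : Measurable[B 0] F) (hF1 : ∀ ω, ‖F ω‖ ≤ 1) {σ ε : ℝ} (hε : 0 ≤ ε) {ι : Type*}
    (S : Finset ι) {a : ι → Ω → ℂ}
    (ha : ∀ j ∈ S, Uni (B 0) (a j) ∧ σ ≤ lam.real {v | Ch B (ρ v) (a j)} ∧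
      ε ≤ ‖∫ ω, a j ω * F ω ∂κ‖)
    (hn : ∀ j ∈ S, ∀ j' ∈ S, j ≠ j' → ¬ Triv κ (a j * star (a j'))) :
    S.card * (σ * ε ^ 2) ≤ 1 := by
  classical
  have hm : ∀ j ∈ S, MeasurableSet {v | Ch B (ρ v) (a j)} := fun j hj =>
    measurableSet_Ch hB hcg ρ (ha j hj).1
  have hi : ∀ j ∈ S, Integrable ({v | Ch B (ρ v) (a j)}.indicator fun _ => ε ^ 2) lam :=
    fun j hj => (integrable_const _).indicator (hm j hj)
  have h1 : ∀ᵐ v ∂lam, ∑ j ∈ S, {v | Ch B (ρ v) (a j)}.indicator (fun _ => ε ^ 2) v ≤ 1 := by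
    filter_upwards [hρ] with v hv
    have h2 := bessel (ρ := ρ v) (S.filter fun j => Ch B (ρ v) (a j))
      (fun j hj => (ha j (Finset.mem_filter.1 hj).1).1.mono (hB 0)) (fun j hj j' hj' e => by
        obtain ⟨h3, h4⟩ := Finset.mem_filter.1 hj
        obtain ⟨h3', h4'⟩ := Finset.mem_filter.1 hj'
        refine (Ch.dich₂ hB hv.1 (ha j h3).1 (ha j' h3').1 h4 h4').resolve_right fun ht => ?_
        exact hn j h3 j' h3' e (hv.2.triv ((ha j h3).1.mul (ha j' h3').1.star).1 ht))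
      (hF.mono (hB 0) le_rfl) hF1
    refine le_trans ?_ h2
    rw [Finset.sum_filter]
    refine Finset.sum_le_sum fun j hj => ?_
    by_cases hc : Ch B (ρ v) (a j)
    · rw [if_pos hc, indicator_of_mem (show v ∈ {v | Ch B (ρ v) (a j)} from hc),
        hv.2.integral_eq (hB 0) (F := fun ω => a j ω * F ω)
          ((ha j hj).1.1.mul hF).stronglyMeasurable]
      exact pow_le_pow_left₀ hε (ha j hj).2.2 2
    · rw [if_neg hc, indicator_of_notMem (show v ∉ {v | Ch B (ρ v) (a j)} from hc)]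
  calc (S.card : ℝ) * (σ * ε ^ 2) = ∑ j ∈ S, σ * ε ^ 2 := by simp
    _ ≤ ∑ j ∈ S, ∫ v, {v | Ch B (ρ v) (a j)}.indicator (fun _ => ε ^ 2) v ∂lam := by
      refine Finset.sum_le_sum fun j hj => ?_
      rw [integral_indicator_const _ (hm j hj), smul_eq_mul]
      exact mul_le_mul_of_nonneg_right (ha j hj).2.1 (sq_nonneg ε)
    _ ≤ ∫ _, (1 : ℝ) ∂lam := by
      rw [← integral_finsetSum _ hi]
      exact integral_mono_ae (integrable_finsetSum _ hi) (integrable_const _) h1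
    _ = 1 := by simp

end Vale.Agent.P102
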