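import Vale.Agent.P102.CubeDefs

/-! P102, file Cube1: the laws `Q A W` and the law of a family of points.

PLAN. `Q_cons`: `Ultrafilter.le_nhds_lim` (the space `ProbabilityMeasure (A → X)` is compact and
Hausdorff). `Q_nat`, `Q_Sh`, `Q_eval`: induction on `W`; `ProbabilityMeasure.continuous_map`,
`tendsto_nhds_unique` (along the ultrafilter), `Measure.map_map`, and the pointwise identities
`pre g ∘ V c n = V (c ∘ g) n ∘ pre g`, `Sh d ∘ V c n = V c n ∘ Sh d`. `Q_const`: `V c n = Sh d` (if
`A` is empty take any `d`). `Q_filter`: induction. `law`: `(PM σ).map (pre s)` is the limit along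
the ultrafilter `Ultrafilter.of atTop ≤ atTop` of `Q A ((I.sort).map col)` (`Q_nat`,
`List.map_map`); for `I ⊇ L.toFinset`, `Q_filter` with `p l := l ∈ L` and
`(I.sort).filter (· ∈ L) = L` (two strictly sorted lists with the same members:
`List.Pairwise.eq_of_mem_iff` or `List.Perm.eq_of_pairwise`). `spread`: apply `law` with
`L = I.sort` and `L' = (I.sort).map θ`. `PP_Sh`, `PP_eval`: pass to the limit as in `law`. -/

open MeasureTheory ProbabilityTheory Filter Topology Set
open scoped ComplexConjugate ENNReal InnerProductSpace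

namespace Vale.Agent.P102

namespace Dyn

variable {k : ℕ} {X : Type} [TopologicalSpace X] [PolishSpace X] [CompactSpace X]
  [MeasurableSpace X] [BorelSpace X] (D : Dyn k X)

variable {A A' : Type} [Countable A] [Countable A'] {U : Type} [LinearOrder U] [Countable U]
  {σ : U → Fin k}

omit D in
/-- Push-forwards pass to the limit. -/
theorem lim_map {Y Y' ι : Type} [TopologicalSpace Y] [MeasurableSpace Y] [BorelSpace Y]
    [TopologicalSpace Y'] [MeasurableSpace Y'] [BorelSpace Y'] [HasOuterApproxClosed Y']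
    {F : Filter ι} [F.NeBot] {ρ : ι → ProbabilityMeasure Y} {ρ' : ι → ProbabilityMeasure Y'}
    {ρ₀ : ProbabilityMeasure Y} {ρ₀' : ProbabilityMeasure Y'} (h : Tendsto ρ F (𝓝 ρ₀))
    (h' : Tendsto ρ' F (𝓝 ρ₀')) {g : Y → Y'} (hg : Continuous g)
    (e : ∀ᶠ i in F, (ρ i : Measure Y).map g = ρ' i) : (ρ₀ : Measure Y).map g = ρ₀' :=
  congrArg ProbabilityMeasure.toMeasure (tendsto_nhds_unique_of_eventuallyEq
    (((ProbabilityMeasure.continuous_map hg).tendsto ρ₀).comp h) h'
    (e.mono fun _ hi => Subtype.ext hi))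

omit [CompactSpace X] in
theorem Q_nil_coe (A : Type) [Countable A] :
    (D.Q A [] : Measure (A → X)) = (D.μ : Measure X).map fun x (_ : A) => x := rfl

omit [TopologicalSpace X] [PolishSpace X] [CompactSpace X] [BorelSpace X] D in
theorem measurable_diag (A : Type) : Measurable fun (x : X) (_ : A) => x :=
  measurable_pi_lambda _ fun _ => measurable_id

theorem Q_cons (c : A → Fin k) (W : List (A → Fin k)) :
    Tendsto (fun n => (D.Q A W).map (D.measurable_V c n).aemeasurable) D.𝔭 (𝓝 (D.Q A (c :: W))) := by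
  exact Ultrafilter.le_nhds_lim (D.𝔭.map fun n => (D.Q A W).map (D.measurable_V c n).aemeasurable)


theorem Q_nat (g : A' → A) (W : List (A → Fin k)) :
    (D.Q A W : Measure (A → X)).map (pre g) = D.Q A' (W.map fun c => c ∘ g) := by
  induction W with
  | nil => exact Measure.map_map (measurable_pre g) (measurable_diag A)
  | cons c W ih =>
    refine lim_map (D.Q_cons c W) (D.Q_cons (c ∘ g) _) (continuous_pre g)
      (Eventually.of_forall fun n => ?_)
    rw [ProbabilityMeasure.toMeasure_map, ProbabilityMeasure.toMeasure_map, ← ih,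
      Measure.map_map (measurable_pre g) (D.measurable_V c n),
      Measure.map_map (D.measurable_V _ n) (measurable_pre g)]
    rfl


theorem Q_Sh (d : ℤ) (W : List (A → Fin k)) :
    (D.Q A W : Measure (A → X)).map (D.Sh A d) = D.Q A W := by
  induction W with
  | nil =>
    rw [Q_nil_coe, Measure.map_map (D.measurable_Sh A d) (measurable_diag A)]
    conv_rhs => rw [← D.pres d, Measure.map_map (measurable_diag A) (D.cont d).measurable]
    rfl
  | cons c W ih =>
    refine lim_map (D.Q_cons c W) (D.Q_cons c W) (D.continuous_Sh A d)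
      (Eventually.of_forall fun n => ?_)
    rw [ProbabilityMeasure.toMeasure_map,
      Measure.map_map (D.measurable_Sh A d) (D.measurable_V c n)]
    conv_rhs => rw [← ih, Measure.map_map (D.measurable_V c n) (D.measurable_Sh A d)]
    congr 1
    funext ω a
    simp only [Function.comp_apply, Sh, V, ← D.T_add, add_comm]


theorem Q_eval (a : A) (W : List (A → Fin k)) :
    (D.Q A W : Measure (A → X)).map (fun ω => ω a) = D.μ := by
  induction W with
  | nil => exact (Measure.map_map (measurable_pi_apply a) (measurable_diag A)).trans Measure.map_id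
  | cons c W ih =>
    refine lim_map (D.Q_cons c W) tendsto_const_nhds (continuous_apply a)
      (Eventually.of_forall fun n => ?_)
    rw [ProbabilityMeasure.toMeasure_map,
      Measure.map_map (measurable_pi_apply a) (D.measurable_V c n), ← D.pres (D.t n (c a)), ← ih,
      Measure.map_map (D.cont _).measurable (measurable_pi_apply a)]
    rfl


theorem Q_const {c : A → Fin k} (hc : ∀ a b, c a = c b) (W : List (A → Fin k)) :
    D.Q A (c :: W) = D.Q A W := by
  refine tendsto_nhds_unique (D.Q_cons c W) (tendsto_const_nhds.congr fun n => Subtype.ext ?_)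
  obtain ⟨d, hd⟩ : ∃ d, D.V c n = D.Sh A d := by
    rcases isEmpty_or_nonempty A with h | ⟨⟨a⟩⟩
    · exact ⟨0, Subsingleton.elim _ _⟩
    · exact ⟨D.t n (c a), funext fun ω => funext fun b => by rw [V, Sh, hc a b]⟩
  exact ((congrArg (Measure.map · (D.Q A W : Measure (A → X))) hd).trans (D.Q_Sh d W)).symm


theorem Q_filter {ι : Type} (col : ι → A → Fin k) (p : ι → Bool) (L : List ι)
    (h : ∀ l ∈ L, p l = false → ∀ a b, col l a = col l b) :
    D.Q A (L.map col) = D.Q A ((L.filter p).map col) := by
  induction L with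
  | nil => rfl
  | cons l L ih =>
    have h1 := ih fun l' hl' => h l' (List.mem_cons_of_mem _ hl')
    cases e : p l
    · rw [List.filter_cons_of_neg (by simp [e]), List.map_cons,
        D.Q_const (h l List.mem_cons_self e), h1]
    · rw [List.filter_cons_of_pos e]
      exact congrArg (fun ρ : ProbabilityMeasure (A → X) =>
        (D.𝔭.map fun n => ρ.map (D.measurable_V (col l) n).aemeasurable).lim) h1


theorem PM_tendsto (σ : U → Fin k) :
    Tendsto (fun I : Finset U => D.Q (Pt σ) ((I.sort (· ≤ ·)).map fun l s => s.1 l))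
      (Ultrafilter.of (atTop : Filter (Finset U))) (𝓝 (D.PM σ)) := by
  unfold PM
  generalize Ultrafilter.of (atTop : Filter (Finset U)) = F
  generalize (fun I : Finset U => D.Q (Pt σ) ((I.sort (· ≤ ·)).map fun l s => s.1 l)) = g
  exact (F.map g).le_nhds_lim


theorem law (s : A → Pt σ) (L : List U) (hL : L.Pairwise (· < ·))
    (h : ∀ l ∉ L, ∀ a b, (s a).1 l = (s b).1 l) :
    (D.PP σ).map (pre s) = D.Q A (L.map fun l a => (s a).1 l) := by
  refine lim_map (D.PM_tendsto σ) tendsto_const_nhds (continuous_pre s)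
    (((eventually_ge_atTop L.toFinset).filter_mono (Ultrafilter.of_le _)).mono fun I hI => ?_)
  have h1 : (I.sort (· ≤ ·)).filter (fun l => decide (l ∈ L)) = L :=
    (I.sortedLT_sort.pairwise.filter _).eq_of_mem_iff hL fun l => by
      rw [List.mem_filter, Finset.mem_sort, decide_eq_true_iff]
      exact and_iff_right_of_imp fun hl => hI (List.mem_toFinset.2 hl)
  rw [D.Q_nat, List.map_map]
  refine congrArg _ ((D.Q_filter (fun l a => (s a).1 l) (fun l => decide (l ∈ L)) _
    fun l _ hl => h l (of_decide_eq_false hl)).trans ?_)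
  rw [h1]


theorem spread (s s' : A → Pt σ) (I : Finset U) (θ : U → U) (hθ : StrictMonoOn θ I)
    (h1 : ∀ l ∈ I, ∀ a, (s' a).1 (θ l) = (s a).1 l) (h2 : ∀ l ∉ I, ∀ a b, (s a).1 l = (s b).1 l)
    (h3 : ∀ l, (∀ l' ∈ I, θ l' ≠ l) → ∀ a b, (s' a).1 l = (s' b).1 l) :
    (D.PP σ).map (pre s') = (D.PP σ).map (pre s) := by
  have h4 := I.sortedLT_sort.pairwise
  rw [D.law s _ h4 fun l hl => h2 l fun h => hl ((Finset.mem_sort _).2 h),
    D.law s' ((I.sort (· ≤ ·)).map θ) (List.pairwise_map.2 (h4.imp_of_mem fun a b h =>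
      hθ ((Finset.mem_sort _).1 a) ((Finset.mem_sort _).1 b) h)) fun l hl => h3 l fun l' hl' e =>
        hl (List.mem_map.2 ⟨l', (Finset.mem_sort _).2 hl', e⟩), List.map_map]
  congr 2
  exact List.map_congr_left fun l hl => funext (h1 l ((Finset.mem_sort _).1 hl))


theorem PP_Sh (d : ℤ) : (D.PP σ).map (D.Sh (Pt σ) d) = D.PP σ := by
  exact lim_map (D.PM_tendsto σ) (D.PM_tendsto σ) (D.continuous_Sh _ d)
    (Eventually.of_forall fun _ => D.Q_Sh d _)


theorem PP_eval (s : Pt σ) : (D.PP σ).map (fun ω => ω s) = D.μ := by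
  exact lim_map (D.PM_tendsto σ) tendsto_const_nhds (continuous_apply s)
    (Eventually.of_forall fun _ => D.Q_eval s _)


theorem ν_Sh (d : ℤ) : D.ν.map (D.Sh (Fin k) d) = D.ν := by
  exact D.Q_Sh d _


theorem ν_eval (i : Fin k) : D.ν.map (fun y => y i) = D.μ := by
  exact D.Q_eval i _


/-- The limit joining is the limit of the off-diagonal joinings. -/
theorem ν_tendsto : Tendsto (fun n => D.μ.map (f := fun x (i : Fin k) => D.T (D.t n i) x)
    (measurable_pi_lambda _ fun i => (D.cont (D.t n i)).measurable).aemeasurable) D.𝔭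
    (𝓝 (D.Q (Fin k) [id])) := by
  exact (D.Q_cons id []).congr fun n =>
    Subtype.ext (Measure.map_map (D.measurable_V id n) (measurable_diag _))


/-- A combinatorial line has the law `ν`. -/
theorem law_line (s : Pt σ) (l : U) : (D.PP σ).map (pre fun i => s.upd l i) = D.ν := by
  rw [D.law (fun i => s.upd l i) [l] (List.pairwise_singleton _ _) fun l' hl' a b => by
    rw [s.upd_ne a (List.ne_of_not_mem_cons hl'), s.upd_ne b (List.ne_of_not_mem_cons hl')]]
  simp only [List.map_cons, List.map_nil, Pt.upd_self]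
  rfl


end Dyn

end Vale.Agent.P102
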