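import Vale.Agent.P102.Ker1

/-! P102, file Ker2: transfer of conditional expectations and of conditional independence to the
fibres.

PLAN. `kd_condExp_zero`: for `s` in a countable pi-system generating `A` (with `univ`),
`P[ind s * f | comap η] = P[ind s * P[f | A] | comap η] = 0`, so `∫ ind s * f ∂kd = 0` a.e.
(`kd_integral`); for a good `ω`, `ae_zero_of_pi` applied to `(kd ..)[f | A]`.
`kd_orth`: `integral_mul_condExp`. `kd_CI`: let `p` be a countable pi-system generating `A`. For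
`s ∈ p` let `h_s` be a everywhere bounded, `D ⊔ comap η`-measurable version of
`P[ind s | D ⊔ comap η]` (truncate: `if ‖·‖ ≤ 1 then · else 0`). Apply `kd_condExp_zero` to
`ind s - h_s` and the countably generated sigma-algebra `C ⊔ (D ⊔ comap η)`. For good `ω` and
`ρ := kd ..`: `η = η ω` a.e. (`kd_proper`), so every set of `D ⊔ comap η` is `ρ`-a.e. equal to a
set of `D` (the sets with this property form a sigma-algebra; use `aeInf ρ m0 D`), and `h_s` is
`AEStronglyMeasurable[D]` (`aesm_of_ae_eq_sets`). Then `ρ[ind s | C ⊔ D] = h_s` (tower) and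
`CI.of_pi`. -/

open MeasureTheory ProbabilityTheory Filter Topology Set
open scoped ComplexConjugate ENNReal InnerProductSpace

namespace Vale.Agent.P102

variable {Ω E : Type*} {A C D : MeasurableSpace Ω} [m0 : MeasurableSpace Ω] [StandardBorelSpace Ω]
  [Nonempty Ω] [mE : MeasurableSpace E] {P : Measure Ω} [IsProbabilityMeasure P] {η : Ω → E}

theorem cg_iSup {Y ι : Type*} [Countable ι] {F : ι → MeasurableSpace Y} (h : ∀ i, CG (F i)) :
    CG (⨆ i, F i) := by
  choose b hb hm using fun i => (h i).isCountablyGenerated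
  refine @MeasurableSpace.CountablyGenerated.mk Y (⨆ i, F i) ⟨⋃ i, b i, countable_iUnion hb, ?_⟩
  rw [← MeasurableSpace.iSup_generateFrom]
  exact iSup_congr hm


theorem cg_biSup {Y ι : Type*} [Countable ι] {F : ι → MeasurableSpace Y} (h : ∀ i, CG (F i))
    (S : Set ι) : CG (⨆ i ∈ S, F i) := by
  rw [iSup_subtype']
  exact cg_iSup fun i : S => h i


theorem exists_countable_pi {Y : Type*} {m : MeasurableSpace Y} (h : CG m) :
    ∃ p : Set (Set Y), p.Countable ∧ IsPiSystem p ∧ univ ∈ p ∧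
      m = MeasurableSpace.generateFrom p := by
  exact exists_countable_pi_aux h


theorem cg_bot {Y : Type*} : CG (⊥ : MeasurableSpace Y) :=
  @MeasurableSpace.CountablyGenerated.mk Y ⊥
    ⟨∅, countable_empty, MeasurableSpace.generateFrom_empty.symm⟩

theorem kd_condExp_zero (hη : Measurable η) (hA : A ≤ m0) (hcg : CG A) (hle : mE.comap η ≤ A)
    {f : Ω → ℂ} (hf : Measurable f) {c : ℝ} (hc : ∀ ω, ‖f ω‖ ≤ c) (h0 : P[f | A] =ᵐ[P] 0) :
    ∀ᵐ ω ∂P, (kd P η (η ω))[f | A] =ᵐ[kd P η (η ω)] 0 := by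
  obtain ⟨p, hp, hpi, hu, hgen⟩ := exists_countable_pi hcg
  have hpA : ∀ s ∈ p, MeasurableSet[A] s := fun s hs => by
    rw [hgen]; exact MeasurableSpace.measurableSet_generateFrom hs
  have hfi : Integrable f P := (BM.of_le (μ := P) hf hc).integrable le_rfl
  have h1 : ∀ᵐ ω ∂P, ∀ s ∈ p, ∫ ω', ind s ω' * f ω' ∂kd P η (η ω) = 0 := by
    refine (ae_ball_iff hp).2 fun s hs => ?_
    have hb : BM P A (ind s) := BM.ind (hpA s hs)
    have hi : Integrable (ind s * f) P := hb.mul_integrable hA hfi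
    have e1 := kd_integral (P := P) hη hi
    have e2 := condExp_condExp_of_le (μ := P) (f := ind s * f) hle hA
    have e3 : P[ind s * f | A] =ᵐ[P] 0 := by
      filter_upwards [condExp_mul_left hb.1 hi hfi, h0] with ω a1 a2
      rw [a1, Pi.mul_apply, a2]
      simp
    have e4 := condExp_congr_ae (m := mE.comap η) e3
    rw [condExp_zero] at e4
    filter_upwards [e1, e2, e4] with ω a1 a2 a4
    simp only [Pi.mul_apply] at a1
    rw [a1, ← a2, a4]
    rfl
  filter_upwards [h1] with ω hω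
  have hfi' : Integrable f (kd P η (η ω)) := (BM.of_le hf hc).integrable le_rfl
  have h2 : ∀ s ∈ p, ∫ ω' in s, ((kd P η (η ω))[f | A]) ω' ∂kd P η (η ω) = 0 := fun s hs => by
    rw [setIntegral_condExp hA hfi' (hpA s hs), ← integral_ind_mul (hA s (hpA s hs)), hω s hs]
  refine ae_zero_of_pi hA hpi hgen integrable_condExp
    stronglyMeasurable_condExp.aestronglyMeasurable ?_ h2
  have := h2 univ hu
  rwa [Measure.restrict_univ] at this


theorem kd_orth (hη : Measurable η) (hA : A ≤ m0) (hcg : CG A) (hle : mE.comap η ≤ A)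
    {f : Ω → ℂ} (hf : Measurable f) {c : ℝ} (hc : ∀ ω, ‖f ω‖ ≤ c) (h0 : P[f | A] =ᵐ[P] 0) :
    ∀ᵐ ω ∂P, ∀ v : Ω → ℂ, Integrable v (kd P η (η ω)) → Measurable[A] v →
      ∫ ω', v ω' * f ω' ∂kd P η (η ω) = 0 := by
  filter_upwards [kd_condExp_zero hη hA hcg hle hf hc h0] with ω hω v hv hvm
  have hb : BM (kd P η (η ω)) m0 f := BM.of_le hf hc
  have hi : Integrable (v * f) (kd P η (η ω)) := by
    rw [mul_comm]; exact hb.mul_integrable le_rfl hv
  rw [← integral_mul_condExp hA hvm.stronglyMeasurable.aestronglyMeasurable hi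
    (hb.integrable le_rfl)]
  refine integral_eq_zero_of_ae ?_
  filter_upwards [hω] with ω' h1
  rw [h1]
  simp


theorem kd_CI [StandardBorelSpace E] (hη : Measurable η) (hA : CG A) (hC : CG C) (hD : CG D)
    (h : CI P A C (D ⊔ mE.comap η)) : ∀ᵐ ω ∂P, CI (kd P η (η ω)) A C D := by
  obtain ⟨p, hp, hpi, -, hgen⟩ := exists_countable_pi hA
  have hpA : ∀ s ∈ p, MeasurableSet[A] s := fun s hs => by
    rw [hgen]; exact MeasurableSpace.measurableSet_generateFrom hs
  have hD0 : D ≤ m0 := le_sup_left.trans h.leD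
  have hM : C ⊔ (D ⊔ mE.comap η) ≤ m0 := sup_le h.leC h.leD
  have hMcg : CG (C ⊔ (D ⊔ mE.comap η)) :=
    MeasurableSpace.CountablyGenerated.sup hC (MeasurableSpace.CountablyGenerated.sup hD
      (MeasurableSpace.CountablyGenerated.comap η))
  have h1 : ∀ᵐ ω ∂P, ∀ s ∈ p, ∃ g : Ω → ℂ, Measurable[D ⊔ mE.comap η] g ∧ (∀ ω', ‖g ω'‖ ≤ 1) ∧
      (kd P η (η ω))[ind s - g | C ⊔ (D ⊔ mE.comap η)] =ᵐ[kd P η (η ω)] 0 := by
    refine (ae_ball_iff hp).2 fun s hs => ?_
    have hs0 : MeasurableSet s := h.leA s (hpA s hs)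
    have hgm : Measurable[D ⊔ mE.comap η] (P[ind s | D ⊔ mE.comap η]) :=
      stronglyMeasurable_condExp.measurable
    obtain ⟨g, hg1, hg2, hg3⟩ : ∃ g : Ω → ℂ, Measurable[D ⊔ mE.comap η] g ∧ (∀ ω', ‖g ω'‖ ≤ 1) ∧
        g =ᵐ[P] P[ind s | D ⊔ mE.comap η] := by
      refine ⟨fun ω => if ‖(P[ind s | D ⊔ mE.comap η]) ω‖ ≤ 1 then (P[ind s | D ⊔ mE.comap η]) ω
        else 0, ?_, ?_, ?_⟩
      · exact Measurable.ite (hgm (measurableSet_le measurable_norm measurable_const)) hgm
          measurable_const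
      · intro ω'
        beta_reduce
        split_ifs with h3
        · exact h3
        · simp
      · filter_upwards [norm_condExp_le_of_bound (μ := P) zero_le_one
          (Eventually.of_forall (norm_ind_le s)) (D ⊔ mE.comap η)] with ω h3
        rw [if_pos h3]
    have hg0 : Measurable g := hg1.mono h.leD le_rfl
    have hgi : Integrable g P := (BM.of_le (μ := P) hg0 hg2).integrable le_rfl
    have hsi : Integrable (ind s) P := (BM.ind (μ := P) hs0).integrable le_rfl
    have h0 : P[ind s - g | C ⊔ (D ⊔ mE.comap η)] =ᵐ[P] 0 := by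
      have e1 := condExp_sub hsi hgi (C ⊔ (D ⊔ mE.comap η))
      have e2 : P[g | C ⊔ (D ⊔ mE.comap η)] = g :=
        condExp_of_stronglyMeasurable hM (hg1.stronglyMeasurable.mono le_sup_right) hgi
      filter_upwards [e1, h.eq s (hpA s hs), hg3] with ω a1 a2 a3
      rw [a1, Pi.sub_apply, e2, a2, a3]
      simp
    have hc : ∀ ω, ‖(ind s - g) ω‖ ≤ 2 := fun ω => by
      rw [Pi.sub_apply]
      refine (norm_sub_le _ _).trans ?_
      linarith [norm_ind_le s ω, hg2 ω]
    filter_upwards [kd_condExp_zero hη hM hMcg (le_sup_right.trans le_sup_right)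
      ((measurable_ind hs0).sub hg0) hc h0] with ω hω
    exact ⟨g, hg1, hg2, hω⟩
  filter_upwards [h1, kd_proper (P := P) hη] with ω hω hpr
  have hle : D ⊔ mE.comap η ≤ aeInf (kd P η (η ω)) m0 D := by
    refine sup_le (fun s hs => ⟨hD0 s hs, s, hs, ae_eq_refl _⟩) ?_
    rintro _ ⟨t, ht, rfl⟩
    refine ⟨hη ht, ?_⟩
    by_cases h3 : η ω ∈ t
    · refine ⟨univ, MeasurableSet.univ, ?_⟩
      filter_upwards [hpr] with ω' h4
      apply propext
      change η ω' ∈ t ↔ True
      rw [h4]; simpa using h3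
    · refine ⟨∅, @MeasurableSet.empty _ D, ?_⟩
      filter_upwards [hpr] with ω' h4
      apply propext
      change η ω' ∈ t ↔ False
      rw [h4]; simpa using h3
  refine CI.of_pi h.leA h.leC hD0 hpi hgen fun s hs => ?_
  obtain ⟨g, hg1, hg2, hg3⟩ := hω s hs
  have hs0 : MeasurableSet s := h.leA s (hpA s hs)
  have hg0 : Measurable g := hg1.mono h.leD le_rfl
  have hgi : Integrable g (kd P η (η ω)) := (BM.of_le hg0 hg2).integrable le_rfl
  have hsi : Integrable (ind s) (kd P η (η ω)) := (BM.ind hs0).integrable le_rfl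
  have hgD : AEStronglyMeasurable[D] g (kd P η (η ω)) :=
    aesm_of_ae_eq_sets (fun s hs => (hle s hs).2) hg1.stronglyMeasurable.aestronglyMeasurable
  have hCD : C ⊔ D ≤ C ⊔ (D ⊔ mE.comap η) := sup_le_sup_left le_sup_left C
  have e1 := condExp_condExp_of_le (μ := kd P η (η ω)) (f := ind s - g) hCD hM
  have e2 := condExp_congr_ae (m := C ⊔ D) hg3
  rw [condExp_zero] at e2
  have e3 := condExp_sub hsi hgi (C ⊔ D)
  have e4 : (kd P η (η ω))[g | C ⊔ D] =ᵐ[kd P η (η ω)] g :=
    condExp_of_aestronglyMeasurable' (hCD.trans hM) (hgD.mono le_sup_right) hgi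
  refine hgD.congr ?_
  filter_upwards [e1, e2, e3, e4] with ω' a1 a2 a3 a4
  rw [a2, a3, Pi.sub_apply, a4] at a1
  exact (sub_eq_zero.1 a1.symm).symm


theorem kd_indep' [StandardBorelSpace E] (hη : Measurable η) (hA : CG A) (hC : CG C)
    (h : CI P A C (mE.comap η)) : ∀ᵐ ω ∂P, Indep A C (kd P η (η ω)) := by
  have h' : CI P A C (⊥ ⊔ mE.comap η) := by rwa [bot_sup_eq]
  filter_upwards [kd_CI hη hA hC cg_bot h'] with ω hω using hω.indep


end Vale.Agent.P102
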