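import Vale.Agent.P102.Tools

/-! P102, file Op: the operators `pr`, `mulL` on `L²` and density of indicators.

PLAN. `pr_ae`: `MemLp.condExpL2_ae_eq_condExp` with `Lp.toLp_coeFn`. `pr_adjoint`:
`ContinuousLinearMap.eq_adjoint_iff`, `inner_condExpL2_left_eq_right`. `mulL_ae`:
`ContinuousLinearMap.coeFn_holder` (`holderL_apply_apply` or `rfl`). `inner_eq`: `L2.inner_def`.
`mem_of_pi`: replace `V` by `V ⊓ lpMeas`, a closed (complete) subspace; `g := f - P f` (orthogonal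
projection) is `m`-measurable and orthogonal to all `ind s`, `s ∈ p` and to `1`, so `g = 0` by
`ae_zero_of_pi`. `mem_of_sup`: `piInter`. `eq_of_sup`: `V := ker (S - T)`. -/

open MeasureTheory ProbabilityTheory Filter Topology Set
open scoped ComplexConjugate ENNReal InnerProductSpace

namespace Vale.Agent.P102

variable {Ω : Type*} {A C m m0 : MeasurableSpace Ω} {μ : Measure Ω} [IsProbabilityMeasure μ]
  {g g' : Ω → ℂ}

/-- `u ↦ E[conj γ * E[u | A] | C]`. -/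
noncomputable def Mop {m0 : MeasurableSpace Ω} (μ : @Measure Ω m0) (A C : MeasurableSpace Ω)
    (γ : Ω → ℂ) : Lp ℂ 2 μ →L[ℂ] Lp ℂ 2 μ :=
  pr μ C ∘L mulL μ (star γ) ∘L pr μ A

/-- `M_{γ'}^* M_γ`. -/
noncomputable def Sop {m0 : MeasurableSpace Ω} (μ : @Measure Ω m0) (A C : MeasurableSpace Ω)
    (γ' γ : Ω → ℂ) : Lp ℂ 2 μ →L[ℂ] Lp ℂ 2 μ :=
  ContinuousLinearMap.adjoint (Mop μ A C γ') ∘L Mop μ A C γ

theorem inner_eq (f h : Lp ℂ 2 μ) : ⟪f, h⟫_ℂ = ∫ ω, conj (f ω) * h ω ∂μ := by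
  rw [L2.inner_def]
  simp [mul_comm]

omit [IsProbabilityMeasure μ] in
theorem op_pr_apply (hm : m ≤ m0) (f : Lp ℂ 2 μ) :
    pr μ m f = (condExpL2 ℂ ℂ hm f : Lp ℂ 2 μ) := by
  rw [pr, dif_pos hm]
  rfl

omit [IsProbabilityMeasure μ] in
theorem op_memLp (hg : BM μ m0 g) : MemLp g ∞ μ :=
  let ⟨c, hc⟩ := hg.2
  memLp_top_of_bound hg.1 c hc

theorem op_integrable (f : Lp ℂ 2 μ) : Integrable f μ := (Lp.memLp f).integrable one_le_two

theorem pr_ae (hm : m ≤ m0) (f : Lp ℂ 2 μ) : pr μ m f =ᵐ[μ] μ[f | m] := by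
  have h := (Lp.memLp f).condExpL2_ae_eq_condExp (𝕜 := ℂ) hm
  rw [Lp.toLp_coeFn] at h
  rw [op_pr_apply hm]
  exact h

theorem pr_aesm (hm : m ≤ m0) (f : Lp ℂ 2 μ) : AEStronglyMeasurable[m] (pr μ m f) μ :=
  stronglyMeasurable_condExp.aestronglyMeasurable.congr (pr_ae hm f).symm

theorem pr_eq_self (hm : m ≤ m0) {f : Lp ℂ 2 μ} (hf : AEStronglyMeasurable[m] f μ) :
    pr μ m f = f :=
  Lp.ext ((pr_ae hm f).trans (condExp_of_aestronglyMeasurable' hm hf (op_integrable f)))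

theorem pr_pr_of_le (hA : A ≤ C) (hC : C ≤ m0) (f : Lp ℂ 2 μ) :
    pr μ A (pr μ C f) = pr μ A f :=
  Lp.ext ((pr_ae (hA.trans hC) _).trans (((condExp_congr_ae (pr_ae hC f)).trans
    (condExp_condExp_of_le hA hC)).trans (pr_ae (hA.trans hC) f).symm))

theorem pr_adjoint (m : MeasurableSpace Ω) :
    ContinuousLinearMap.adjoint (pr μ m) = pr μ m := by
  by_cases hm : m ≤ m0
  · symm
    rw [ContinuousLinearMap.eq_adjoint_iff]
    intro x y
    rw [op_pr_apply hm, op_pr_apply hm]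
    exact inner_condExpL2_left_eq_right hm
  · rw [pr, dif_neg hm, map_zero]

theorem norm_pr_le (m : MeasurableSpace Ω) (f : Lp ℂ 2 μ) : ‖pr μ m f‖ ≤ ‖f‖ := by
  by_cases hm : m ≤ m0
  · rw [op_pr_apply hm]
    exact norm_condExpL2_coe_le hm f
  · rw [pr, dif_neg hm]
    simp

theorem mulL_ae (hg : BM μ m0 g) (f : Lp ℂ 2 μ) : mulL μ g f =ᵐ[μ] g * ⇑f := by
  rw [mulL, dif_pos (op_memLp hg)]
  filter_upwards [(ContinuousLinearMap.mul ℂ ℂ).coeFn_holder (r := 2) ((op_memLp hg).toLp g) f,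
    (op_memLp hg).coeFn_toLp] with ω h1 h2
  exact h1.trans (by simp [h2])

theorem mulL_adjoint (hg : BM μ m0 g) :
    ContinuousLinearMap.adjoint (mulL μ g) = mulL μ (star g) := by
  symm
  rw [ContinuousLinearMap.eq_adjoint_iff]
  intro x y
  rw [inner_eq, inner_eq]
  refine integral_congr_ae ?_
  filter_upwards [mulL_ae hg.star x, mulL_ae hg y] with ω h1 h2
  rw [h1, h2]
  simp only [Pi.mul_apply, Pi.star_apply, RCLike.star_def, map_mul, Complex.conj_conj]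
  ring

theorem mulL_add (hg : BM μ m0 g) (hg' : BM μ m0 g') :
    mulL μ (g + g') = mulL μ g + mulL μ g' := by
  ext1 f
  refine Lp.ext ?_
  filter_upwards [mulL_ae (hg.add hg') f, mulL_ae hg f, mulL_ae hg' f,
    Lp.coeFn_add (mulL μ g f) (mulL μ g' f)] with ω h1 h2 h3 h4
  rw [h1, _root_.add_apply, h4, Pi.add_apply, h2, h3]
  simp [add_mul]

theorem mulL_sub (hg : BM μ m0 g) (hg' : BM μ m0 g') :
    mulL μ (g - g') = mulL μ g - mulL μ g' := by
  ext1 f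
  refine Lp.ext ?_
  filter_upwards [mulL_ae (hg.sub hg') f, mulL_ae hg f, mulL_ae hg' f,
    Lp.coeFn_sub (mulL μ g f) (mulL μ g' f)] with ω h1 h2 h3 h4
  rw [h1, _root_.sub_apply, h4, Pi.sub_apply, h2, h3]
  simp [sub_mul]

theorem mulL_smul (c : ℂ) (hg : BM μ m0 g) : mulL μ (c • g) = c • mulL μ g := by
  ext1 f
  refine Lp.ext ?_
  filter_upwards [mulL_ae (hg.smul c) f, mulL_ae hg f, Lp.coeFn_smul c (mulL μ g f)]
    with ω h1 h2 h3
  rw [h1, _root_.smul_apply, h3, Pi.smul_apply, h2]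
  simp [mul_assoc]

theorem mulL_congr (h : g =ᵐ[μ] g') : mulL μ g = mulL μ g' := by
  by_cases hg : MemLp g ∞ μ
  · have hg' : MemLp g' ∞ μ := (memLp_congr_ae h).1 hg
    rw [mulL, mulL, dif_pos hg, dif_pos hg', MemLp.toLp_congr hg hg' h]
  · rw [mulL, mulL, dif_neg hg, dif_neg fun hg' => hg ((memLp_congr_ae h).2 hg')]

theorem Mop_adjoint (hg : BM μ m0 g) :
    ContinuousLinearMap.adjoint (Mop μ A C g) = pr μ A ∘L mulL μ g ∘L pr μ C := by
  rw [Mop, ContinuousLinearMap.adjoint_comp, ContinuousLinearMap.adjoint_comp, pr_adjoint,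
    pr_adjoint, mulL_adjoint hg.star, star_star, ContinuousLinearMap.comp_assoc]

theorem Sop_adjoint (A C : MeasurableSpace Ω) (γ' γ : Ω → ℂ) :
    ContinuousLinearMap.adjoint (Sop μ A C γ' γ) = Sop μ A C γ γ' := by
  rw [Sop, Sop, ContinuousLinearMap.adjoint_comp, ContinuousLinearMap.adjoint_adjoint]

theorem Mop_ae (hA : A ≤ m0) (hC : C ≤ m0) (hg : BM μ m0 g) {u : Lp ℂ 2 μ}
    (hu : AEStronglyMeasurable[A] u μ) : Mop μ A C g u =ᵐ[μ] μ[star g * ⇑u | C] := by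
  rw [Mop, ContinuousLinearMap.comp_apply, ContinuousLinearMap.comp_apply, pr_eq_self hA hu]
  exact (pr_ae hC _).trans (condExp_congr_ae (mulL_ae hg.star u))

theorem Sop_ae (hA : A ≤ m0) (hC : C ≤ m0) (hg : BM μ m0 g) (hg' : BM μ m0 g') {u : Lp ℂ 2 μ}
    (hu : AEStronglyMeasurable[A] u μ) :
    Sop μ A C g' g u =ᵐ[μ] μ[g' * μ[star g * ⇑u | C] | A] := by
  have e : pr μ C (Mop μ A C g u) = Mop μ A C g u := pr_pr_of_le le_rfl hC _
  rw [Sop, Mop_adjoint hg', ContinuousLinearMap.comp_apply, ContinuousLinearMap.comp_apply,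
    ContinuousLinearMap.comp_apply, e]
  exact (pr_ae hA _).trans (condExp_congr_ae ((mulL_ae hg' _).trans
    (EventuallyEq.rfl.mul (Mop_ae hA hC hg hu))))

theorem mem_of_pi (hm : m ≤ m0) {p : Set (Set Ω)} (hp : IsPiSystem p)
    (hgen : m = MeasurableSpace.generateFrom p) (hu : univ ∈ p) (V : Submodule ℂ (Lp ℂ 2 μ))
    (hV : IsClosed (V : Set (Lp ℂ 2 μ))) (h : ∀ s ∈ p, ∀ f : Lp ℂ 2 μ, f =ᵐ[μ] ind s → f ∈ V)
    {f : Lp ℂ 2 μ} (hf : AEStronglyMeasurable[m] f μ) : f ∈ V := by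
  have : CompleteSpace V := hV.completeSpace_coe
  rw [← V.orthogonal_orthogonal, Submodule.mem_orthogonal]
  intro u hu'
  have key : ∀ s ∈ p, ∫ ω in s, pr μ m u ω ∂μ = 0 := fun s hs => by
    have hs' : MeasurableSet[m] s := hgen ▸ MeasurableSpace.measurableSet_generateFrom hs
    have hb : BM μ m (ind s) := BM.ind hs'
    have e := (hb.memLp hm 2).coeFn_toLp
    have h1 := (Submodule.mem_orthogonal _ _).1 hu' _ (h s hs _ e)
    rw [← pr_eq_self hm (hb.1.congr e.symm), ← pr_adjoint,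
      ContinuousLinearMap.adjoint_inner_left, inner_eq] at h1
    rw [← integral_ind_mul (hm s hs'), ← h1]
    refine integral_congr_ae ?_
    filter_upwards [e] with ω hω
    rw [hω]
    congr 1
    exact (congrFun (star_ind s) ω).symm
  have h0 : pr μ m u = 0 := Lp.ext ((ae_zero_of_pi hm hp hgen (op_integrable _) (pr_aesm hm u)
    (by simpa using key _ hu) key).trans (Lp.coeFn_zero _ _ _).symm)
  rw [← pr_eq_self hm hf, ← pr_adjoint, ContinuousLinearMap.adjoint_inner_right, h0,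
    inner_zero_left]

theorem mem_of_sup (hA : A ≤ m0) (hC : C ≤ m0) (V : Submodule ℂ (Lp ℂ 2 μ))
    (hV : IsClosed (V : Set (Lp ℂ 2 μ)))
    (h : ∀ s t, MeasurableSet[A] s → MeasurableSet[C] t →
      ∀ f : Lp ℂ 2 μ, f =ᵐ[μ] ind s * ind t → f ∈ V)
    {f : Lp ℂ 2 μ} (hf : AEStronglyMeasurable[A ⊔ C] f μ) : f ∈ V := by
  refine mem_of_pi (sup_le hA hC) (isPiSystem_piInter A C) (sup_eq_generateFrom_piInter A C)
    ⟨univ, univ, MeasurableSet.univ, MeasurableSet.univ, (inter_self _).symm⟩ V hV ?_ hf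
  rintro _ ⟨s, t, hs, ht, rfl⟩ f hf
  exact h s t hs ht f (ind_inter s t ▸ hf)

theorem eq_of_sup (hA : A ≤ m0) (hC : C ≤ m0) (S T : Lp ℂ 2 μ →L[ℂ] Lp ℂ 2 μ)
    (h : ∀ s t, MeasurableSet[A] s → MeasurableSet[C] t →
      ∀ f : Lp ℂ 2 μ, f =ᵐ[μ] ind s * ind t → S f = T f)
    {f : Lp ℂ 2 μ} (hf : AEStronglyMeasurable[A ⊔ C] f μ) : S f = T f :=
  mem_of_sup hA hC (LinearMap.eqLocus (S : Lp ℂ 2 μ →ₗ[ℂ] Lp ℂ 2 μ) T)
    (isClosed_eq S.continuous T.continuous) h hf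

end Vale.Agent.P102
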