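import Vale.Agent.P102.CubeDefs
import Vale.Agent.P102.CI
import Vale.Agent.P102.Op
import Vale.Agent.P102.Ker2

/-! P102, file Sat: coordinate sigma-algebras and the saturation lemma.

PLAN. `cyl` lemmas: unfold `cylinderEvents`, `iSup` manipulations, `MeasurableSpace.comap_iSup`,
`comap_comp`. `ext_fin`: `IsProjectiveLimit.unique` (or `ext_of_generate_finite` with
`measurableCylinders`). `CI.of_finite`: `cyl R = ⨆ S : {S : Finset A // ↑S ⊆ R}, cyl S`, directed,
`CI.of_directed`.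
`saturation`: by `CI.of_finite` assume `R₀` is a finite set `S₀`; let `s ∈ cyl S₀`, `Φ := ind s` in
`L²`, `Ψ₂ := pr (cyl R₂) Φ`, `Ψ₁ := pr (cyl R₁) Φ`. Claim: `‖⟪G, Φ⟫‖ ≤ ‖Ψ₁‖ * ‖G‖` for all
`cyl R₂`-measurable `G ∈ L²`. For `G` measurable for `cyl S₂`, `S₂ ⊆ R₂` finite: put
`S = S₀ ∪ S₂`, take `ψ`, and extend it to the map `ψ' a = if a ∈ S then ψ a else a`. A function
measurable for `cyl S` has the same integral after composition with `pre ψ'` (factor it through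
`S.restrict`: `comap_restrict`, `Measurable.exists_eq_measurable_comp`); `Φ ∘ pre ψ' = Φ`, and
`G ∘ pre ψ'` is `cyl R₁`-measurable with the same norm. The union of these subspaces (directed, so
a submodule `V₀`) has closure containing every `cyl R₂`-measurable function (`mem_of_pi` with the
pi-system `⋃ S₂, {sets of cyl S₂}`), and the inequality is a closed condition. Take `G = Ψ₂`:
`‖Ψ₂‖ ≤ ‖Ψ₁‖`, while `Ψ₁ = pr (cyl R₁) Ψ₂`; Pythagoras gives `Ψ₂ = Ψ₁`. -/

open MeasureTheory ProbabilityTheory Filter Topology Set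
open scoped ComplexConjugate ENNReal InnerProductSpace

namespace Vale.Agent.P102

variable {A A' X : Type} [MeasurableSpace X]

theorem cyl_le (R : Set A) : cyl X R ≤ MeasurableSpace.pi := cylinderEvents_le_pi

theorem cyl_mono {R R' : Set A} (h : R ⊆ R') : cyl X R ≤ cyl X R' := cylinderEvents_mono h

theorem cyl_union (R R' : Set A) : cyl X (R ∪ R') = cyl X R ⊔ cyl X R' :=
  iSup_union

theorem cyl_empty : cyl X (∅ : Set A) = ⊥ := by
  simp [cylinderEvents]

theorem cyl_iUnion {ι : Sort*} (R : ι → Set A) : cyl X (⋃ i, R i) = ⨆ i, cyl X (R i) := by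
  simp only [cylinderEvents, iSup_iUnion]

theorem cyl_singleton (a : A) :
    cyl X {a} = MeasurableSpace.comap (fun ω : A → X => ω a) inferInstance :=
  iSup_singleton

theorem comap_pre (θ : A' → A) (R : Set A') : (cyl X R).comap (pre θ) = cyl X (θ '' R) := by
  simp only [cylinderEvents, MeasurableSpace.comap_iSup, MeasurableSpace.comap_comp, iSup_image]
  rfl

theorem comap_pre_pi (θ : A' → A) :
    (MeasurableSpace.pi : MeasurableSpace (A' → X)).comap (pre θ) = cyl X (range θ) := by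
  rw [← cylinderEvents_univ, ← image_univ]
  exact comap_pre θ univ

theorem comap_restrict (R : Set A) :
    (MeasurableSpace.pi : MeasurableSpace (R → X)).comap (fun (ω : A → X) (a : R) => ω a) =
      cyl X R := by
  have h := comap_pre_pi (X := X) (Subtype.val : R → A)
  rw [Subtype.range_coe] at h
  exact h

theorem cg_cyl [Countable A] [MeasurableSpace.CountablyGenerated X] (R : Set A) : CG (cyl X R) :=
  cg_biSup (fun a => MeasurableSpace.CountablyGenerated.comap fun ω : A → X => ω a) R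

theorem ext_fin {P P' : Measure (A → X)} [IsProbabilityMeasure P] [IsProbabilityMeasure P']
    (h : ∀ S : Finset A, P.map (pre fun a : S => (a : A)) = P'.map (pre fun a : S => (a : A))) :
    P = P' :=
  IsProjectiveLimit.unique (P := fun I : Finset A => P'.map I.restrict) h fun _ => rfl

theorem sat_cyl_eq (R : Set A) :
    cyl X R = ⨆ S : {S : Finset A // (S : Set A) ⊆ R}, cyl X (S.1 : Set A) := by
  rw [← cyl_iUnion]
  congr 1
  refine Subset.antisymm (fun a ha => mem_iUnion.2 ⟨⟨{a}, by simpa using ha⟩, by simp⟩)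
    (iUnion_subset fun S => S.2)

theorem sat_directed (R : Set A) : Directed (· ≤ ·)
    fun S : {S : Finset A // (S : Set A) ⊆ R} => cyl X (S.1 : Set A) := by
  classical
  intro S S'
  exact ⟨⟨S.1 ∪ S'.1, by rw [Finset.coe_union]; exact union_subset S.2 S'.2⟩,
    cyl_mono (by simp), cyl_mono (by simp)⟩

instance sat_nonempty (R : Set A) : Nonempty {S : Finset A // (S : Set A) ⊆ R} :=
  ⟨⟨∅, by simp⟩⟩

theorem CI.of_finite {P : Measure (A → X)} [IsProbabilityMeasure P] {R : Set A}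
    {C D : MeasurableSpace (A → X)} (h : ∀ S : Finset A, (S : Set A) ⊆ R → CI P (cyl X S) C D) :
    CI P (cyl X R) C D := by
  rw [sat_cyl_eq]
  exact CI.of_directed (sat_directed R) fun S => h S.1 S.2

theorem sat_eq {Ω : Type*} {C D m0 : MeasurableSpace Ω} {μ : Measure Ω} [IsProbabilityMeasure μ]
    (hD : D ≤ C) (hC : C ≤ m0) {Φ : Lp ℂ 2 μ}
    (h : ‖⟪pr μ C Φ, Φ⟫_ℂ‖ ≤ ‖pr μ C Φ‖ * ‖pr μ D Φ‖) : pr μ C Φ = pr μ D Φ := by
  have key : ∀ (E : MeasurableSpace Ω), E ≤ m0 → ∀ f : Lp ℂ 2 μ,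
      ⟪pr μ E f, f⟫_ℂ = ⟪pr μ E f, pr μ E f⟫_ℂ := fun E hE f => by
    conv_rhs => rw [← ContinuousLinearMap.adjoint_inner_left, pr_adjoint, pr_pr_of_le le_rfl hE]
  rw [key C hC, inner_self_eq_norm_sq_to_K] at h
  have h1 : ‖pr μ C Φ‖ ^ 2 ≤ ‖pr μ C Φ‖ * ‖pr μ D Φ‖ := by simpa using h
  have h2 := key D (hD.trans hC) (pr μ C Φ)
  rw [pr_pr_of_le hD hC] at h2
  have h3 := norm_sub_sq (𝕜 := ℂ) (pr μ D Φ) (pr μ C Φ)
  rw [h2, inner_self_eq_norm_sq] at h3
  have h4 : ‖pr μ D Φ - pr μ C Φ‖ ^ 2 ≤ 0 := by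
    nlinarith [norm_nonneg (pr μ D Φ), norm_nonneg (pr μ C Φ),
      sq_nonneg (‖pr μ D Φ‖ - ‖pr μ C Φ‖), sq_nonneg ‖pr μ D Φ - pr μ C Φ‖]
  exact (sub_eq_zero.1 (norm_eq_zero.1 (pow_eq_zero_iff two_ne_zero |>.1
    (le_antisymm h4 (sq_nonneg _))))).symm

theorem sat_key (P : Measure (A → X)) [IsProbabilityMeasure P] {R₁ : Set A} {S S₀ S₂ : Finset A}
    (h0 : S₀ ⊆ S) (h2 : S₂ ⊆ S) {ψ : A → A}
    (hψ : P.map (pre fun a : S => ψ a) = P.map (pre fun a : S => (a : A)))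
    (hψ0 : ∀ a ∈ S₀, ψ a = a) (hψ2 : ∀ a ∈ S₂, ψ a ∈ R₁) {s : Set (A → X)}
    (hs : MeasurableSet[cyl X (S₀ : Set A)] s) {Φ G : Lp ℂ 2 P} (hΦ : Φ =ᵐ[P] ind s)
    (hG : AEStronglyMeasurable[cyl X (S₂ : Set A)] G P) :
    ‖⟪G, Φ⟫_ℂ‖ ≤ ‖G‖ * ‖pr P (cyl X R₁) Φ‖ := by
  rw [← comap_restrict] at hs hG
  obtain ⟨s₀, hs₀, rfl⟩ := hs
  obtain ⟨g, hg, e⟩ := hG
  obtain ⟨g₂, hg₂, rfl⟩ := hg.exists_eq_measurable_comp
  let u : (S → X) → ℂ := g₂ ∘ pre fun a : (S₂ : Set A) => (⟨a, h2 a.2⟩ : S)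
  let v : (S → X) → ℂ := ind s₀ ∘ pre fun a : (S₀ : Set A) => (⟨a, h0 a.2⟩ : S)
  have hu : StronglyMeasurable u := hg₂.comp_measurable (measurable_pre _)
  have hv : Measurable v := (measurable_ind hs₀).comp (measurable_pre _)
  have m1 := (measurable_pre (X := X) fun a : S => ψ a).aemeasurable (μ := P)
  have m2 := (measurable_pre (X := X) fun a : S => (a : A)).aemeasurable (μ := P)
  have e' : G =ᵐ[P] u ∘ pre fun a : S => (a : A) := e
  have hL : MemLp (u ∘ pre fun a : S => ψ a) 2 P := by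
    rw [← memLp_map_measure_iff hu.aestronglyMeasurable m1, hψ,
      memLp_map_measure_iff hu.aestronglyMeasurable m2]
    exact (Lp.memLp G).ae_eq e'
  have hn : ‖hL.toLp _‖ = ‖G‖ := by
    rw [Lp.norm_toLp, Lp.norm_def, eLpNorm_congr_ae e', ← eLpNorm_map_measure
      hu.aestronglyMeasurable m1, hψ, eLpNorm_map_measure hu.aestronglyMeasurable m2]
  have hm : AEStronglyMeasurable[cyl X R₁] (hL.toLp _) P := by
    refine AEStronglyMeasurable.congr (StronglyMeasurable.aestronglyMeasurable ?_)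
      hL.coeFn_toLp.symm
    refine StronglyMeasurable.mono ?_ (cyl_mono (R := range fun a : (S₂ : Set A) => ψ a) ?_)
    · rw [← comap_pre_pi]
      exact hg₂.comp_measurable (comap_measurable _)
    · rintro _ ⟨a, rfl⟩
      exact hψ2 a a.2
  have hw : AEStronglyMeasurable (fun ω => conj (u ω) * v ω)
      (P.map (pre fun a : S => (a : A))) :=
    ((Complex.continuous_conj.measurable.comp hu.measurable).mul hv).aestronglyMeasurable
  have hi : ⟪G, Φ⟫_ℂ = ⟪hL.toLp _, Φ⟫_ℂ := by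
    rw [inner_eq, inner_eq]
    calc _ = ∫ ω, conj (u ω) * v ω ∂P.map (pre fun a : S => (a : A)) := by
          rw [integral_map m2 hw]
          refine integral_congr_ae ?_
          filter_upwards [e', hΦ] with ω h1 h3
          rw [h1, h3]
          rfl
      _ = _ := by
          rw [← hψ, integral_map m1 (hψ ▸ hw)]
          refine integral_congr_ae ?_
          filter_upwards [hL.coeFn_toLp, hΦ] with ω h1 h3
          rw [h1, h3, ind_preimage]
          congr 1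
          refine congrArg (ind s₀) (funext fun a => ?_)
          exact congrArg ω (hψ0 a a.2)
  have hj : ⟪hL.toLp _, Φ⟫_ℂ = ⟪hL.toLp _, pr P (cyl X R₁) Φ⟫_ℂ := by
    conv_lhs => rw [← pr_eq_self (cyl_le _) hm, ← pr_adjoint, ContinuousLinearMap.adjoint_inner_left]
  rw [hi, hj, ← hn]
  exact norm_inner_le_norm _ _

theorem saturation (P : Measure (A → X)) [IsProbabilityMeasure P] {R₀ R₁ R₂ : Set A}
    (h12 : R₁ ⊆ R₂)
    (h : ∀ S : Finset A, (S : Set A) ⊆ R₀ ∪ R₂ → ∃ ψ : A → A,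
      P.map (pre fun a : S => ψ a) = P.map (pre fun a : S => (a : A)) ∧
      (∀ s ∈ S, s ∈ R₀ → ψ s = s) ∧ ∀ s ∈ S, s ∈ R₂ → ψ s ∈ R₁) :
    CI P (cyl X R₀) (cyl X R₂) (cyl X R₁) := by
  classical
  refine CI.of_finite fun S₀ hS₀ => ⟨cyl_le _, cyl_le _, cyl_le _, fun s hs => ?_⟩
  have hb : BM P (cyl X (S₀ : Set A)) (ind s) := BM.ind hs
  let Φ : Lp ℂ 2 P := (hb.memLp (cyl_le _) 2).toLp _
  have hΦ : Φ =ᵐ[P] ind s := (hb.memLp (cyl_le _) 2).coeFn_toLp
  let V : Submodule ℂ (Lp ℂ 2 P) :=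
    { carrier := {G | ∃ S : Finset A, (S : Set A) ⊆ R₂ ∧
        AEStronglyMeasurable[cyl X (S : Set A)] G P}
      zero_mem' := ⟨∅, by simp, aestronglyMeasurable_zero.congr (Lp.coeFn_zero _ _ _).symm⟩
      add_mem' := by
        rintro G G' ⟨S, hS, hG⟩ ⟨S', hS', hG'⟩
        refine ⟨S ∪ S', by rw [Finset.coe_union]; exact union_subset hS hS', ?_⟩
        exact ((hG.mono (cyl_mono (by simp))).add (hG'.mono (cyl_mono (by simp)))).congr
          (Lp.coeFn_add _ _).symm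
      smul_mem' := by
        rintro c G ⟨S, hS, hG⟩
        exact ⟨S, hS, (hG.const_smul c).congr (Lp.coeFn_smul _ _).symm⟩ }
  have h1 : ∀ G ∈ V.topologicalClosure, ‖⟪G, Φ⟫_ℂ‖ ≤ ‖G‖ * ‖pr P (cyl X R₁) Φ‖ := by
    intro G hG
    refine closure_minimal (t := {G | ‖⟪G, Φ⟫_ℂ‖ ≤ ‖G‖ * ‖pr P (cyl X R₁) Φ‖}) ?_
      (isClosed_le (by fun_prop) (by fun_prop)) hG
    rintro G ⟨S₂, hS₂, hG⟩
    obtain ⟨ψ, hψ, h0, h2⟩ := h (S₀ ∪ S₂) (by
      rw [Finset.coe_union]; exact union_subset_union hS₀ hS₂)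
    exact sat_key P Finset.subset_union_left Finset.subset_union_right hψ
      (fun a ha => h0 a (Finset.mem_union_left _ ha) (hS₀ ha))
      (fun a ha => h2 a (Finset.mem_union_right _ ha) (hS₂ ha)) hs hΦ hG
  have h2 : pr P (cyl X R₂) Φ ∈ V.topologicalClosure := by
    refine mem_of_pi (cyl_le R₂) (isPiSystem_iUnion_of_directed_le
      (fun S : {S : Finset A // (S : Set A) ⊆ R₂} => {t | MeasurableSet[cyl X (S.1 : Set A)] t})
      (fun S => @MeasurableSpace.isPiSystem_measurableSet _ (cyl X (S.1 : Set A)))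
      (sat_directed R₂)) ?_ (mem_iUnion.2 ⟨⟨∅, by simp⟩, @MeasurableSet.univ _ (cyl X _)⟩) _
      V.isClosed_topologicalClosure (fun t ht f hf => V.le_topologicalClosure ?_)
      (pr_aesm (cyl_le _) Φ)
    · exact (sat_cyl_eq R₂).trans (MeasurableSpace.generateFrom_iUnion_measurableSet _).symm
    · obtain ⟨S, hS⟩ := mem_iUnion.1 ht
      exact ⟨S.1, S.2, (BM.ind (μ := P) (m := cyl X (S.1 : Set A)) hS).1.congr hf.symm⟩
  have h3 := sat_eq (cyl_mono h12) (cyl_le R₂) (h1 _ h2)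
  rw [sup_eq_left.2 (cyl_mono h12)]
  refine ((condExp_congr_ae hΦ).symm.trans (pr_ae (cyl_le _) Φ).symm).trans ?_
  rw [h3]
  exact (pr_ae (cyl_le _) Φ).trans (condExp_congr_ae hΦ)

end Vale.Agent.P102
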