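import Vale.Agent.P102.Cube1
import Vale.Agent.P102.Sat

/-! P102, file Cube2: independence at the top level (A3).

PLAN. For `R₁ R₂ : Set A` call `ρ : ProbabilityMeasure (A → X)` split if
`Indep (cyl R₁) (cyl R₂) ρ`. With `r₁, r₂` the two restriction maps (`comap_restrict`) this says
`ρ.map (r₁, r₂) = (ρ.map r₁).prod (ρ.map r₂)` (`indepFun_iff_map_prod_eq_prod_map_map`), a closed
condition (`ProbabilityMeasure.continuous_map`, `ProbabilityMeasure.continuous_prod`,
`isClosed_eq`): `isClosed_indep`. It is preserved by `V c n` (the comap of `cyl R` under `V c n` is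
`≤ cyl R`; use `CI.of_comap`, `CI.of_indep`, `CI.indep`, or `IndepFun.comp`). `Q_indep`: induction
on `W`; for `W = []`, `Q A [c] = ν.map (pre c)` (`Q_nat` with `[id]`) and `comap_pre`, `Mix`.
`a3`: by `CI.of_finite` (twice, with `symm`) it suffices to treat finite sets `S₁, S₂`; let
`A := S₁ ∪ S₂` (subtype), `I` the finite set of levels of `L` where some point moves; `law` with the
list `I.sort ++ [t]`; transport by `CI.comap` and `comap_pre`. -/

open MeasureTheory ProbabilityTheory Filter Topology Set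
open scoped ComplexConjugate ENNReal InnerProductSpace

namespace Vale.Agent.P102

theorem c2_map_iff {Ω Ω' : Type*} {A C m0 : MeasurableSpace Ω} {m' : MeasurableSpace Ω'}
    {P : Measure Ω'} {Θ : Ω' → Ω} (hΘ : Measurable Θ) (hA : A ≤ m0) (hC : C ≤ m0) :
    Indep A C (P.map Θ) ↔ Indep (A.comap Θ) (C.comap Θ) P := by
  rw [Indep_iff, Indep_iff]
  constructor
  · rintro h _ _ ⟨s, hs, rfl⟩ ⟨t, ht, rfl⟩
    have := h s t hs ht
    rwa [Measure.map_apply hΘ ((hA s hs).inter (hC t ht)), Measure.map_apply hΘ (hA s hs),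
      Measure.map_apply hΘ (hC t ht)] at this
  · intro h s t hs ht
    rw [Measure.map_apply hΘ ((hA s hs).inter (hC t ht)), Measure.map_apply hΘ (hA s hs),
      Measure.map_apply hΘ (hC t ht)]
    exact h _ _ ⟨s, hs, rfl⟩ ⟨t, ht, rfl⟩

theorem c2_mono {Ω : Type*} {A C A' C' m0 : MeasurableSpace Ω} {P : Measure Ω} (h : Indep A C P)
    (hA : A' ≤ A) (hC : C' ≤ C) : Indep A' C' P :=
  indep_of_indep_of_le_right (indep_of_indep_of_le_left h hA) hC

namespace Dyn

variable {k : ℕ} {X : Type} [TopologicalSpace X] [PolishSpace X] [CompactSpace X]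
  [MeasurableSpace X] [BorelSpace X] (D : Dyn k X)

variable {A : Type} [Countable A] {U : Type} [LinearOrder U] [Countable U] {σ : U → Fin k}

omit D in
theorem isClosed_indep (R₁ R₂ : Set A) :
    IsClosed {ρ : ProbabilityMeasure (A → X) | Indep (cyl X R₁) (cyl X R₂) (ρ : Measure (A → X))} := by
  have c1 : Continuous (pre (X := X) fun a : R₁ => (a : A)) := continuous_pre _
  have c2 : Continuous (pre (X := X) fun a : R₂ => (a : A)) := continuous_pre _
  have h := isClosed_eq (ProbabilityMeasure.continuous_map (c1.prodMk c2))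
    (ProbabilityMeasure.continuous_prod.comp
      ((ProbabilityMeasure.continuous_map c1).prodMk (ProbabilityMeasure.continuous_map c2)))
  refine cast (congrArg _ (Set.ext fun ρ => ?_)) h
  rw [mem_setOf_eq, mem_setOf_eq, ← comap_restrict, ← comap_restrict, ← IndepFun_iff_Indep,
    ← ProbabilityMeasure.toMeasure_injective.eq_iff]
  exact (indepFun_iff_map_prod_eq_prod_map_map c1.measurable.aemeasurable
    c2.measurable.aemeasurable).symm

omit [PolishSpace X] [CompactSpace X] [Countable A] in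
theorem c2_V (c : A → Fin k) (n : ℕ) (R : Set A) : (cyl X R).comap (D.V c n) ≤ cyl X R :=
  Measurable.comap_le (measurable_cylinderEvents_iff.2 fun _ ha =>
    (D.cont _).measurable.comp (measurable_cylinderEvent_apply ha))

theorem Q_indep (hM : D.Mix) {r r' : Fin k} (hr : r ≠ r') (c : A → Fin k) {R₁ R₂ : Set A}
    (h1 : ∀ a ∈ R₁, c a = r) (h2 : ∀ a ∈ R₂, c a ≠ r ∧ c a ≠ r') (W : List (A → Fin k)) :
    Indep (cyl X R₁) (cyl X R₂) (D.Q A (W ++ [c]) : Measure (A → X)) := by
  induction W with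
  | nil =>
    have e : (D.Q A ([] ++ [c]) : Measure (A → X)) = D.ν.map (pre c) := (D.Q_nat c [id]).symm
    rw [e, c2_map_iff (measurable_pre c) (cyl_le _) (cyl_le _), comap_pre, comap_pre]
    refine c2_mono (hM r r' hr) (cyl_mono ?_) (cyl_mono ?_)
    · rintro _ ⟨a, ha, rfl⟩
      exact h1 a ha
    · rintro _ ⟨a, ha, rfl⟩
      exact not_or.2 (h2 a ha)
  | cons d W ih =>
    refine (isClosed_indep R₁ R₂).mem_of_tendsto (D.Q_cons d (W ++ [c]))
      (Eventually.of_forall fun n => ?_)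
    exact (c2_map_iff (D.measurable_V d n) (cyl_le _) (cyl_le _)).2
      (c2_mono ih (D.c2_V d n _) (D.c2_V d n _))

theorem a3 (hM : D.Mix) {L : Set U} {t : U} (ht : ∀ l ∈ L, l < t) {c c' : Fin k} (hc : c ≠ c') :
    Indep (cyl X (Qr σ (insert t L) ∩ At σ t {c})) (cyl X (Qr σ (insert t L) ∩ At σ t {c, c'}ᶜ))
      (D.PP σ) := by
  classical
  refine CI.indep (CI.of_finite fun S₁ h₁ => CI.symm (CI.of_finite fun S₂ h₂ =>
    CI.symm (CI.of_indep (cyl_le _) (cyl_le _) ?_)))
  let I : Finset U := ((S₁ ∪ S₂).biUnion fun s => s.2.toFinset).erase t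
  have hI : ∀ l, l ∈ I ↔ l ≠ t ∧ ∃ s ∈ S₁ ∪ S₂, s.1 l ≠ σ l := fun l => by
    simp only [I, Finset.mem_erase, Finset.mem_biUnion, Finite.mem_toFinset, mem_setOf_eq]
  have hlt : ∀ l ∈ I, l < t := fun l hl => by
    obtain ⟨h3, s, hs, h4⟩ := (hI l).1 hl
    have h5 : s ∈ Qr σ (insert t L) := (Finset.mem_union.1 hs).elim (fun h => (h₁ h).1)
      fun h => (h₂ h).1
    exact ht l ((mem_insert_iff.1 (by_contra fun h6 => h4 (h5 l h6))).resolve_left h3)
  have hlaw := D.law (fun a : (S₁ ∪ S₂ : Finset (Pt σ)) => (a : Pt σ)) (I.sort (· ≤ ·) ++ [t])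
    (List.pairwise_append.2 ⟨I.sortedLT_sort.pairwise, List.pairwise_singleton _ _,
      fun a ha b hb => List.mem_singleton.1 hb ▸ hlt a ((Finset.mem_sort _).1 ha)⟩)
    fun l hl a b => by
      rw [List.mem_append, Finset.mem_sort, List.mem_singleton, not_or, hI] at hl
      have h3 : ∀ s ∈ S₁ ∪ S₂, s.1 l = σ l := fun s hs =>
        by_contra fun h => hl.1 ⟨hl.2, s, hs, h⟩
      rw [h3 _ a.2, h3 _ b.2]
  have h3 := D.Q_indep hM hc (fun a : (S₁ ∪ S₂ : Finset (Pt σ)) => (a : Pt σ).1 t)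
    (R₁ := {a | a.1 ∈ S₁}) (R₂ := {a | a.1 ∈ S₂}) (fun a ha => (h₁ ha).2)
    (fun a ha => not_or.1 (h₂ ha).2) ((I.sort (· ≤ ·)).map fun l a => (a : Pt σ).1 l)
  rw [List.map_append, List.map_singleton] at hlaw
  rw [← hlaw, c2_map_iff (measurable_pre _) (cyl_le _) (cyl_le _), comap_pre, comap_pre] at h3
  exact c2_mono h3 (cyl_mono fun s hs => ⟨⟨s, Finset.mem_union_left _ hs⟩, hs, rfl⟩)
    (cyl_mono fun s hs => ⟨⟨s, Finset.mem_union_right _ hs⟩, hs, rfl⟩)

end Dyn

end Vale.Agent.P102
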