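import Vale.Agent.P102.Tools

/-! P102, file Join: weak limits of joinings, and passage from sets to functions.

PLAN. `join_tendsto`: for `ε > 0` choose continuous `Ψ i` with `‖Ψ i‖ ≤ 1` and
`∫ ‖Φ i - Ψ i‖ ∂P < ε` (`Integrable.exists_boundedContinuous_integral_sub_le`, then compose with the
radial retraction `z ↦ z / max 1 ‖z‖`, or simply carry a bound 2 ... alternatively replace one
factor at a time by induction on a finset). `‖∏ Φ i - ∏ Ψ i‖ ≤ ∑ ‖Φ i - Ψ i‖`, and each term has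
integral `∫ ‖Φ i - Ψ i‖ ∂P` under `ν n` and under `ν'`. For continuous functions use
`ProbabilityMeasure.tendsto_iff_forall_integral_rclike_tendsto`.
`tendsto_prod_of_sets`: induction on a finset `S` of indices: the statement for families where
`φ i` is arbitrary for `i ∈ S` and an indicator for `i ∉ S`. In the step the dependence on `φ j`
is linear and bounded by the `L¹(μ)` norm, so `SimpleFunc.induction` and density of simple
functions (`Integrable.induction`, the set of good `φ j` is closed in `L¹`) finish the proof. -/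

open MeasureTheory ProbabilityTheory Filter Topology Set
open scoped ComplexConjugate ENNReal InnerProductSpace

namespace Vale.Agent.P102

theorem join_prod {ι : Type*} (S : Finset ι) {a b : ι → ℂ} (ha : ∀ i, ‖a i‖ ≤ 1)
    (hb : ∀ i, ‖b i‖ ≤ 1) : ‖∏ i ∈ S, a i - ∏ i ∈ S, b i‖ ≤ ∑ i ∈ S, ‖a i - b i‖ := by
  classical
  induction S using Finset.induction_on with
  | empty => simp
  | insert j S hj ih =>
    rw [Finset.prod_insert hj, Finset.prod_insert hj, Finset.sum_insert hj]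
    have e : a j * ∏ i ∈ S, a i - b j * ∏ i ∈ S, b i =
        (a j - b j) * ∏ i ∈ S, a i + b j * (∏ i ∈ S, a i - ∏ i ∈ S, b i) := by ring
    have h1 : ‖∏ i ∈ S, a i‖ ≤ 1 := by
      rw [norm_prod]
      exact Finset.prod_le_one (fun _ _ => norm_nonneg _) fun i _ => ha i
    rw [e]
    refine (norm_add_le _ _).trans (add_le_add ?_ ?_)
    · rw [norm_mul]
      exact mul_le_of_le_one_right (norm_nonneg _) h1
    · rw [norm_mul]
      exact (mul_le_of_le_one_left (norm_nonneg _) (hb j)).trans ih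

theorem join_int {ι Z X : Type*} [Fintype ι] [MeasurableSpace Z] [MeasurableSpace X]
    (ν : Measure Z) [IsProbabilityMeasure ν] (P : Measure X) {p : ι → Z → X}
    (hp : ∀ i, Measurable (p i)) (hm : ∀ i, ν.map (p i) = P) {φ ψ : ι → X → ℂ}
    (hφ : ∀ i, Measurable (φ i)) (hψ : ∀ i, Measurable (ψ i)) (h1 : ∀ i x, ‖φ i x‖ ≤ 1)
    (h2 : ∀ i x, ‖ψ i x‖ ≤ 1) :
    ‖∫ z, ∏ i, φ i (p i z) ∂ν - ∫ z, ∏ i, ψ i (p i z) ∂ν‖ ≤ ∑ i, ∫ x, ‖φ i x - ψ i x‖ ∂P := by
  have hi : ∀ {φ : ι → X → ℂ}, (∀ i, Measurable (φ i)) → (∀ i x, ‖φ i x‖ ≤ 1) →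
      Integrable (fun z => ∏ i, φ i (p i z)) ν := fun hφ h1 =>
    Integrable.of_bound (Finset.measurable_prod _ fun i _ =>
      (hφ i).comp (hp i)).aestronglyMeasurable 1 (.of_forall fun z => by
        rw [norm_prod]
        exact Finset.prod_le_one (fun _ _ => norm_nonneg _) fun i _ => h1 i _)
  have hj : ∀ i, Integrable (fun z => ‖φ i (p i z) - ψ i (p i z)‖) ν := fun i =>
    Integrable.of_bound (((hφ i).sub (hψ i)).comp (hp i)).norm.aestronglyMeasurable (1 + 1)
      (.of_forall fun z => by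
        rw [norm_norm]
        exact (norm_sub_le _ _).trans (add_le_add (h1 _ _) (h2 _ _)))
  rw [← integral_sub (hi hφ h1) (hi hψ h2)]
  refine (norm_integral_le_of_norm_le (integrable_finsetSum _ fun i _ => hj i)
    (.of_forall fun z => join_prod _ (fun i => h1 i _) fun i => h2 i _)).trans_eq ?_
  rw [integral_finsetSum _ fun i _ => hj i]
  refine Finset.sum_congr rfl fun i _ => ?_
  rw [← hm i]
  exact (integral_map (hp i).aemeasurable ((hφ i).sub (hψ i)).norm.aestronglyMeasurable).symm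

theorem join_approx {J : Type*} {l : Filter J} {f : J → ℂ} {a : ℂ}
    (h : ∀ ε : ℝ, 0 < ε → ∃ (g : J → ℂ) (b : ℂ), Tendsto g l (𝓝 b) ∧ (∀ n, ‖f n - g n‖ ≤ ε) ∧
      ‖a - b‖ ≤ ε) : Tendsto f l (𝓝 a) := by
  rw [Metric.tendsto_nhds]
  intro ε hε
  obtain ⟨g, b, h1, h2, h3⟩ := h (ε / 3) (by positivity)
  filter_upwards [Metric.tendsto_nhds.1 h1 (ε / 3) (by positivity)] with n hn
  have h4 := dist_triangle4 (f n) (g n) b a
  rw [dist_eq_norm (f n) (g n), dist_comm b a, dist_eq_norm a b] at h4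
  linarith [h2 n]

/-- The radial retraction onto the unit disc. -/
noncomputable def joinR (z : ℂ) : ℂ := (max 1 ‖z‖)⁻¹ • z

theorem joinR_cont : Continuous joinR :=
  ((continuous_const.max continuous_norm).inv₀ fun _ =>
    (lt_max_of_lt_left one_pos).ne').smul continuous_id

theorem joinR_le (z : ℂ) : ‖joinR z‖ ≤ 1 := by
  have h : 0 < max 1 ‖z‖ := lt_max_of_lt_left one_pos
  rw [joinR, norm_smul, norm_inv, Real.norm_of_nonneg h.le, inv_mul_le_iff₀ h, mul_one]
  exact le_max_right _ _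

theorem joinR_sub {a : ℂ} (ha : ‖a‖ ≤ 1) (z : ℂ) : ‖a - joinR z‖ ≤ 2 * ‖a - z‖ := by
  have h1 : ‖z - joinR z‖ ≤ ‖a - z‖ := by
    rcases le_total ‖z‖ 1 with h | h
    · simp [joinR, max_eq_left h]
    · have h0 : 0 < ‖z‖ := one_pos.trans_le h
      have e : z - joinR z = (1 - ‖z‖⁻¹) • z := by rw [joinR, max_eq_right h, sub_smul, one_smul]
      rw [e, norm_smul, Real.norm_of_nonneg (sub_nonneg.2 (inv_le_one_of_one_le₀ h)), sub_mul,
        one_mul, inv_mul_cancel₀ h0.ne', norm_sub_rev]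
      linarith [norm_sub_norm_le z a]
  linarith [norm_sub_le_norm_sub_add_norm_sub a z (joinR z)]

theorem joinR_int {X : Type*} [MeasurableSpace X] {P : Measure X} {φ g : X → ℂ}
    (h1 : ∀ x, ‖φ x‖ ≤ 1) (hi : Integrable (fun x => ‖φ x - g x‖) P) :
    ∫ x, ‖φ x - joinR (g x)‖ ∂P ≤ 2 * ∫ x, ‖φ x - g x‖ ∂P := by
  rw [← integral_const_mul]
  exact integral_mono_of_nonneg (.of_forall fun _ => norm_nonneg _) (hi.const_mul 2)
    (.of_forall fun x => joinR_sub (h1 x) _)

theorem join_eps {ι : Type*} [Fintype ι] {ε : ℝ} (hε : 0 < ε) {a : ι → ℝ}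
    (h : ∀ i, a i ≤ 2 * (ε / (2 * (Fintype.card ι + 1)))) : ∑ i, a i ≤ ε := by
  refine (Finset.sum_le_sum fun i _ => h i).trans ?_
  rw [Finset.sum_const, Finset.card_univ, nsmul_eq_mul]
  have h0 : (0 : ℝ) ≤ Fintype.card ι := Nat.cast_nonneg _
  rw [← mul_assoc, ← mul_div_assoc, div_le_iff₀ (by positivity)]
  nlinarith

theorem join_tendsto {ι Y J : Type*} [Fintype ι] [TopologicalSpace Y] [PolishSpace Y]
    [CompactSpace Y] [MeasurableSpace Y] [BorelSpace Y] (P : Measure Y) [IsProbabilityMeasure P]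
    {l : Filter J} (ν : J → ProbabilityMeasure (ι → Y)) (ν' : ProbabilityMeasure (ι → Y))
    (h : Tendsto ν l (𝓝 ν')) (hm : ∀ n i, (ν n : Measure (ι → Y)).map (fun y => y i) = P)
    (hm' : ∀ i, (ν' : Measure (ι → Y)).map (fun y => y i) = P) (Φ : ι → Y → ℂ)
    (hΦ : ∀ i, Measurable (Φ i)) (h1 : ∀ i y, ‖Φ i y‖ ≤ 1) :
    Tendsto (fun n => ∫ y, ∏ i, Φ i (y i) ∂(ν n : Measure (ι → Y))) l
      (𝓝 (∫ y, ∏ i, Φ i (y i) ∂(ν' : Measure (ι → Y)))) := by
  refine join_approx fun ε hε => ?_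
  have hi : ∀ i, Integrable (Φ i) P := fun i =>
    Integrable.of_bound (hΦ i).aestronglyMeasurable 1 (.of_forall (h1 i))
  choose g hg hg' using fun i => (hi i).exists_boundedContinuous_integral_sub_le
    (ε := ε / (2 * (Fintype.card ι + 1))) (by positivity)
  have hc : ∀ i, Continuous fun y => joinR (g i y) := fun i => joinR_cont.comp (g i).continuous
  have hs : ∑ i, ∫ y, ‖Φ i y - joinR (g i y)‖ ∂P ≤ ε := join_eps hε fun i =>
    (joinR_int (h1 i) ((hi i).sub (hg' i)).norm).trans (by linarith [hg i])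
  refine ⟨_, _, (ProbabilityMeasure.tendsto_iff_forall_integral_rclike_tendsto ℂ).1 h
    (BoundedContinuousFunction.mkOfCompact ⟨fun y => ∏ i, joinR (g i (y i)),
      continuous_finsetProd _ fun i _ => (hc i).comp (continuous_apply i)⟩), fun n => ?_, ?_⟩
  · exact (join_int _ P measurable_pi_apply (hm n) hΦ (fun i => (hc i).measurable) h1
      fun _ _ => joinR_le _).trans hs
  · exact (join_int _ P measurable_pi_apply hm' hΦ (fun i => (hc i).measurable) h1
      fun _ _ => joinR_le _).trans hs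

theorem tendsto_prod_of_sets {ι X J : Type*} [Fintype ι] [MeasurableSpace X] (μ : Measure X)
    [IsProbabilityMeasure μ] {l : Filter J} (T : J → ι → X → X) (hT : ∀ n i, Measurable (T n i))
    (hp : ∀ n i, μ.map (T n i) = μ)
    (h : ∀ A : ι → Set X, (∀ i, MeasurableSet (A i)) →
      Tendsto (fun n => μ.real (⋂ i, T n i ⁻¹' A i)) l (𝓝 (∏ i, μ.real (A i))))
    (φ : ι → X → ℂ) (hφ : ∀ i, Measurable (φ i)) (h1 : ∀ i x, ‖φ i x‖ ≤ 1) :
    Tendsto (fun n => ∫ x, ∏ i, φ i (T n i x) ∂μ) l (𝓝 (∏ i, ∫ x, φ i x ∂μ)) := by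
  classical
  refine join_approx fun ε hε => ?_
  have hi : ∀ i, Integrable (φ i) μ := fun i =>
    Integrable.of_bound (hφ i).aestronglyMeasurable 1 (.of_forall (h1 i))
  have hg : ∀ i, ∃ g : SimpleFunc X ℂ, (∀ x, ‖g x‖ ≤ 1) ∧
      ∫ x, ‖φ i x - g x‖ ∂μ ≤ 2 * (ε / (2 * (Fintype.card ι + 1))) := fun i => by
    obtain ⟨g, hn⟩ : ∃ g : SimpleFunc X ℂ,
        ∫ x, ‖g x - φ i x‖ ∂μ < ε / (2 * (Fintype.card ι + 1)) :=
      ((tendsto_order.1 (tendsto_integral_norm_approxOn_sub (hφ i) (hi i))).2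
        (ε / (2 * (Fintype.card ι + 1))) (by positivity)).exists.elim fun _ h => ⟨_, h⟩
    refine ⟨g.map joinR, fun _ => joinR_le _, (joinR_int (h1 i)
      ((hi i).sub g.integrable_of_isFiniteMeasure).norm).trans ?_⟩
    simp_rw [norm_sub_rev (φ i _)]
    linarith
  choose g hg1 hg using hg
  have hs := join_eps hε hg
  have e : ∀ i x, g i x = ∑ c ∈ (g i).range, c * ind (g i ⁻¹' {c}) x := fun i x => by
    rw [Finset.sum_eq_single_of_mem _ ((g i).mem_range_self x) fun c _ hc => by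
      simp [ind, hc.symm]]
    simp [ind]
  have hA := fun i c => (g i).measurableSet_fiber c
  refine ⟨fun n => ∫ x, ∏ i, g i (T n i x) ∂μ, ∏ i, ∫ x, g i x ∂μ, ?_, fun n =>
    (join_int μ μ (hT n) (hp n) hφ (fun i => (g i).measurable) h1 hg1).trans hs,
    (join_prod _ (fun i => ?_) fun i => ?_).trans ((Finset.sum_le_sum fun i _ => ?_).trans hs)⟩
  · have e1 : ∏ i, ∫ x, g i x ∂μ = ∑ c ∈ Fintype.piFinset fun i => (g i).range,
        (∏ i, c i) * ((∏ i, μ.real (g i ⁻¹' {c i}) : ℝ) : ℂ) := by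
      simp only [Complex.ofReal_prod, ← Finset.prod_mul_distrib]
      rw [← Finset.prod_univ_sum _ fun i c => c * (μ.real (g i ⁻¹' {c}) : ℂ)]
      refine Finset.prod_congr rfl fun i _ => ?_
      rw [← SimpleFunc.integral_eq_integral _ (g i).integrable_of_isFiniteMeasure,
        SimpleFunc.integral_eq]
      exact Finset.sum_congr rfl fun c _ => by rw [Complex.real_smul, mul_comm]
    have e2 : ∀ n, ∫ x, ∏ i, g i (T n i x) ∂μ = ∑ c ∈ Fintype.piFinset fun i => (g i).range,
        (∏ i, c i) * (μ.real (⋂ i, T n i ⁻¹' (g i ⁻¹' {c i})) : ℂ) := fun n => by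
      have hB : ∀ c : ι → ℂ, MeasurableSet (⋂ i, T n i ⁻¹' (g i ⁻¹' {c i})) := fun c =>
        MeasurableSet.iInter fun i => hT n i (hA i _)
      have e3 : ∀ x, ∏ i, g i (T n i x) = ∑ c ∈ Fintype.piFinset fun i => (g i).range,
          (∏ i, c i) * ind (⋂ i, T n i ⁻¹' (g i ⁻¹' {c i})) x := fun x => by
        rw [Finset.prod_congr rfl fun i _ => e i (T n i x), Finset.prod_univ_sum]
        refine Finset.sum_congr rfl fun c _ => ?_
        rw [Finset.prod_mul_distrib]
        refine congrArg _ ?_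
        simp only [ind, indicator, mem_iInter, mem_preimage, Fintype.prod_boole]
      simp_rw [e3]
      refine (integral_finsetSum _ fun c _ =>
        (((integrable_const (1 : ℂ)).indicator (hB c))).const_mul _).trans ?_
      exact Finset.sum_congr rfl fun c _ =>
        (integral_const_mul _ _).trans (congrArg _ (integral_ind (hB c)))
    simp_rw [e1, e2]
    exact tendsto_finsetSum _ fun c _ =>
      ((Complex.continuous_ofReal.tendsto _).comp (h _ fun i => hA i (c i))).const_mul _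
  · simpa using norm_integral_le_of_norm_le_const (μ := μ) (.of_forall (h1 i))
  · simpa using norm_integral_le_of_norm_le_const (μ := μ) (.of_forall (hg1 i))
  · rw [← integral_sub (hi i) (g i).integrable_of_isFiniteMeasure]
    exact norm_integral_le_integral_norm _

end Vale.Agent.P102
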