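import Vale.Agent.P102.Cube1
import Vale.Agent.P102.Sat
import Vale.Agent.P102.Join

/-! P102, file Cube3: the conditional expectation of a line given a row (A7), and the lowest level
as an outer limit (A5).

PLAN of `Q_line`. For continuous `h'` prove by induction on `W`, for all `d : ℤ` and all continuous
`φ : (A → X) → ℂ` with `‖φ‖ ≤ 1` that depend only on the coordinates in `R := {a | c a = iB}`
(`DependsOn φ R`):
`‖∫ (∏_{r ≠ iB} f r (T d (ω (e r))) - h' (T d (ω (e iB)))) * φ ω ∂Q (W ++ [c])‖ ≤ ∫ ‖h - h'‖ ∂μ`.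
Step: the integrand is continuous, `Q_cons` + `ProbabilityMeasure.tendsto_iff_forall_integral_rclike_tendsto`,
`φ ∘ V c' n` is again admissible and the shift `d` becomes `d + t n (c' (e iB))`. Base: `Q A [c] =
ν.map (pre c)`; `φ ∘ pre c` depends only on `y iB`; use `ν_Sh` to remove the shift, `hν`, `ν_eval`.
Then let `h' → h` in `L¹(μ)` (`Q_eval`). To pass from continuous `φ` to the conditional expectation:
`g := (..)[F | cyl R]` factors through the restriction to `R`, and a finite complex measure on the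
compact metrisable space `R → X` which kills continuous functions vanishes (approximate `conj g`
in `L¹` by continuous functions: `Integrable.exists_boundedContinuous_integral_sub_le`).
`a7`: it suffices to test on sets of `cyl S`, `S` finite (`ae_zero_of_pi`); `law` for the family
`Fin k ⊕ S` with the list `I.sort ++ [t]`.
`a5_law`: the limit `ρ` along the ultrafilter exists; compare finite marginals. View a point of
`Fin k → Pt σ → X` through `Fin k × S`; `law` for `(i, s) ↦ s.upd p i` with the list `p :: I.sort`,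
`law` for `(i, s) ↦ s.upd p (σ p)` with `I.sort`, and `Q_cons`. To identify measures on
`Fin k → Pt σ → X` use `MeasurableEquiv.curry` / `ext_fin` on `Fin k × Pt σ → X`. `a5`:
`join_tendsto`, marginals by `spread`, `ext_fin`, `PP_Sh`. -/

open MeasureTheory ProbabilityTheory Filter Topology Set
open scoped ComplexConjugate ENNReal InnerProductSpace

namespace Vale.Agent.P102

namespace Dyn

variable {k : ℕ} {X : Type} [TopologicalSpace X] [PolishSpace X] [CompactSpace X]
  [MeasurableSpace X] [BorelSpace X] (D : Dyn k X)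

variable {A : Type} [Countable A] {U : Type} [LinearOrder U] [Countable U] {σ : U → Fin k}

omit D in
theorem c3_tendsto {B J : Type} [Countable B] {l : Filter J} {P : J → ProbabilityMeasure (B → X)}
    {P' : ProbabilityMeasure (B → X)} (h : Tendsto P l (𝓝 P')) {F : (B → X) → ℂ}
    (hF : Continuous F) :
    Tendsto (fun n => ∫ ω, F ω ∂(P n : Measure (B → X))) l (𝓝 (∫ ω, F ω ∂(P' : Measure (B → X)))) :=
  (ProbabilityMeasure.tendsto_iff_forall_integral_rclike_tendsto ℂ).1 h
    (BoundedContinuousFunction.mkOfCompact ⟨F, hF⟩)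

omit D in
/-- A bounded function orthogonal to the continuous functions of the coordinates in `R`. -/
theorem c3_zero (P : Measure (A → X)) [IsProbabilityMeasure P] (R : Set A) {F : (A → X) → ℂ}
    (hF : Measurable F) {c : ℝ} (hc : ∀ ω, ‖F ω‖ ≤ c)
    (h : ∀ φ : (A → X) → ℂ, Continuous φ → Measurable[cyl X R] φ → ∫ ω, φ ω * F ω ∂P = 0) :
    P[F | cyl X R] =ᵐ[P] 0 := by
  have hFi : Integrable F P := Integrable.of_bound hF.aestronglyMeasurable c (.of_forall hc)
  refine (ae_eq_condExp_of_forall_setIntegral_eq (cyl_le R) hFi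
    (fun _ _ _ => (integrable_zero _ _ _).integrableOn) (fun s hs _ => ?_)
    (stronglyMeasurable_zero.aestronglyMeasurable)).symm
  have hs' := cyl_le R s hs
  rw [← comap_restrict] at hs
  obtain ⟨s₀, hs₀, rfl⟩ := hs
  set ρ : (A → X) → R → X := fun ω a => ω a with hρ
  have hρc : Continuous ρ := continuous_pi fun a => continuous_apply _
  have hρm : Measurable[cyl X R] ρ := measurable_restrict_cylinderEvents R
  have hc0 : 0 ≤ c := by
    obtain ⟨ω, -⟩ := (Filter.Eventually.of_forall (fun _ => trivial) : ∀ᵐ _ ∂P, True).exists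
    exact (norm_nonneg _).trans (hc ω)
  simp only [Pi.zero_apply, integral_zero]
  rw [← integral_ind_mul hs']
  symm
  refine norm_eq_zero.1 (le_antisymm (le_of_forall_pos_le_add fun ε hε => ?_) (norm_nonneg _))
  have := Measure.isProbabilityMeasure_map (μ := P) hρc.measurable.aemeasurable
  have hi : Integrable (ind s₀) (P.map ρ) := (BM.ind hs₀).integrable le_rfl
  obtain ⟨g, hg, hgi⟩ := hi.exists_boundedContinuous_integral_sub_le
    (ε := ε / (c + 1)) (by positivity)
  have hm : Measurable fun y => ‖ind s₀ y - g y‖ :=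
    ((measurable_ind hs₀).sub g.continuous.measurable).norm
  rw [integral_map hρc.measurable.aemeasurable hm.aestronglyMeasurable] at hg
  have h0 := h (fun ω => g (ρ ω)) (g.continuous.comp hρc) (g.continuous.measurable.comp hρm)
  have hi1 : Integrable (fun ω => ind (ρ ⁻¹' s₀) ω * F ω) P :=
    (BM.ind hs').mul_integrable le_rfl hFi
  have hi2 : Integrable (fun ω => g (ρ ω) * F ω) P :=
    (BM.of_le (g.continuous.comp hρc).measurable fun ω => g.norm_coe_le_norm _).mul_integrable
      le_rfl hFi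
  have hi3 : Integrable (fun ω => ‖ind s₀ (ρ ω) - g (ρ ω)‖) P :=
    ((integrable_map_measure hm.aestronglyMeasurable hρc.measurable.aemeasurable).1
      (hi.sub hgi).norm)
  rw [← sub_zero (∫ ω, ind (ρ ⁻¹' s₀) ω * F ω ∂P), ← h0, ← integral_sub hi1 hi2, zero_add]
  refine (norm_integral_le_of_norm_le (hi3.const_mul c) (.of_forall fun ω => ?_)).trans ?_
  · rw [← sub_mul, norm_mul, mul_comm, ind_preimage]
    exact mul_le_mul_of_nonneg_right (hc ω) (norm_nonneg _)
  · rw [integral_const_mul]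
    refine (mul_le_mul_of_nonneg_left hg hc0).trans ?_
    rw [← mul_div_assoc, div_le_iff₀ (by positivity)]
    nlinarith

/-- The approximate form of the statement on lines. -/
def c3Est {iB : Fin k} (f : Fin k → X → ℂ) (R : Set A) (e : Fin k → A) (P : Measure (A → X)) :
    Prop :=
  ∀ g : X → ℂ, Continuous g → ∀ (C : ℝ) (φ : (A → X) → ℂ), Continuous φ →
    Measurable[cyl X R] φ → (∀ ω, ‖φ ω‖ ≤ C) →
    ‖∫ ω, φ ω * (∏ r ∈ Finset.univ.erase iB, f r (ω (e r)) - g (ω (e iB))) ∂P‖ ≤
      C * ∫ x, ‖f iB x - g x‖ ∂D.μ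

omit [PolishSpace X] [CompactSpace X] [MeasurableSpace X] [BorelSpace X] D [Countable A] in
theorem c3_cont {iB : Fin k} {f : Fin k → X → ℂ} (hf : ∀ r, r ≠ iB → Continuous (f r))
    (e : Fin k → A) :
    Continuous fun ω : A → X => ∏ r ∈ Finset.univ.erase iB, f r (ω (e r)) :=
  continuous_finsetProd _ fun r hr =>
    (hf r (Finset.ne_of_mem_erase hr)).comp (continuous_apply (e r))

omit [TopologicalSpace X] [PolishSpace X] [CompactSpace X] [MeasurableSpace X] [BorelSpace X] D in
theorem c3_prod_le {iB : Fin k} {f : Fin k → X → ℂ} (hf1 : ∀ r x, ‖f r x‖ ≤ 1) (y : Fin k → X) :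
    ‖∏ r ∈ Finset.univ.erase iB, f r (y r)‖ ≤ 1 := by
  rw [norm_prod]
  exact Finset.prod_le_one (fun _ _ => norm_nonneg _) fun i _ => hf1 i _

theorem c3Est.lim {iB : Fin k} {f : Fin k → X → ℂ} (hf : ∀ r, r ≠ iB → Continuous (f r))
    {R : Set A} {e : Fin k → A} {J : Type} {l : Filter J} [l.NeBot]
    {P : J → ProbabilityMeasure (A → X)} {P' : ProbabilityMeasure (A → X)}
    (h : Tendsto P l (𝓝 P')) (hP : ∀ᶠ n in l, D.c3Est (iB := iB) f R e (P n)) :
    D.c3Est (iB := iB) f R e P' := by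
  intro g hg C φ h1 h2 h3
  have hc : Continuous fun ω : A → X =>
      φ ω * (∏ r ∈ Finset.univ.erase iB, f r (ω (e r)) - g (ω (e iB))) :=
    h1.mul ((c3_cont hf e).sub (hg.comp (continuous_apply _)))
  exact le_of_tendsto (c3_tendsto h hc).norm (hP.mono fun n hn => hn g hg C φ h1 h2 h3)

omit [PolishSpace X] D in
theorem c3_diff {Y : Type} [MeasurableSpace Y] (P : Measure Y) [IsProbabilityMeasure P]
    {μ : Measure X} {p : Y → X} (hp : Measurable p) (hP : P.map p = μ) {φ u : Y → ℂ} {C : ℝ}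
    (hφ : Measurable φ) (hC : ∀ y, ‖φ y‖ ≤ C) (hu : Measurable u) (hu1 : ∀ y, ‖u y‖ ≤ 1)
    {h g : X → ℂ} (hh : Measurable h) (hh1 : ∀ x, ‖h x‖ ≤ 1) (hg : Continuous g) :
    ‖∫ y, φ y * (u y - g (p y)) ∂P - ∫ y, φ y * (u y - h (p y)) ∂P‖ ≤ C * ∫ x, ‖h x - g x‖ ∂μ := by
  obtain ⟨M, hM⟩ : ∃ M, ∀ x, ‖g x‖ ≤ M :=
    ⟨_, (BoundedContinuousFunction.mkOfCompact ⟨g, hg⟩).norm_coe_le_norm⟩
  have b1 : BM P inferInstance φ := BM.of_le hφ hC
  have b2 : BM P inferInstance u := BM.of_le hu hu1
  have b3 : BM P inferInstance fun y => g (p y) := BM.of_le (hg.measurable.comp hp) fun y => hM _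
  have b4 : BM P inferInstance fun y => h (p y) := BM.of_le (hh.comp hp) fun y => hh1 _
  have i1 : Integrable (fun y => φ y * (u y - g (p y))) P := (b1.mul (b2.sub b3)).integrable le_rfl
  have i2 : Integrable (fun y => φ y * (u y - h (p y))) P := (b1.mul (b2.sub b4)).integrable le_rfl
  have i3 : Integrable (fun y => ‖h (p y) - g (p y)‖) P := ((b4.sub b3).integrable le_rfl).norm
  have hm : Measurable fun x => ‖h x - g x‖ := (hh.sub hg.measurable).norm
  rw [← integral_sub i1 i2, ← hP, integral_map hp.aemeasurable hm.aestronglyMeasurable,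
    ← integral_const_mul]
  refine norm_integral_le_of_norm_le (i3.const_mul C) (.of_forall fun y => ?_)
  rw [← mul_sub, sub_sub_sub_cancel_left, norm_mul]
  exact mul_le_mul_of_nonneg_right (hC y) (norm_nonneg _)

theorem c3Est.fin {iB : Fin k} {f : Fin k → X → ℂ} (hf : ∀ r, r ≠ iB → Continuous (f r))
    (hf1 : ∀ r x, ‖f r x‖ ≤ 1) (hh : Measurable (f iB)) {R : Set A} {e : Fin k → A}
    {P : Measure (A → X)} [IsProbabilityMeasure P] (hP : P.map (fun ω => ω (e iB)) = D.μ)
    (h : D.c3Est (iB := iB) f R e P) :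
    P[fun ω => ∏ r ∈ Finset.univ.erase iB, f r (ω (e r)) - f iB (ω (e iB)) | cyl X R]
      =ᵐ[P] 0 := by
  refine c3_zero P R (c := 1 + 1)
    ((c3_cont hf e).measurable.sub (hh.comp (measurable_pi_apply _)))
    (fun ω => (norm_sub_le _ _).trans (add_le_add (c3_prod_le hf1 _) (hf1 _ _))) fun φ h1 h2 => ?_
  obtain ⟨C, hC⟩ : ∃ C, ∀ ω, ‖φ ω‖ ≤ C :=
    ⟨_, (BoundedContinuousFunction.mkOfCompact ⟨φ, h1⟩).norm_coe_le_norm⟩
  have hC0 : 0 ≤ C := by
    obtain ⟨ω, -⟩ := (Filter.Eventually.of_forall (fun _ => trivial) : ∀ᵐ _ ∂P, True).exists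
    exact (norm_nonneg _).trans (hC ω)
  refine norm_eq_zero.1 (le_antisymm (le_of_forall_pos_le_add fun ε hε => ?_) (norm_nonneg _))
  have hi : Integrable (f iB) (D.μ : Measure X) := (BM.of_le hh (hf1 iB)).integrable le_rfl
  obtain ⟨g, hg, -⟩ := hi.exists_boundedContinuous_integral_sub_le
    (ε := ε / (2 * (C + 1))) (by positivity)
  have e1 := h g g.continuous C φ h1 h2 hC
  have e2 := c3_diff P (measurable_pi_apply (e iB)) hP h1.measurable hC (c3_cont hf e).measurable
    (fun ω => c3_prod_le hf1 _) hh (hf1 iB) g.continuous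
  have e3 := norm_sub_norm_le
    (∫ ω, φ ω * (∏ r ∈ Finset.univ.erase iB, f r (ω (e r)) - f iB (ω (e iB))) ∂P)
    (∫ ω, φ ω * (∏ r ∈ Finset.univ.erase iB, f r (ω (e r)) - g (ω (e iB))) ∂P)
  rw [norm_sub_rev] at e3
  have e4 : C * ∫ x, ‖f iB x - g x‖ ∂D.μ ≤ ε / 2 := by
    refine (mul_le_mul_of_nonneg_left hg hC0).trans ?_
    rw [← mul_div_assoc, div_le_div_iff₀ (by positivity) (by positivity)]
    nlinarith
  linarith

theorem c3Est_line {iB : Fin k} {f : Fin k → X → ℂ} (hf : ∀ r, r ≠ iB → Continuous (f r))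
    (hf1 : ∀ r x, ‖f r x‖ ≤ 1) (hh : Measurable (f iB))
    (hν : D.ν[fun y => ∏ r ∈ Finset.univ.erase iB, f r (y r) - f iB (y iB) | cyl X {iB}]
      =ᵐ[D.ν] 0)
    (c : A → Fin k) (e : Fin k → A) (he : ∀ r, c (e r) = r) (W : List (A → Fin k))
    (hW : ∀ c' ∈ W, ∀ r, c' (e r) = c' (e iB)) :
    D.c3Est (iB := iB) f {a | c a = iB} e (D.Q A (W ++ [c])) := by
  induction W with
  | nil =>
    intro g hg C φ h1 h2 h3
    have hc : Continuous fun ω : A → X =>
        φ ω * (∏ r ∈ Finset.univ.erase iB, f r (ω (e r)) - g (ω (e iB))) :=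
      h1.mul ((c3_cont hf e).sub (hg.comp (continuous_apply _)))
    have e0 : (D.Q A ([] ++ [c]) : Measure (A → X)) = D.ν.map (pre c) := (D.Q_nat c [id]).symm
    rw [e0, integral_map (measurable_pre c).aemeasurable hc.aestronglyMeasurable]
    simp only [pre, he]
    have hφ : Measurable[cyl X {iB}] fun y : Fin k → X => φ (pre c y) := by
      refine h2.comp (measurable_cylinderEvents_iff.2 fun a ha => ?_)
      exact measurable_cylinderEvent_apply (i := c a) ha
    have hu := (c3_cont hf (id : Fin k → Fin k)).measurable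
    simp only [id] at hu
    have e2 := c3_diff D.ν (measurable_pi_apply iB) (D.ν_eval iB) (hφ.mono (cyl_le _) le_rfl)
      (fun y => h3 _) hu (fun y => c3_prod_le hf1 y) hh (hf1 iB) hg
    have b1 : BM D.ν (cyl X {iB}) fun y : Fin k → X => φ (pre c y) := BM.of_le hφ fun y => h3 _
    have i1 : Integrable (fun y : Fin k → X =>
        ∏ r ∈ Finset.univ.erase iB, f r (y r) - f iB (y iB)) D.ν :=
      (BM.of_le (hu.sub (hh.comp (measurable_pi_apply _))) (c := 1 + 1) fun y =>
        (norm_sub_le _ _).trans (add_le_add (c3_prod_le hf1 _) (hf1 _ _))).integrable le_rfl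
    have e3 := integral_mul_condExp (cyl_le _) b1.1 (b1.mul_integrable (cyl_le _) i1) i1
    have e4 : ∫ y, φ (pre c y) * (D.ν[fun y => ∏ r ∈ Finset.univ.erase iB, f r (y r) -
        f iB (y iB) | cyl X {iB}]) y ∂D.ν = 0 := by
      refine integral_eq_zero_of_ae ?_
      filter_upwards [hν] with y hy
      rw [hy, Pi.zero_apply, mul_zero]
    rw [← e3, e4, sub_zero] at e2
    exact e2
  | cons c' W ih =>
    have ih' := ih fun c'' h => hW c'' (List.mem_cons_of_mem _ h)
    refine c3Est.lim D hf (D.Q_cons c' (W ++ [c])) (.of_forall fun n => ?_)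
    intro g hg C φ h1 h2 h3
    set d := D.t n (c' (e iB)) with hd
    have hc : ∀ φ : (A → X) → ℂ, Continuous φ → Continuous fun ω : A → X =>
        φ ω * (∏ r ∈ Finset.univ.erase iB, f r (ω (e r)) - g (ω (e iB))) := fun φ h1 =>
      h1.mul ((c3_cont hf e).sub (hg.comp (continuous_apply _)))
    have h1' : Continuous fun ω => φ (D.V c' n (D.Sh A (-d) ω)) :=
      h1.comp ((D.continuous_V c' n).comp (D.continuous_Sh A (-d)))
    have h2' : Measurable[cyl X {a | c a = iB}] fun ω => φ (D.V c' n (D.Sh A (-d) ω)) := by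
      refine h2.comp (measurable_cylinderEvents_iff.2 fun a ha => ?_)
      exact (D.cont _).measurable.comp ((D.cont _).measurable.comp
        (measurable_cylinderEvent_apply (X := fun _ : A => X) ha))
    have e1 := ih' g hg C _ h1' h2' fun ω => h3 _
    rw [← D.Q_Sh d (W ++ [c]), integral_map (D.measurable_Sh A d).aemeasurable
      (hc _ h1').aestronglyMeasurable] at e1
    rw [ProbabilityMeasure.toMeasure_map, integral_map (D.measurable_V c' n).aemeasurable
      (hc _ h1).aestronglyMeasurable]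
    have e2 : ∀ ω, D.Sh A (-d) (D.Sh A d ω) = ω := fun ω => funext fun a => by
      simp only [Sh]
      rw [← D.T_add, neg_add_cancel, D.T_zero]
    have e3 : ∀ ω r, D.V c' n ω (e r) = D.Sh A d ω (e r) := fun ω r => by
      simp only [V, Sh]
      rw [hW c' List.mem_cons_self r]
    simp only [e2] at e1
    simp only [e3]
    exact e1

omit D in
/-- Convergence along an ultrafilter follows from the convergence of finite marginals. -/
theorem c3_marg {B J : Type} [Countable B] (𝔮 : Ultrafilter J)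
    (P : J → ProbabilityMeasure (B → X)) (P' : ProbabilityMeasure (B → X))
    (h : ∀ S : Finset B, Tendsto (fun n => (P n).map
      (measurable_pre (X := X) fun a : S => (a : B)).aemeasurable) 𝔮
      (𝓝 (P'.map (measurable_pre (X := X) fun a : S => (a : B)).aemeasurable))) :
    Tendsto P 𝔮 (𝓝 P') := by
  have h1 : Tendsto P 𝔮 (𝓝 (𝔮.map P).lim) := (𝔮.map P).le_nhds_lim
  have h2 : (𝔮.map P).lim = P' := by
    refine ProbabilityMeasure.toMeasure_injective (ext_fin fun S => ?_)
    have h3 := ProbabilityMeasure.tendsto_map_of_tendsto_of_continuous _ _ h1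
      (continuous_pre (X := X) fun a : S => (a : B))
    have := ProbabilityMeasure.t2Space (S → X)
    exact congrArg ProbabilityMeasure.toMeasure (tendsto_nhds_unique h3 (h S))
  rwa [h2] at h1

omit [LinearOrder U] [Countable U] in
theorem c3_levels {B : Type} (S : Finset B) (s : B → Pt σ) (p : U) :
    ∃ I : Finset U, p ∉ I ∧ ∀ l ∉ I, l ≠ p → ∀ a ∈ S, (s a).1 l = σ l := by
  classical
  refine ⟨(S.biUnion fun a => (s a).2.toFinset).erase p, Finset.notMem_erase _ _,
    fun l hl hp a ha => ?_⟩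
  by_contra h
  exact hl (Finset.mem_erase.2 ⟨hp, Finset.mem_biUnion.2 ⟨a, ha, by simpa using h⟩⟩)

theorem Q_line {iB : Fin k} {f : Fin k → X → ℂ} (hf : ∀ r, r ≠ iB → Continuous (f r))
    (hf1 : ∀ r x, ‖f r x‖ ≤ 1) (hh : Measurable (f iB))
    (hν : D.ν[fun y => ∏ r ∈ Finset.univ.erase iB, f r (y r) - f iB (y iB) | cyl X {iB}]
      =ᵐ[D.ν] 0)
    (c : A → Fin k) (e : Fin k → A) (he : ∀ r, c (e r) = r) (W : List (A → Fin k))
    (hW : ∀ c' ∈ W, ∀ r, c' (e r) = c' (e iB)) :
    (D.Q A (W ++ [c]) : Measure (A → X))[fun ω =>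
      ∏ r ∈ Finset.univ.erase iB, f r (ω (e r)) - f iB (ω (e iB)) | cyl X {a | c a = iB}]
      =ᵐ[(D.Q A (W ++ [c]) : Measure (A → X))] 0 :=
  c3Est.fin D hf hf1 hh (D.Q_eval _ _) (D.c3Est_line hf hf1 hh hν c e he W hW)

theorem a7 {iB : Fin k} {f : Fin k → X → ℂ} (hf : ∀ r, r ≠ iB → Continuous (f r))
    (hf1 : ∀ r x, ‖f r x‖ ≤ 1) (hh : Measurable (f iB))
    (hν : D.ν[fun y => ∏ r ∈ Finset.univ.erase iB, f r (y r) - f iB (y iB) | cyl X {iB}]
      =ᵐ[D.ν] 0)
    {t : U} (ht : ∀ l, l ≤ t) (s : Pt σ) :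
    (D.PP σ)[fun ω => ∏ r ∈ Finset.univ.erase iB, f r (ω (s.upd t r)) - f iB (ω (s.upd t iB)) |
      cyl X (At σ t {iB})] =ᵐ[D.PP σ] 0 := by
  refine c3Est.fin D hf hf1 hh (e := fun r => s.upd t r) (D.PP_eval _) ?_
  refine c3Est.lim D hf (D.PM_tendsto σ) ?_
  filter_upwards [(Ultrafilter.of_le _) (eventually_ge_atTop {t})] with I hI
  have htI : t ∈ I.sort (· ≤ ·) := (Finset.mem_sort _).2 (hI (Finset.mem_singleton_self t))
  obtain ⟨L, L', hL⟩ := List.append_of_mem htI
  have hs : (I.sort (· ≤ ·)).Pairwise (· < ·) := I.sortedLT_sort.pairwise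
  rw [hL] at hs ⊢
  rw [List.pairwise_append, List.pairwise_cons] at hs
  have hL' : L' = [] := List.eq_nil_iff_forall_not_mem.2 fun l hl =>
    absurd (hs.2.1.1 l hl) (not_lt.2 (ht l))
  rw [hL', List.map_append]
  refine D.c3Est_line hf hf1 hh hν (fun s' : Pt σ => s'.1 t) (fun r => s.upd t r)
    (fun r => s.upd_self t r) _ fun c' hc' r => ?_
  obtain ⟨l, hl, rfl⟩ := List.mem_map.1 hc'
  have hlt : l ≠ t := (hs.2.2 l hl t List.mem_cons_self).ne
  show (s.upd t r).1 l = (s.upd t iB).1 l
  rw [s.upd_ne r hlt, s.upd_ne iB hlt]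

theorem pos_pres (p : U) (i j : Fin k) :
    (D.PP σ).map (pre fun s : Pt σ => s.upd p i) = (D.PP σ).map (pre fun s : Pt σ => s.upd p j) := by
  have := fun i : Fin k => Measure.isProbabilityMeasure_map (μ := D.PP σ)
    (measurable_pre (X := X) fun s : Pt σ => s.upd p i).aemeasurable
  refine ext_fin fun S => ?_
  rw [Measure.map_map (measurable_pre _) (measurable_pre _),
    Measure.map_map (measurable_pre _) (measurable_pre _)]
  obtain ⟨I, hp, hI⟩ := c3_levels S id p
  have key : ∀ (i : Fin k), ∀ l ∉ I, ∀ a b : S,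
      ((a : Pt σ).upd p i).1 l = ((b : Pt σ).upd p i).1 l := by
    intro i l hl a b
    by_cases h : l = p
    · rw [h, Pt.upd_self, Pt.upd_self]
    · rw [Pt.upd_ne _ _ h, Pt.upd_ne _ _ h]
      exact (hI l hl h a a.2).trans (hI l hl h b b.2).symm
  refine D.spread (fun a : S => (a : Pt σ).upd p j) (fun a : S => (a : Pt σ).upd p i) I id
    (fun _ _ _ _ h => h) (fun l hl a => ?_) (key j) fun l hl => key i l fun h => hl l h rfl
  have h : l ≠ p := fun h => hp (h ▸ hl)
  show ((a : Pt σ).upd p i).1 l = ((a : Pt σ).upd p j).1 l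
  rw [Pt.upd_ne _ _ h, Pt.upd_ne _ _ h]

theorem a5 {p : U} (hp : ∀ l, p ≤ l) (Φ : Fin k → (Pt σ → X) → ℂ) (hΦ : ∀ i, Measurable (Φ i))
    (h1 : ∀ i ω, ‖Φ i ω‖ ≤ 1) :
    Tendsto (fun n => ∫ ω, ∏ i, Φ i (D.Sh (Pt σ) (D.t n i) ω)
        ∂(D.PP σ).map (pre fun s : Pt σ => s.upd p (σ p))) D.𝔭
      (𝓝 (∫ ω, ∏ i, Φ i (pre (fun s : Pt σ => s.upd p i) ω) ∂D.PP σ)) := by
  have hm0 := measurable_pre (X := X) fun s : Pt σ => s.upd p (σ p)
  have := Measure.isProbabilityMeasure_map (μ := D.PP σ) hm0.aemeasurable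
  let G : ℕ → (Pt σ → X) → Fin k × Pt σ → X := fun n =>
    D.V Prod.fst n ∘ pre fun a => a.2.upd p (σ p)
  have hG : ∀ n, Measurable (G n) := fun n => (D.measurable_V _ n).comp (measurable_pre _)
  have hG' := measurable_pre (X := X) fun a : Fin k × Pt σ => a.2.upd p a.1
  have h2 : Tendsto (fun n => (D.PM σ).map (hG n).aemeasurable) D.𝔭
      (𝓝 ((D.PM σ).map hG'.aemeasurable)) := by
    refine c3_marg _ _ _ fun S => ?_
    obtain ⟨I, hpI, hI⟩ := c3_levels S Prod.snd p
    have hs : (I.sort (· ≤ ·)).Pairwise (· < ·) := I.sortedLT_sort.pairwise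
    have hne : ∀ l ∈ I.sort (· ≤ ·), l ≠ p := fun l hl h => hpI (h ▸ (Finset.mem_sort _).1 hl)
    have l1 := D.law (fun a : S => (a : Fin k × Pt σ).2.upd p (σ p)) (I.sort (· ≤ ·)) hs
      fun l hl a b => by
        by_cases h : l = p
        · rw [h, Pt.upd_self, Pt.upd_self]
        · rw [Pt.upd_ne _ _ h, Pt.upd_ne _ _ h]
          have hl' : l ∉ I := fun h' => hl ((Finset.mem_sort _).2 h')
          exact (hI l hl' h a a.2).trans (hI l hl' h b b.2).symm
    have l2 := D.law (fun a : S => (a : Fin k × Pt σ).2.upd p (a : Fin k × Pt σ).1)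
      (p :: I.sort (· ≤ ·))
      (List.pairwise_cons.2 ⟨fun l hl => lt_of_le_of_ne (hp l) (hne l hl).symm, hs⟩)
      fun l hl a b => by
        rw [List.mem_cons, not_or] at hl
        rw [Pt.upd_ne _ _ hl.1, Pt.upd_ne _ _ hl.1]
        have hl' : l ∉ I := fun h' => hl.2 ((Finset.mem_sort _).2 h')
        exact (hI l hl' hl.1 a a.2).trans (hI l hl' hl.1 b b.2).symm
    have e1 : ((p :: I.sort (· ≤ ·)).map fun l (a : S) =>
        ((a : Fin k × Pt σ).2.upd p (a : Fin k × Pt σ).1).1 l) =
        (fun a : S => (a : Fin k × Pt σ).1) :: (I.sort (· ≤ ·)).map fun l (a : S) =>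
          ((a : Fin k × Pt σ).2.upd p (σ p)).1 l := by
      rw [List.map_cons]
      congr 1
      · exact funext fun a => Pt.upd_self _ _ _
      · refine List.map_congr_left fun l hl => funext fun a => ?_
        rw [Pt.upd_ne _ _ (hne l hl), Pt.upd_ne _ _ (hne l hl)]
    rw [e1] at l2
    have h3 := D.Q_cons (fun a : S => (a : Fin k × Pt σ).1) ((I.sort (· ≤ ·)).map
      fun l (a : S) => ((a : Fin k × Pt σ).2.upd p (σ p)).1 l)
    convert h3 using 2 with n
    · refine ProbabilityMeasure.toMeasure_injective ?_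
      simp only [ProbabilityMeasure.toMeasure_map]
      rw [← l1, Measure.map_map (measurable_pre _) (hG n),
        Measure.map_map (D.measurable_V _ n) (measurable_pre _)]
      rfl
    · refine ProbabilityMeasure.toMeasure_injective ?_
      simp only [ProbabilityMeasure.toMeasure_map]
      rw [← l2, Measure.map_map (measurable_pre _) hG']
      rfl
  let cu : (Fin k × Pt σ → X) → Fin k → Pt σ → X := fun y i s => y (i, s)
  have hcu : Continuous cu := continuous_pi fun i => continuous_pi fun s => continuous_apply _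
  have h3 := ProbabilityMeasure.tendsto_map_of_tendsto_of_continuous _ _ h2 hcu
  have hint : Measurable fun y : Fin k → Pt σ → X => ∏ i, Φ i (y i) :=
    Finset.measurable_prod _ fun i _ => (hΦ i).comp (measurable_pi_apply i)
  have h4 := join_tendsto ((D.PP σ).map (pre fun s : Pt σ => s.upd p (σ p))) _ _ h3
    (fun n i => by
      simp only [ProbabilityMeasure.toMeasure_map]
      rw [Measure.map_map hcu.measurable (hG n),
        Measure.map_map (measurable_pi_apply i) (hcu.measurable.comp (hG n))]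
      conv_rhs => rw [← D.PP_Sh (D.t n i), Measure.map_map hm0 (D.measurable_Sh _ _)]
      rfl)
    (fun i => by
      simp only [ProbabilityMeasure.toMeasure_map]
      rw [Measure.map_map hcu.measurable hG',
        Measure.map_map (measurable_pi_apply i) (hcu.measurable.comp hG'), ← D.pos_pres p i]
      rfl) Φ hΦ h1
  simp only [ProbabilityMeasure.toMeasure_map] at h4
  rw [Measure.map_map hcu.measurable hG',
    integral_map (hcu.measurable.comp hG').aemeasurable hint.aestronglyMeasurable] at h4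
  refine h4.congr fun n => ?_
  have hm : Measurable fun ω => ∏ i, Φ i (D.Sh (Pt σ) (D.t n i) ω) :=
    Finset.measurable_prod _ fun i _ => (hΦ i).comp (D.measurable_Sh _ _)
  rw [Measure.map_map hcu.measurable (hG n),
    integral_map (hcu.measurable.comp (hG n)).aemeasurable hint.aestronglyMeasurable,
    integral_map hm0.aemeasurable hm.aestronglyMeasurable]
  rfl

end Dyn

end Vale.Agent.P102
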