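import Vale.Agent.P102.Basic

/-! P102, file CubeDefs: the cube process, levels, points and regions. -/

open MeasureTheory ProbabilityTheory Filter Topology Set
open scoped ComplexConjugate ENNReal InnerProductSpace

namespace Vale.Agent.P102

/-- A topological measure preserving `ℤ`-system with a sequence of time vectors and an
ultrafilter. -/
structure Dyn (k : ℕ) (X : Type) [TopologicalSpace X] [MeasurableSpace X] where
  μ : ProbabilityMeasure X
  T : ℤ → X → X
  cont : ∀ d, Continuous (T d)
  T_zero : ∀ x, T 0 x = x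
  T_add : ∀ a b x, T (a + b) x = T a (T b x)
  pres : ∀ d, (μ : Measure X).map (T d) = μ
  t : ℕ → Fin k → ℤ
  𝔭 : Ultrafilter ℕ

/-- Precomposition with a map of index sets. -/
def pre {A A' X : Type} (θ : A' → A) : (A → X) → A' → X := fun ω a => ω (θ a)

theorem measurable_pre {A A' X : Type} [MeasurableSpace X] (θ : A' → A) :
    Measurable (pre (X := X) θ) :=
  measurable_pi_lambda _ fun a => measurable_pi_apply (θ a)

theorem continuous_pre {A A' X : Type} [TopologicalSpace X] (θ : A' → A) :
    Continuous (pre (X := X) θ) :=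
  continuous_pi fun a => continuous_apply (θ a)

/-- Sigma-algebra of the coordinates in `R`. -/
abbrev cyl (X : Type) [MeasurableSpace X] {A : Type} (R : Set A) : MeasurableSpace (A → X) :=
  cylinderEvents (X := fun _ : A => X) R

/-- Points: words that agree with `σ` outside a finite set of levels. -/
def Pt {U : Type} {k : ℕ} (σ : U → Fin k) : Type := {s : U → Fin k // {l | s l ≠ σ l}.Finite}

instance {U : Type} [Countable U] {k : ℕ} (σ : U → Fin k) : Countable (Pt σ) := by
  classical
  let F : Pt σ → Finset (U × Fin k) := fun s => s.2.toFinset.image fun l => (l, s.1 l)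
  refine Function.Injective.countable (f := F) fun s s' h => Subtype.ext (funext fun l => ?_)
  have key : ∀ s s' : Pt σ, F s = F s' → s.1 l ≠ σ l → s.1 l = s'.1 l := by
    intro s s' h hl
    have h1 : (l, s.1 l) ∈ F s := Finset.mem_image.2 ⟨l, by simpa using hl, rfl⟩
    rw [h] at h1
    obtain ⟨l', -, e⟩ := Finset.mem_image.1 h1
    obtain ⟨rfl, e2⟩ := Prod.mk.inj e
    exact e2.symm
  by_cases h1 : s.1 l = σ l
  · by_cases h2 : s'.1 l = σ l
    · rw [h1, h2]
    · exact (key s' s h.symm h2).symm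
  · exact key s s' h h1

namespace Pt

variable {U : Type} {k : ℕ} {σ : U → Fin k}

/-- The base point. -/
def base (σ : U → Fin k) : Pt σ := ⟨σ, by simp⟩

open Classical in
/-- Change one coordinate. -/
noncomputable def upd (s : Pt σ) (l : U) (c : Fin k) : Pt σ :=
  ⟨Function.update s.1 l c, (s.2.insert l).subset fun l' hl' => by
    by_cases h : l' = l
    · exact Or.inl h
    · exact Or.inr (by simpa [Function.update_of_ne h] using hl')⟩

@[simp] theorem upd_self (s : Pt σ) (l : U) (c : Fin k) : (s.upd l c).1 l = c := by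
  simp [upd]

theorem upd_ne (s : Pt σ) {l l' : U} (c : Fin k) (h : l' ≠ l) : (s.upd l c).1 l' = s.1 l' := by
  simp [upd, h]

theorem ext' {s s' : Pt σ} (h : ∀ l, s.1 l = s'.1 l) : s = s' := Subtype.ext (funext h)

theorem upd_eq_self (s : Pt σ) {l : U} {c : Fin k} (h : s.1 l = c) : s.upd l c = s :=
  ext' fun l' => by
    by_cases e : l' = l
    · subst e; simp [h]
    · exact upd_ne s c e

@[simp] theorem base_val (σ : U → Fin k) (l : U) : (base σ).1 l = σ l := rfl

end Pt

section Regions

variable {U : Type} {k : ℕ} (σ : U → Fin k)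

/-- Points that move only at levels of `V`. -/
def Qr (V : Set U) : Set (Pt σ) := {s | ∀ l ∉ V, s.1 l = σ l}

/-- Marked points. -/
def Mk (m : U → Finset (Fin k)) : Set (Pt σ) := {s | ∃ l, s.1 l ∈ m l}

/-- Points whose coordinate at level `l` lies in `G`. -/
def At (l : U) (G : Set (Fin k)) : Set (Pt σ) := {s | s.1 l ∈ G}

/-- `D` is invariant under changes at the levels of `L`. -/
def Inv (L : Set U) (D : Set (Pt σ)) : Prop :=
  ∀ s s' : Pt σ, (∀ l ∉ L, s.1 l = s'.1 l) → s ∈ D → s' ∈ D

variable [LinearOrder U]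

/-- Every mark has adjacent levels (inside `L`, relative to finite subsets of `V`) of all thinner
types. -/
def Rich (V L : Set U) (m : U → Finset (Fin k)) : Prop :=
  ∀ l, ∀ c ∈ m l, ∀ S ⊆ (m l).erase c, ∀ I : Finset U, (I : Set U) ⊆ V →
    ∃ p ∈ L, p ∉ I ∧ p ≠ l ∧ σ p = c ∧ m p = S ∧ ∀ l' ∈ I, l' ≠ l → (l' < p ↔ l' < l)

/-- Richness from below inside `L`. -/
def RichB (L : Set U) (m : U → Finset (Fin k)) : Prop :=
  ∀ l ∈ L, ∀ c ∈ m l, ∀ S ⊆ (m l).erase c, ∀ I : Finset U, (I : Set U) ⊆ L →
    ∃ p ∈ L, p < l ∧ σ p = c ∧ m p = S ∧ ∀ l' ∈ I, l' < l → l' < p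

end Regions

namespace Dyn

variable {k : ℕ} {X : Type} [TopologicalSpace X] [PolishSpace X] [CompactSpace X]
  [MeasurableSpace X] [BorelSpace X] (D : Dyn k X)

/-- Coordinatewise shift by the times of the column `c`. -/
def V {A : Type} (c : A → Fin k) (n : ℕ) : (A → X) → A → X := fun ω a => D.T (D.t n (c a)) (ω a)

/-- Coordinatewise shift by `d`. -/
def Sh (A : Type) (d : ℤ) : (A → X) → A → X := fun ω a => D.T d (ω a)

omit [PolishSpace X] [CompactSpace X] [BorelSpace X] in
theorem continuous_V {A : Type} (c : A → Fin k) (n : ℕ) : Continuous (D.V c n) :=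
  continuous_pi fun a => (D.cont _).comp (continuous_apply a)

omit [PolishSpace X] [CompactSpace X] in
theorem measurable_V {A : Type} (c : A → Fin k) (n : ℕ) : Measurable (D.V c n) :=
  measurable_pi_lambda _ fun a => (D.cont _).measurable.comp (measurable_pi_apply a)

omit [PolishSpace X] [CompactSpace X] [BorelSpace X] in
theorem continuous_Sh (A : Type) (d : ℤ) : Continuous (D.Sh A d) :=
  continuous_pi fun a => (D.cont _).comp (continuous_apply a)

omit [PolishSpace X] [CompactSpace X] in
theorem measurable_Sh (A : Type) (d : ℤ) : Measurable (D.Sh A d) :=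
  measurable_pi_lambda _ fun a => (D.cont _).measurable.comp (measurable_pi_apply a)

/-- The law attached to a word; the first column is the outermost limit. -/
noncomputable def Q (A : Type) [Countable A] : List (A → Fin k) → ProbabilityMeasure (A → X)
  | [] => D.μ.map (f := fun x (_ : A) => x) (measurable_pi_lambda _ fun _ => measurable_id).aemeasurable
  | c :: W => (D.𝔭.map fun n => (Q A W).map (D.measurable_V c n).aemeasurable).lim

/-- The limit joining. -/
noncomputable def ν : Measure (Fin k → X) := D.Q (Fin k) [id]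

instance : IsProbabilityMeasure D.ν := by unfold ν; infer_instance

/-- In the limit joining one coordinate is independent of `k - 2` others. -/
def Mix : Prop := ∀ c c' : Fin k, c ≠ c' → Indep (cyl X {c}) (cyl X {c, c'}ᶜ) D.ν

/-- The cube process as a `ProbabilityMeasure`. -/
noncomputable def PM {U : Type} [LinearOrder U] [Countable U] (σ : U → Fin k) :
    ProbabilityMeasure (Pt σ → X) :=
  ((Ultrafilter.of (atTop : Filter (Finset U))).map fun I =>
    D.Q (Pt σ) ((I.sort (· ≤ ·)).map fun l s => s.1 l)).lim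

/-- The cube process. -/
noncomputable def PP {U : Type} [LinearOrder U] [Countable U] (σ : U → Fin k) :
    Measure (Pt σ → X) := D.PM σ

instance {U : Type} [LinearOrder U] [Countable U] (σ : U → Fin k) :
    IsProbabilityMeasure (D.PP σ) := by unfold PP; infer_instance

end Dyn

/-- The level structure. -/
structure Lev (k : ℕ) (U : Type) [LinearOrder U] (iB : Fin k) where
  p0 : U
  κ : U
  σ : U → Fin k
  mk' : U → Finset (Fin k)
  θ : Bool → U → U
  p0_lt : p0 < κ
  p0_le : ∀ l, p0 ≤ l
  le_κ : ∀ l, l ≤ κ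
  σ_κ : σ κ = iB
  mk_p0 : mk' p0 = ∅
  mk_κ : mk' κ = ∅
  σ_notMem : ∀ l, σ l ∉ mk' l
  card_le : ∀ l, (mk' l).card + 2 ≤ k
  dense : ∀ a b, a < b → ∀ (c : Fin k) (S : Finset (Fin k)), c ∉ S → S.card + 2 ≤ k →
    ∃ l, a < l ∧ l < b ∧ σ l = c ∧ mk' l = S
  θ_mono : ∀ b, StrictMono (θ b)
  θ_p0 : ∀ b, θ b p0 = p0
  θ_κ : ∀ b, θ b κ = κ
  θ_σ : ∀ b l, σ (θ b l) = σ l
  θ_mk : ∀ b l, mk' (θ b l) = mk' l
  θ_sep : ∀ l l', l < κ → p0 < l' → θ false l < θ true l'

namespace Lev

variable {k : ℕ} {U : Type} [LinearOrder U] {iB : Fin k} (L : Lev k U iB)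

/-- Put a point at position `i` of the lowest level. -/
noncomputable def pos (i : Fin k) (s : Pt L.σ) : Pt L.σ := s.upd L.p0 i

/-- Relabelling of points along `θ b` (the coordinate at `p0` is reset). -/
noncomputable def th (b : Bool) (s : Pt L.σ) : Pt L.σ :=
  ⟨Function.extend (L.θ b) (L.pos (L.σ L.p0) s).1 L.σ,
    ((L.pos (L.σ L.p0) s).2.image (L.θ b)).subset fun l hl => by
      by_cases h : ∃ l0, L.θ b l0 = l
      · obtain ⟨l0, rfl⟩ := h
        refine ⟨l0, ?_, rfl⟩
        simpa [(L.θ_mono b).injective.extend_apply, L.θ_σ] using hl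
      · exact absurd (Function.extend_apply' _ _ _ h) hl⟩

theorem th_θ (b : Bool) (s : Pt L.σ) (l : U) :
    (L.th b s).1 (L.θ b l) = (L.pos (L.σ L.p0) s).1 l := by
  simp [th, (L.θ_mono b).injective.extend_apply]

theorem th_of_not (b : Bool) (s : Pt L.σ) {l : U} (h : ¬ ∃ l0, L.θ b l0 = l) :
    (L.th b s).1 l = L.σ l := Function.extend_apply' _ _ _ h

/-- Points of the small system. -/
def Q0 : Set (Pt L.σ) := At L.σ L.p0 {L.σ L.p0}

/-- Rows. -/
def Row (G : Set (Fin k)) : Set (Pt L.σ) := At L.σ L.κ G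

/-- Columns. -/
def Col (G : Set (Fin k)) : Set (Pt L.σ) := At L.σ L.p0 G

/-- Marked points. -/
def M : Set (Pt L.σ) := Mk L.σ L.mk'

end Lev

/-- The rows of the three slots. -/
def slot {k : ℕ} (i0 iB : Fin k) : Fin 3 → Set (Fin k) := ![{iB}, {i0}, {iB, i0}ᶜ]

end Vale.Agent.P102
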