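import Mathlib

open MeasureTheory Filter Topology Set

namespace Vale.Agent.P102

variable {Ω : Type*} [MeasurableSpace Ω]

/-- The integer power `T ^ n` of an invertible bimeasurable map. -/
def iter (T : Ω ≃ᵐ Ω) (n : ℤ) : Ω → Ω := ⇑(T.toEquiv ^ n : Equiv.Perm Ω)

/-- `μ (A ∩ T^{-n} B) → μ A * μ B` as `|n| → ∞`. -/
def Mixing (μ : Measure Ω) (T : Ω ≃ᵐ Ω) : Prop :=
  ∀ A B : Set Ω, MeasurableSet A → MeasurableSet B →
    Tendsto (fun n : ℤ => μ.real (A ∩ iter T n ⁻¹' B)) (comap (fun n : ℤ => |n|) atTop)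
      (𝓝 (μ.real A * μ.real B))

/-- `μ (⋂ T^{-t_i} A_i) → ∏ μ A_i` when `t_1 < ⋯ < t_k` and the least consecutive gap tends to
infinity. -/
def MixingOfOrder (μ : Measure Ω) (T : Ω ≃ᵐ Ω) (k : ℕ) : Prop :=
  ∀ A : Fin k → Set Ω, (∀ i, MeasurableSet (A i)) → ∀ ε : ℝ, 0 < ε → ∃ N : ℕ,
    ∀ t : Fin k → ℤ, StrictMono t → (∀ i j : Fin k, (j : ℕ) = i + 1 → (N : ℤ) ≤ t j - t i) →
      |μ.real (⋂ i, iter T (t i) ⁻¹' A i) - ∏ i, μ.real (A i)| < ε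

end Vale.Agent.P102
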