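import Vale.Agent.P102.Tools

/-! P102, file Dense: a countable family of unimodular functions which is `L¹`-dense for every
probability measure.

PLAN. Let `𝒜` be the countable algebra generated by a countable generating family of `m`
(`generateSetAlgebra`, `countable_generateSetAlgebra`). For a list `L` of pairs `(s, q)`, `s ∈ 𝒜`,
`q : ℚ`, let `ψ L := ∏ exp (I * q * 1_s)`. Fix `ρ` and let `𝒞` be the set of `a ∈ Uni m` that are
`L¹(ρ)`-limits of the `ψ L`. It is closed under products (`‖a b - a' b'‖ ≤ ‖a - a'‖ + ‖b - b'‖`)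
and under `L¹` limits; it contains `exp (I θ 1_s)` for `θ` real and `s ∈ m`
(`exists_measure_symmDiff_lt_of_generateFrom_isSetRing` for `ρ.trim`, `‖exp (I a) - exp (I b)‖ ≤
|a - b|`), so `exp (I g)` for real simple `g` (`SimpleFunc.induction`), so `a = exp (I arg a)`
(`SimpleFunc.approxOn` or `StronglyMeasurable.approx`, dominated convergence). Enumerate the lists
by `ℕ` (`exists_surjective_nat`). -/

open MeasureTheory ProbabilityTheory Filter Topology Set
open scoped ComplexConjugate ENNReal InnerProductSpace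

namespace Vale.Agent.P102

private theorem dense_ind {Ω : Type*} [m : MeasurableSpace Ω] {𝒜 : Set (Set Ω)}
    (h𝒜 : IsSetAlgebra 𝒜) (hg : m = MeasurableSpace.generateFrom 𝒜) (μ : Measure Ω)
    [IsFiniteMeasure μ] (c : ℝ) {s : Set Ω} (hs : MeasurableSet s) {δ : ℝ} (hδ : 0 < δ) :
    ∃ t ∈ 𝒜, ∃ q : ℚ, ∫ ω, ‖t.indicator (fun _ => (q : ℝ)) ω - s.indicator (fun _ => c) ω‖ ∂μ ≤ δ := by
  have hU : 0 < μ.real univ + 1 := by positivity
  have hc : 0 < |c| + 1 := by positivity
  have hD := Measure.MeasureDense.of_generateFrom_isSetAlgebra_finite μ h𝒜 hg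
  obtain ⟨t, ht, h1⟩ := hD.approx s hs (measure_ne_top _ _) (δ / 2 / (|c| + 1)) (by positivity)
  obtain ⟨q, h2⟩ := exists_rat_near c (show 0 < δ / 2 / (μ.real univ + 1) by positivity)
  have h3 : MeasurableSet (symmDiff s t) := hs.symmDiff (hD.measurable t ht)
  have h4 : Integrable ((symmDiff s t).indicator fun _ => |c|) μ := (integrable_const _).indicator h3
  refine ⟨t, ht, q, (integral_mono_of_nonneg (Eventually.of_forall fun _ => norm_nonneg _)
    ((integrable_const |c - q|).add h4) (Eventually.of_forall fun ω => ?_)).trans ?_⟩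
  · have h5 : |(q : ℝ)| ≤ |c - q| + |c| := by
      simpa only [sub_sub_cancel, add_comm] using abs_sub c (c - q)
    by_cases a : ω ∈ s <;> by_cases b : ω ∈ t <;>
      simp [indicator, a, b, mem_symmDiff, abs_sub_comm, h5, -Rat.norm_cast_real]
  · rw [integral_add' (integrable_const _) h4, integral_indicator_const _ h3, integral_const,
      smul_eq_mul, smul_eq_mul, ← add_halves δ]
    have h5 : μ.real (symmDiff s t) ≤ δ / 2 / (|c| + 1) :=
      ENNReal.toReal_le_of_le_ofReal (by positivity) h1.le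
    rw [le_div_iff₀ hc] at h5
    rw [lt_div_iff₀ hU] at h2
    have h6 : 0 ≤ μ.real (symmDiff s t) := measureReal_nonneg
    exact add_le_add (by nlinarith [abs_nonneg (c - q)]) (by nlinarith)

private theorem dense_real {Ω : Type*} [m : MeasurableSpace Ω]
    [MeasurableSpace.CountablyGenerated Ω] :
    ∃ g : ℕ → Ω → ℝ, (∀ j, Measurable (g j)) ∧ ∀ μ : Measure Ω, IsFiniteMeasure μ →
      ∀ f : Ω → ℝ, Integrable f μ → ∀ ε : ℝ, 0 < ε →
        ∃ j, Integrable (g j) μ ∧ ∫ ω, ‖f ω - g j ω‖ ∂μ ≤ ε := by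
  set 𝒜 := generateSetAlgebra (MeasurableSpace.countableGeneratingSet Ω) with h𝒜
  have h1 : IsSetAlgebra 𝒜 := isSetAlgebra_generateSetAlgebra
  have h2 : m = MeasurableSpace.generateFrom 𝒜 := by
    rw [h𝒜, generateFrom_generateSetAlgebra_eq, MeasurableSpace.generateFrom_countableGeneratingSet]
  have h3 : ∀ s ∈ 𝒜, MeasurableSet s := fun s hs =>
    h2 ▸ MeasurableSpace.measurableSet_generateFrom hs
  have : Countable 𝒜 :=
    (countable_generateSetAlgebra MeasurableSpace.countable_countableGeneratingSet).to_subtype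
  set G : List (𝒜 × ℚ) → Ω → ℝ := fun L =>
    (L.map fun p => (p.1 : Set Ω).indicator fun _ => (p.2 : ℝ)).sum with hG
  have h4 : ∀ L, Measurable (G L) := fun L => List.measurable_sum _ fun f hf => by
    obtain ⟨p, -, rfl⟩ := List.mem_map.1 hf
    exact measurable_const.indicator (h3 _ p.1.2)
  obtain ⟨e, he⟩ := exists_surjective_nat (List (𝒜 × ℚ))
  refine ⟨fun j => G (e j), fun j => h4 _, fun μ _ f hf ε hε => ?_⟩
  have h5 : ∀ {u : Ω → ℝ}, Integrable u μ → eLpNorm u 1 μ = ENNReal.ofReal (∫ ω, ‖u ω‖ ∂μ) :=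
    fun hu => by rw [eLpNorm_one_eq_lintegral_enorm, ofReal_integral_norm_eq_lintegral_enorm hu]
  obtain ⟨g, h6, h7, L, rfl⟩ := (memLp_one_iff_integrable.2 hf).induction_dense ENNReal.one_ne_top
    (fun g => Integrable g μ ∧ ∃ L, G L = g) (fun c s hs _ δ hδ => by
      obtain ⟨r, -, r1, r2⟩ := ENNReal.lt_iff_exists_real_btwn.1 (pos_iff_ne_zero.2 hδ)
      obtain ⟨t, ht, q, h⟩ := dense_ind h1 h2 μ c hs (ENNReal.ofReal_pos.1 r1)
      have h8 : Integrable (t.indicator fun _ => (q : ℝ)) μ :=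
        (integrable_const _).indicator (h3 t ht)
      refine ⟨_, ?_, h8, [(⟨t, ht⟩, q)], by simp [hG]⟩
      rw [h5 (h8.sub ((integrable_const _).indicator hs))]
      exact (ENNReal.ofReal_le_ofReal h).trans r2.le)
    (fun _ _ ⟨a, L, a'⟩ ⟨b, L', b'⟩ => ⟨a.add b, L ++ L', by simp [← a', ← b', hG]⟩)
    (fun _ h => h.1.1) (ENNReal.ofReal_pos.2 hε).ne'
  obtain ⟨j, rfl⟩ := he L
  rw [h5 (hf.sub h7), ENNReal.ofReal_le_ofReal_iff hε.le] at h6
  exact ⟨j, h7, h6⟩

theorem exists_dense_uni {Ω : Type*} {m m0 : MeasurableSpace Ω} (hm : m ≤ m0) (hcg : CG m) :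
    ∃ ψ : ℕ → Ω → ℂ, (∀ j, Uni m (ψ j)) ∧ ∀ ρ : Measure Ω, IsProbabilityMeasure ρ →
      ∀ a : Ω → ℂ, Uni m a → ∀ ε : ℝ, 0 < ε → ∃ j, ∫ ω, ‖a ω - ψ j ω‖ ∂ρ < ε := by
  obtain ⟨g, h1, h2⟩ := @dense_real Ω m hcg
  have hu : ∀ {u : Ω → ℝ}, Measurable[m] u → Uni m fun ω => Complex.exp (Complex.I * u ω) :=
    fun hu => ⟨Complex.measurable_exp.comp
      ((Complex.measurable_ofReal.comp hu).const_mul _), fun _ => Complex.norm_exp_I_mul_ofReal _⟩
  refine ⟨_, fun j => hu (h1 j), fun ρ _ a ha ε hε => ?_⟩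
  have h3 : Measurable[m] fun ω => (a ω).arg := Complex.measurable_arg.comp ha.1
  have h4 : Integrable (fun ω => (a ω).arg) (ρ.trim hm) :=
    (integrable_const Real.pi).mono' h3.aestronglyMeasurable
      (Eventually.of_forall fun ω => Complex.abs_arg_le_pi _)
  obtain ⟨j, h5, h6⟩ := h2 (ρ.trim hm) inferInstance _ h4 (ε / 2) (half_pos hε)
  refine ⟨j, ?_⟩
  have h9 : ∀ {m : MeasurableSpace Ω} {u v : Ω → ℂ}, Uni m u → Uni m v →
      StronglyMeasurable[m] fun ω => ‖u ω - v ω‖ :=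
    fun hu hv => (hu.1.sub hv.1).norm.stronglyMeasurable
  rw [integral_trim hm (h9 ha (hu (h1 j)))]
  refine ((integral_mono_of_nonneg (Eventually.of_forall fun _ => norm_nonneg _) (h4.sub h5).norm
    (Eventually.of_forall fun ω => ?_)).trans h6).trans_lt (half_lt_self hε)
  have h7 : a ω = Complex.exp (Complex.I * (a ω).arg) := by
    simpa only [ha.2 ω, Complex.ofReal_one, one_mul, mul_comm Complex.I] using
      (Complex.norm_mul_exp_arg_mul_I (a ω)).symm
  have h8 : a ω - Complex.exp (Complex.I * g j ω) = Complex.exp (Complex.I * g j ω) *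
      (Complex.exp (Complex.I * ((a ω).arg - g j ω : ℝ)) - 1) := by
    rw [mul_sub, ← Complex.exp_add, ← mul_add, Complex.ofReal_sub, add_sub_cancel, ← h7, mul_one]
  beta_reduce
  rw [h8, norm_mul, Complex.norm_exp_I_mul_ofReal, one_mul]
  exact Real.norm_exp_I_mul_ofReal_sub_one_le


end Vale.Agent.P102
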