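import Vale.Agent.P102.SysBasic
import Vale.Agent.P102.Chain

/-! P102, file Det: determinism of the atom structure.

PLAN. `iso_of_surj`: `Γ := {(a, a') | a / pull a' ∈ K e}` (comap of `K e` under a hom);
`pull_mem_K`, `pull_mem_O`. `ae_iso_S`: surjectivity through `a' := pull (S (-1)) a`, using
`ae_mor_S (-1)` at the point `S 1 ω` (`ae_S`). `ae_cnt`: let `N ⊆ W` be the measurable set of
`exists_measurable_cnt` for `κw`; a.e. `Θ b ω ∈ ζ⁻¹ N → ω ∈ ζ⁻¹ N` (`Cnt.comp`, `ae_map_Θ`,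
`ae_Gw`, `ae_Θ`), and both sets have the same measure (`Θ_pres`), so they are a.e. equal
(`ae_eq_of_ae_subset_of_measure_ge`); countably many `(i, d, q, n)`. `ae_iso_Θ`: let `e = η ω`,
`e' = η (Θ b ω)` with `Ge e`, `Mor`, and `ae_cnt` for `κe e`-a.e. point. Let `a ∈ O e i d`. The set
`Z = {ω'' | Ch (κw (ζ ω'')) a}` has positive measure; at a good `ω₀ ∈ Z` `surj_of_cnt` gives `a'`
with `Triv (a * conj (a' ∘ Θ))` (move it to `κe e` by `Agree.triv`). At every other good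
`ω'' ∈ Z` it gives `a''`, and `Triv (κe e) ((a' * conj a'') ∘ Θ)` gives `Triv (κe e')`
(`triv_map_iff`), hence `Triv` for `κw (ζ (Θ ω'')) = (κw (ζ ω'')).map Θ` (again `triv_map_iff` and
`Agree`), so `Ch (κw (ζ (Θ ω''))) a'` (`Ch.of_triv`). So `wt e' a' ≥ wt e a`; the label is equal
(`norm_integral_mul_of_triv`, `integral_map`). `exists_star`: for a.e. `ω`,
`Iso 0 (η (Θ false ω)) (η (Θ true ω))` (`Iso.symm`, `Iso.trans`); `ae_map_of_ae` for the map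
`ω ↦ (η (Θ false ω), η (Θ true ω))` whose law is `lam.prod lam`, `lam = P0.map η`
(`indepFun_iff_map_prod_eq_prod_map_map`, `ind_Θ`, `Θ_pres`); `Measure.ae_ae_of_ae_prod`; choose
`e` which also satisfies `ae_law`, `ae_Ge` (`ae_map_of_ae`); `ae_of_ae_map`; `ae_iso_S`. -/

open MeasureTheory ProbabilityTheory Filter Topology Set
open scoped ComplexConjugate ENNReal InnerProductSpace

namespace Vale.Agent.P102

theorem det_sm {Ω : Type*} {m : MeasurableSpace Ω} {f : Ω → ℂ} (hf : Measurable[m] f) :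
    StronglyMeasurable[m] f := hf.stronglyMeasurable

namespace Sys

variable {k : ℕ} {X Ω₀ Ω₁ W E : Type} [mX : MeasurableSpace X] [m0 : MeasurableSpace Ω₀]
  [m1 : MeasurableSpace Ω₁] [mW : MeasurableSpace W] [mE : MeasurableSpace E]
  [StandardBorelSpace X] [StandardBorelSpace Ω₀] [Nonempty Ω₀] [StandardBorelSpace Ω₁]
  [Nonempty Ω₁] [StandardBorelSpace W] [StandardBorelSpace E] (Y : Sys k X Ω₀ Ω₁ W E)

theorem iso_of_surj {Θ : Ω₀ → Ω₀} (hΘ : Measurable Θ) (hB : ∀ j, Measurable[Y.B j, Y.B j] Θ)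
    {e e' : E} (h : Y.Mor Θ e e') {d : ℤ} (hF : ∀ i t, Y.F i t ∘ Θ = Y.F i (t + d)) {σ ε : ℝ}
    (hs : ∀ i t, ∀ a ∈ Y.O σ ε e i (t + d), ∃ a' ∈ Y.O σ ε e' i t,
      a / UG.pull Θ (hB 0) a' ∈ Y.K e) :
    Iso d (Y.K e) (Y.K e') (Y.O σ ε e) (Y.O σ ε e') := by
  let φ : UG (Y.B 0) × UG (Y.B 0) →* UG (Y.B 0) :=
    MonoidHom.fst _ _ / (UG.pull Θ (hB 0)).comp (MonoidHom.snd _ _)
  refine ⟨(Y.K e).comap φ, fun a a' ha => ?_, fun i t a ha => hs i t a ha, fun i t a' ha' => ?_⟩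
  · have ha1 : a / UG.pull Θ (hB 0) a' ∈ Y.K e := ha
    rw [← Y.pull_mem_K hΘ hB h a']
    constructor
    · intro h1
      have := (Y.K e).div_mem h1 ha1
      rwa [div_div_cancel] at this
    · intro h1
      have := (Y.K e).mul_mem ha1 h1
      rwa [div_mul_cancel] at this
  · refine ⟨UG.pull Θ (hB 0) a', Y.pull_mem_O hΘ hB h (hF i t) ha', ?_⟩
    show UG.pull Θ (hB 0) a' / UG.pull Θ (hB 0) a' ∈ Y.K e
    rw [div_self']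
    exact (Y.K e).one_mem

theorem ae_iso_S (σ ε : ℝ) : ∀ᵐ ω ∂Y.P0,
    Iso 1 (Y.K (Y.η ω)) (Y.K (Y.η (Y.S 1 ω))) (Y.O σ ε (Y.η ω)) (Y.O σ ε (Y.η (Y.S 1 ω))) := by
  have hinv : ∀ ω, Y.S (-1) (Y.S 1 ω) = ω := fun ω => by
    rw [← Y.S_add, neg_add_cancel, Y.S_zero]
  filter_upwards [Y.ae_mor_S 1, Y.ae_S (Y.ae_mor_S (-1))] with ω h1 h2
  have h3 := h2 1
  rw [hinv] at h3
  refine Y.iso_of_surj (Y.mS 1) (Y.S_B 1) h1 (fun i t => Y.F_S i t 1) fun i t a ha => ?_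
  refine ⟨UG.pull (Y.S (-1)) (Y.S_B (-1) 0) a, Y.pull_mem_O (Y.mS (-1)) (Y.S_B (-1)) h3 ?_ ha, ?_⟩
  · rw [Y.F_S, add_neg_cancel_right]
  · have e : UG.pull (Y.S 1) (Y.S_B 1 0) (UG.pull (Y.S (-1)) (Y.S_B (-1) 0) a) = a := by
      refine Subtype.ext (funext fun ω' => ?_)
      simp only [UG.coe_pull, Function.comp_apply, hinv]
    rw [e, div_self']
    exact (Y.K _).one_mem

theorem ae_cnt (b : Bool) : ∀ᵐ ω ∂Y.P0, ∀ (i : Fin k) (d : ℤ) (q : ℚ) (n : ℕ),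
    Cnt Y.B (Y.κw (Y.ζ ω)) (Y.F i d) q n → Cnt Y.B (Y.κw (Y.ζ (Y.Θ b ω))) (Y.F i d) q n := by
  refine ae_all_iff.2 fun i => ae_all_iff.2 fun d => ae_all_iff.2 fun q => ae_all_iff.2 fun n => ?_
  have hF : Measurable (Y.F i d) := (Y.mF i d).mono (Y.B_le 0) le_rfl
  obtain ⟨N, hN, hN'⟩ := exists_measurable_cnt Y.B_le Y.B_cg Y.κw hF (Y.F_le i d) q n
  have hs : MeasurableSet (Y.ζ ⁻¹' N) := Y.mζ hN
  have h1 : (Y.Θ b ⁻¹' (Y.ζ ⁻¹' N) : Set Ω₀) ≤ᵐ[Y.P0] (Y.ζ ⁻¹' N : Set Ω₀) := by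
    filter_upwards [Y.ae_Gw, Y.ae_Θ Y.ae_Gw, Y.ae_map_Θ b] with ω g1 g2 g3 hω
    have h2 : Cnt Y.B (Y.κw (Y.ζ (Y.Θ b ω))) (Y.F i d) q n := (hN' _ (g2 b).1).1 hω
    rw [← g3.1] at h2
    exact (hN' _ g1.1).2 (Cnt.comp Y.B_le (Y.mΘ b) (Y.Θ_B b) hF (Y.F_Θ i d b) h2)
  have h2 : Y.P0 (Y.ζ ⁻¹' N) ≤ Y.P0 (Y.Θ b ⁻¹' (Y.ζ ⁻¹' N)) := by
    rw [← Measure.map_apply (Y.mΘ b) hs, Y.Θ_pres]
  have h3 := ae_eq_of_ae_subset_of_measure_ge h1 h2 (Y.mΘ b hs).nullMeasurableSet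
    (measure_ne_top _ _)
  filter_upwards [Y.ae_Gw, Y.ae_Θ Y.ae_Gw, h3] with ω g1 g2 g3 hω
  have h4 : ω ∈ Y.ζ ⁻¹' N := (hN' _ g1.1).2 hω
  have h5 : ω ∈ Y.Θ b ⁻¹' (Y.ζ ⁻¹' N) := (eq_iff_iff.1 g3).2 h4
  exact (hN' _ (g2 b).1).1 h5

theorem ae_iso_Θ {σ ε : ℝ} (hσ : 0 < σ) (hε : 0 < ε) (b : Bool) : ∀ᵐ ω ∂Y.P0,
    Iso 0 (Y.K (Y.η ω)) (Y.K (Y.η (Y.Θ b ω))) (Y.O σ ε (Y.η ω)) (Y.O σ ε (Y.η (Y.Θ b ω))) := by
  filter_upwards [Y.ae_Ge, Y.ae_Θ Y.ae_Ge, Y.ae_mor_Θ b, ae_ae_kd Y.mη (Y.ae_cnt b)]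
    with ω hG hG' hM hC
  set e := Y.η ω with he
  set e' := Y.η (Y.Θ b ω) with he'
  have hG1 : ∀ᵐ ω' ∂Y.κe e, Agree (Y.B 0) (Y.κw (Y.ζ (Y.Θ b ω'))) (Y.κe e') := by
    have h1 : ∀ᵐ ω' ∂(Y.κe e).map (Y.Θ b), Agree (Y.B 0) (Y.κw (Y.ζ ω')) (Y.κe e') := by
      rw [hM.1]
      exact (hG' b).mono fun _ h => h.2
    exact ae_of_ae_map (Y.mΘ b).aemeasurable h1
  refine Y.iso_of_surj (Y.mΘ b) (Y.Θ_B b) hM (fun i t => by rw [add_zero, Y.F_Θ])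
    fun i t a ha => ?_
  rw [add_zero] at ha
  have hF : Measurable (Y.F i t) := (Y.mF i t).mono (Y.B_le 0) le_rfl
  have hua : Uni (Y.B 0) (a : Ω₀ → ℂ) := UG.uni a
  have hkey : ∀ᵐ ω' ∂Y.κe e, Ch Y.B (Y.κw (Y.ζ ω')) a → ∃ a' : UG (Y.B 0),
      Ch Y.B (Y.κw (Y.ζ (Y.Θ b ω'))) a' ∧ a / UG.pull (Y.Θ b) (Y.Θ_B b 0) a' ∈ Y.K e := by
    filter_upwards [hG, hM.2, hC] with ω' g1 g2 g3 hc
    have h0 : ∫ x, (a : Ω₀ → ℂ) x * Y.F i t x ∂Y.κw (Y.ζ ω') ≠ 0 := by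
      rw [g1.2.integral_eq (Y.B_le 0) (F := fun x => (a : Ω₀ → ℂ) x * Y.F i t x)
        (det_sm (hua.1.mul (Y.mF i t)))]
      exact norm_pos_iff.1 (hε.trans_le ha.2)
    obtain ⟨a', h1, h2, h3⟩ := surj_of_cnt Y.B_le g1.1 (Y.mΘ b) (Y.Θ_B b) hF (Y.F_le i t)
      (Y.F_Θ i t b) (fun q n h => by rw [g2]; exact g3 i t q n h) hua hc h0
    rw [g2] at h2
    exact ⟨⟨a', h1⟩, h2, g1.2.triv (hua.mul (h1.comp (Y.Θ_B b 0)).star).1 h3⟩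
  have hZ : Y.κe e {ω' | Ch Y.B (Y.κw (Y.ζ ω')) a} ≠ 0 := by
    intro h0
    have h1 := ha.1
    rw [wt, measureReal_def, h0, ENNReal.toReal_zero] at h1
    exact absurd h1 (not_le.2 hσ)
  obtain ⟨ω₀, h1, h2⟩ := Measure.exists_mem_of_measure_ne_zero_of_ae hZ (ae_restrict_of_ae hkey)
  obtain ⟨a', -, h3⟩ := h2 h1
  have hua' : Uni (Y.B 0) (a' : Ω₀ → ℂ) := UG.uni a'
  refine ⟨a', ⟨ha.1.trans ?_, ha.2.trans (le_of_eq ?_)⟩, h3⟩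
  · have h4 : {ω' | Ch Y.B (Y.κw (Y.ζ ω')) a} ≤ᵐ[Y.κe e]
        (Y.Θ b ⁻¹' {ω' | Ch Y.B (Y.κw (Y.ζ ω')) a'} : Set Ω₀) := by
      filter_upwards [hkey, hG1] with ω' g1 g2 hc
      obtain ⟨a'', h5, h6⟩ := g1 hc
      have h7 := (Y.K e).div_mem h6 h3
      rw [div_div_div_cancel_left, ← map_div, Y.pull_mem_K (Y.mΘ b) (Y.Θ_B b) hM] at h7
      exact Ch.of_triv hua' (UG.uni a'') h5 (g2.symm.triv (UG.uni (a' / a'')).1 h7)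
    rw [wt, wt, ← hM.1, map_measureReal_apply (Y.mΘ b) (Y.measurableSet_ch hua')]
    exact ENNReal.toReal_mono (measure_ne_top _ _) (measure_mono_ae h4)
  · rw [← hM.1, cnt_map (Y.mΘ b) (hua'.1.mono (Y.B_le 0) le_rfl) hF (Y.F_Θ i t b)]
    exact norm_integral_mul_of_triv hua (hua'.comp (Y.Θ_B b 0)) h3 _

theorem exists_star {σ ε : ℝ} (hσ : 0 < σ) (hε : 0 < ε) :
    ∃ e : E, (Y.κe e).map Y.ξ = Y.μ ∧ Y.Ge e ∧ Iso 1 (Y.K e) (Y.K e) (Y.O σ ε e) (Y.O σ ε e) ∧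
      ∀ᵐ ω ∂Y.P0, Iso 0 (Y.K (Y.η ω)) (Y.K e) (Y.O σ ε (Y.η ω)) (Y.O σ ε e) := by
  have hm : ∀ b, Measurable (Y.η ∘ Y.Θ b) := fun b => Y.mη.comp (Y.mΘ b)
  have hlaw : ∀ b, Y.P0.map (Y.η ∘ Y.Θ b) = Y.P0.map Y.η := fun b => by
    rw [← Measure.map_map Y.mη (Y.mΘ b), Y.Θ_pres]
  have hprod : Y.P0.map (fun ω => ((Y.η ∘ Y.Θ false) ω, (Y.η ∘ Y.Θ true) ω)) =
      (Y.P0.map Y.η).prod (Y.P0.map Y.η) := by
    rw [(indepFun_iff_map_prod_eq_prod_map_map (hm false).aemeasurable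
      (hm true).aemeasurable).1 ((IndepFun_iff_Indep _ _ _).2 Y.ind_Θ), hlaw, hlaw]
  have h1 : ∀ᵐ z ∂(Y.P0.map Y.η).prod (Y.P0.map Y.η),
      Iso 0 (Y.K z.2) (Y.K z.1) (Y.O σ ε z.2) (Y.O σ ε z.1) := by
    rw [← hprod]
    refine ae_map_of_ae ((hm false).prodMk (hm true)) ?_
    filter_upwards [Y.ae_iso_Θ hσ hε false, Y.ae_iso_Θ hσ hε true] with ω g1 g2
    have := g2.symm.trans g1
    rwa [neg_zero, add_zero] at this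
  have := Measure.isProbabilityMeasure_map (μ := Y.P0) Y.mη.aemeasurable
  obtain ⟨e, g1, g2, g3⟩ := ((ae_map_of_ae Y.mη (p := fun e => (Y.κe e).map Y.ξ = Y.μ)
    Y.ae_law).and ((ae_map_of_ae Y.mη (p := Y.Ge) Y.ae_Ge).and
      (Measure.ae_ae_of_ae_prod h1))).exists
  have g4 := ae_of_ae_map Y.mη.aemeasurable g3
  refine ⟨e, g1, g2, ?_, g4⟩
  obtain ⟨ω, k1, k2, k3⟩ := (g4.and ((Y.ae_S g4).and (Y.ae_iso_S σ ε))).exists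
  have := (k1.symm.trans k3).trans (k2 1)
  rwa [neg_zero, zero_add, add_zero] at this

end Sys

end Vale.Agent.P102
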