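import Vale.Agent.P102.Prod

/-! P102, file FibCI: formal consequences of the fibre hypotheses (pure graphoid calculus).

PLAN. Permutations: rewrite with `sup_comm`, `sup_assoc`, `Indep.symm`.
`Fib.sc`: `x univ ⟂ z univ` gives `CI (x univ) (z univ) (x S)` (`of_indep`, `cond_left`); from
`cy S` (symmetrised, `cond_right` with `D' = x S ⊔ z univ`, `mono`) get
`CI (x univ) (y S) (z univ ⊔ x S)`; conclude with `contr` and `mono`.
`Fib.cc`: from `ColInd I J`: `CI (x I ⊔ y I) (W J) (z I)` with `W J = x J ⊔ y J ⊔ z J`. From `sc`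
for the row `z` (permute!) and the set `I ∪ J`: `CI (z univ) (x (I ∪ J) ⊔ y univ) (z (I ∪ J))`;
symmetrise, `cond_left` with `D' = W J ⊔ z I`, `mono`: `CI (x I ⊔ y I) (z univ) (W J ⊔ z I)`;
`contr`. -/

open MeasureTheory ProbabilityTheory Filter Topology Set
open scoped ComplexConjugate ENNReal InnerProductSpace

namespace Vale.Agent.P102

variable {Ω ι : Type*} {x y z : Set ι → MeasurableSpace Ω} {m0 : MeasurableSpace Ω}
  {μ : Measure Ω} [IsProbabilityMeasure μ] {I J K S S' : Set ι}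

theorem Fib.swap12 (h : Fib μ x y z) : Fib μ y x z :=
⟨h.yle, h.xle, h.zle, h.yun, h.xun, h.zun, h.xy.symm, h.yz, h.xz, h.cy, h.cx,
    fun S hS => (h.cz S hS).mono le_sup_left (by order) |>.cond_right (by order) (by order)⟩

theorem Fib.swap13 (h : Fib μ x y z) : Fib μ z y x :=
⟨h.zle, h.yle, h.xle, h.zun, h.yun, h.xun, h.yz.symm, h.xz.symm, h.xy.symm,
    fun S hS => by rw [sup_comm (y univ), sup_comm (y S)]; exact h.cz S hS,
    fun S hS => by rw [sup_comm (z univ), sup_comm (z S)]; exact h.cy S hS,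
    fun S hS => by rw [sup_comm (z univ), sup_comm (z S)]; exact h.cx S hS⟩

theorem Fib.swap23 (h : Fib μ x y z) : Fib μ x z y :=
h.swap12.swap13.swap12

theorem Fib.xmono (h : Fib μ x y z) (hS : S ⊆ S') : x S ≤ x S' :=
by
  rw [← union_eq_self_of_subset_left hS, h.xun]
  exact le_sup_left

theorem Fib.ymono (h : Fib μ x y z) (hS : S ⊆ S') : y S ≤ y S' :=
h.swap12.xmono hS

theorem Fib.zmono (h : Fib μ x y z) (hS : S ⊆ S') : z S ≤ z S' :=
h.swap13.xmono hS

theorem ColInd.symm (h : ColInd μ x y z I J) : ColInd μ x y z J I :=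
Indep.symm h

theorem ColInd.swap12 (h : ColInd μ x y z I J) : ColInd μ y x z I J :=
by
  rw [ColInd, sup_comm (y I), sup_comm (y J)]
  exact h

theorem ColInd.swap13 (h : ColInd μ x y z I J) : ColInd μ z y x I J :=
by
  rw [ColInd, sup_comm (z I), sup_comm (z J), sup_comm _ (x I), sup_comm _ (x J), ← sup_assoc,
    ← sup_assoc]
  exact h

theorem ColInd.swap23 (h : ColInd μ x y z I J) : ColInd μ x z y I J :=
h.swap12.swap13.swap12

theorem Tri.swap12 (h : Tri μ x y z I J K) : Tri μ y x z I J K :=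
⟨h.ij.swap12, h.ik.swap12, h.jk.swap12, h.nij, h.nik, h.njk⟩

theorem Tri.swap13 (h : Tri μ x y z I J K) : Tri μ z y x I J K :=
⟨h.ij.swap13, h.ik.swap13, h.jk.swap13, h.nij, h.nik, h.njk⟩

theorem Tri.swap23 (h : Tri μ x y z I J K) : Tri μ x z y I J K :=
⟨h.ij.swap23, h.ik.swap23, h.jk.swap23, h.nij, h.nik, h.njk⟩

theorem Tri.swapIJ (h : Tri μ x y z I J K) : Tri μ x y z J I K :=
⟨h.ij.symm, h.jk, h.ik, union_comm I J ▸ h.nij, h.njk, h.nik⟩

theorem Tri.swapIK (h : Tri μ x y z I J K) : Tri μ x y z K J I :=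
⟨h.jk.symm, h.ik.symm, h.ij.symm, union_comm J K ▸ h.njk, union_comm I K ▸ h.nik,
    union_comm I J ▸ h.nij⟩

theorem Tri.swapJK (h : Tri μ x y z I J K) : Tri μ x y z I K J :=
⟨h.ik, h.ij, h.jk.symm, h.nik, h.nij, union_comm J K ▸ h.njk⟩

/-- Strong centroid property. -/
theorem Fib.sc (h : Fib μ x y z) (hS : S ≠ univ) : CI μ (y S ⊔ z univ) (x univ) (x S) :=
by
  have hx := h.xmono (subset_univ S)
  have hz := h.zmono (subset_univ S)
  have h1 : CI μ (x univ) (z univ) (x S) :=
    (CI.of_indep (h.xle _) (h.zle _) h.xz).cond_left bot_le (hx.trans le_sup_left)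
  have h2 : CI μ (x univ) (y S) (z univ ⊔ x S) :=
    ((h.cy S hS).cond_right (by order) (by order)).symm.mono (by order) le_sup_left
  rw [sup_comm]
  exact (h1.contr h2).symm

/-- Function form: if `f` is measurable for `y S ⊔ z univ` then `E[f | x]` is `x S`-measurable. -/
theorem Fib.sc_aesm (h : Fib μ x y z) (hS : S ≠ univ) {f : Ω → ℂ} (hf : Integrable f μ)
    (hm : AEStronglyMeasurable[y S ⊔ z univ] f μ) :
    AEStronglyMeasurable[x S] (μ[f | x univ]) μ :=
(h.sc hS).aesm (h.xmono (subset_univ S)) hf (hm.mono le_sup_left)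

theorem Fib.cc (h : Fib μ x y z) (hc : ColInd μ x y z I J) (hIJ : I ∪ J ≠ univ) :
    CI μ (x I ⊔ y I) (x J ⊔ y J ⊔ z univ) (z I) :=
by
  have hx := h.xmono (subset_univ I)
  have hx' := h.xmono (subset_univ J)
  have hy := h.yun I J
  have hz := h.zun I J
  have h1 : CI μ (x I ⊔ y I) (x J ⊔ y J ⊔ z J) (z I) :=
    ((CI.of_indep (sup_le (sup_le (h.xle _) (h.yle _)) (h.zle _))
      (sup_le (sup_le (h.xle _) (h.yle _)) (h.zle _)) hc).cond_left bot_le (by order)).mono
      (by order) le_sup_left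
  have h0 := h.swap13.sc hIJ
  rw [hy, hz] at h0
  have h2 : CI μ (x I ⊔ y I) (z univ) (x J ⊔ y J ⊔ z J ⊔ z I) :=
    (h0.cond_left (by order) (by order)).mono (by order) le_sup_left
  exact (h1.contr h2).mono le_sup_left (by order)

/-- The partners of a character measurable in the columns `S` are measurable in the columns `S`.
(`c * w = μ[u | y univ ⊔ z univ]` is `y S ⊔ z S`-measurable by `cx`; then `slot_meas`.) -/
theorem Fib.slot (h : Fib μ x y z) (hS : S ≠ univ) {u c w : Ω → ℂ}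
    (hu : AEStronglyMeasurable[x S] u μ) (hc : Uni (y univ) c) (hw : Uni (z univ) w)
    (e : u =ᵐ[μ] c * w) : AEStronglyMeasurable[y S] c μ ∧ AEStronglyMeasurable[z S] w μ :=
by
  have hle : y univ ⊔ z univ ≤ m0 := sup_le (h.yle _) (h.zle _)
  have hb : BM μ (y univ ⊔ z univ) (c * w) :=
    (hc.mono le_sup_left).bm.mul (hw.mono le_sup_right).bm
  have hi : Integrable u μ := (hb.integrable hle).congr e.symm
  have h1 := (h.cx S hS).aesm
    (sup_le_sup (h.ymono (subset_univ S)) (h.zmono (subset_univ S))) hi (hu.mono le_sup_left)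
  have h2 : μ[u | y univ ⊔ z univ] =ᵐ[μ] u :=
    condExp_of_aestronglyMeasurable' hle (hb.1.congr e.symm) hi
  exact slot_meas (h.yle _) (h.zle _) h.yz (h.ymono (subset_univ S)) (h.zmono (subset_univ S))
    hc hw (h1.congr (h2.trans e))

end Vale.Agent.P102
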