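import Vale.Agent.P102.FibCI
import Vale.Agent.P102.Op

/-! P102, file FibComm: the operators `Sop` commute (Eckmann-Hilton type argument).

Notation: `KX := aeInf μ (x K) (x (I ∪ J))`, `KY` likewise, `X = x univ`, `Z = z univ`,
`W J = x J ⊔ y J ⊔ Z`.
PLAN. For `γ, γ' ∈ BM KY` and a block `J` put
`C J := pr X ∘L mulL γ' ∘L pr (W J) ∘L mulL (star γ)`.
(1) `Fib.cent`: if `u` is `KX`-measurable and integrable, `γ, γ' ∈ BM KY`, then
`b := E[conj γ * u | Z]` is measurable for `z K` and for `z (I ∪ J)` (`sc_aesm` for the row `z`),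
so `E[γ' * b | X]` is measurable for `x K` and `x (I ∪ J)` (`sc_aesm` of `h.swap23`), so for `KX`
(`aesm_aeInf`); hence `E[γ' * b | KX] = E[γ' * b | X]` (tower, `KX ≤ X`).
(2) For `KX`-measurable `u`: `E[conj γ * u | W J] = E[conj γ * u | z K] = E[conj γ * u | Z]` by
`Fib.cc` for the pair `(K, J)`. So `Sop γ' γ u = C J u = C I u` for such `u` (`Sop_ae`).
(3) `C J (a * b) = b * C J a` for `b ∈ BM (x J)` (two pull-outs), and for `a ∈ BM (x I)` the
function `C J a` is in `BM (x I)`: by `Fib.cc` for `(I, J)` with `cond_right` (`D' = y J ⊔ z I`)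
and `mono`, `E[conj γ * a | W J]` is `y J ⊔ z I`-measurable (`γ` is `y I ⊔ y J`-measurable by
`aesm_of_aeInf`), then `sc_aesm` of `h.swap23` with `S = I`.
(4) So with `C := C J` for `(γ', γ)` and `C' := C I` for `(β', β)`:
`C (C' (a b)) = C a * C' b = C' (C (a b))` for indicators `a, b`; `eq_of_sup` extends it to all
`x I ⊔ x J = x (I ∪ J)`-measurable `u`. Finally `Sop = Sop ∘ pr KX` and `Sop u` is
`KX`-measurable. -/

open MeasureTheory ProbabilityTheory Filter Topology Set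
open scoped ComplexConjugate ENNReal InnerProductSpace

namespace Vale.Agent.P102

variable {Ω ι : Type*} {x y z : Set ι → MeasurableSpace Ω} {m0 : MeasurableSpace Ω}
  {μ : Measure Ω} [IsProbabilityMeasure μ] {I J K : Set ι}

theorem Fib.cent (h : Fib μ x y z) (hT : Tri μ x y z I J K) {γ γ' u : Ω → ℂ}
    (hγ : BM μ (y univ) γ) (hγ' : BM μ (y univ) γ') (hu : Integrable u μ)
    (hm : AEStronglyMeasurable[aeInf μ (x K) (x (I ∪ J))] u μ) :
    AEStronglyMeasurable[z K] (μ[star γ * u | z univ]) μ ∧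
    AEStronglyMeasurable[z (I ∪ J)] (μ[star γ * u | z univ]) μ ∧
    μ[γ' * μ[star γ * u | z univ] | aeInf μ (x K) (x (I ∪ J))] =ᵐ[μ]
      μ[γ' * μ[star γ * u | z univ] | x univ] := by
  have hK : K ≠ univ := fun e => hT.nik (by rw [e, union_univ])
  have h1 : ∀ S, S ≠ univ → AEStronglyMeasurable[x S] u μ →
      AEStronglyMeasurable[z S] (μ[star γ * u | z univ]) μ := fun S hS hu' =>
    h.swap13.swap23.sc_aesm hS (hγ.star.mul_integrable (h.yle _) hu)
      ((hγ.star.1.mono le_sup_right).mul (hu'.mono le_sup_left))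
  have h2 : ∀ S, S ≠ univ → AEStronglyMeasurable[z S] (μ[star γ * u | z univ]) μ →
      AEStronglyMeasurable[x S] (μ[γ' * μ[star γ * u | z univ] | x univ]) μ := fun S hS hb =>
    h.swap23.sc_aesm hS (hγ'.mul_integrable (h.yle _) integrable_condExp)
      ((hγ'.1.mono le_sup_right).mul (hb.mono le_sup_left))
  have b1 := h1 K hK (hm.mono (aeInf_le _ _ _))
  have b2 := h1 _ hT.nij (aesm_of_aeInf hm)
  have le := (aeInf_le μ (x K) (x (I ∪ J))).trans (h.xmono (subset_univ K))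
  exact ⟨b1, b2, (condExp_condExp_of_le le (h.xle _)).symm.trans (condExp_of_aestronglyMeasurable'
    (le.trans (h.xle _)) (aesm_aeInf (h2 K hK b1) (h2 _ hT.nij b2)) integrable_condExp)⟩

theorem fibc_aesm {A B C m0 : MeasurableSpace Ω} {μ : Measure Ω} {f g : Ω → ℂ}
    (hf : AEStronglyMeasurable[A] f μ) (hg : AEStronglyMeasurable[B] g μ) (hA : A ≤ C)
    (hB : B ≤ C) : AEStronglyMeasurable[C] (f * g) μ := (hf.mono hA).mul (hg.mono hB)

/-- the one-sided form of `Sop` -/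
noncomputable def fibC {m0 : MeasurableSpace Ω} (μ : @Measure Ω m0)
    (x y z : Set ι → MeasurableSpace Ω) (J : Set ι) (γ' γ : Ω → ℂ) : Lp ℂ 2 μ →L[ℂ] Lp ℂ 2 μ :=
  pr μ (x univ) ∘L mulL μ γ' ∘L pr μ (x J ⊔ y J ⊔ z univ) ∘L mulL μ (star γ)

/-- the same on functions -/
noncomputable def fibF {m0 : MeasurableSpace Ω} (μ : @Measure Ω m0)
    (x y z : Set ι → MeasurableSpace Ω) (J : Set ι) (γ' γ u : Ω → ℂ) : Ω → ℂ :=
  μ[γ' * μ[star γ * u | x J ⊔ y J ⊔ z univ] | x univ]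

theorem Fib.fibc_ae (h : Fib μ x y z) {γ γ' f : Ω → ℂ} (hγ : BM μ (y univ) γ)
    (hγ' : BM μ (y univ) γ') {u : Lp ℂ 2 μ} (e : u =ᵐ[μ] f) :
    fibC μ x y z J γ' γ u =ᵐ[μ] fibF μ x y z J γ' γ f :=
  (pr_ae (h.xle _) _).trans (condExp_congr_ae ((mulL_ae (hγ'.mono (h.yle _)) _).trans
    (.mul .rfl ((pr_ae (sup_le (sup_le (h.xle _) (h.yle _)) (h.zle _)) _).trans (condExp_congr_ae
      ((mulL_ae (hγ.star.mono (h.yle _)) _).trans (.mul .rfl e)))))))

theorem Fib.fibc_mul (h : Fib μ x y z) {γ γ' a b : Ω → ℂ} (hγ : BM μ (y univ) γ)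
    (hγ' : BM μ (y univ) γ') (ha : BM μ m0 a) (hb : BM μ (x J) b) :
    fibF μ x y z J γ' γ (a * b) =ᵐ[μ] fibF μ x y z J γ' γ a * b := by
  have h1 := (hγ.star.mono (h.yle _)).mul ha
  have h2 := (hγ'.mono (h.yle _)).mul ((h1.condExp (x J ⊔ y J ⊔ z univ)).mono
    (sup_le (sup_le (h.xle _) (h.yle _)) (h.zle _)))
  have hb0 := hb.mono (h.xle _)
  refine EventuallyEq.trans (condExp_congr_ae ?_) (condExp_mul_right
    (hb.1.mono (h.xmono (subset_univ _))) ((h2.mul hb0).integrable le_rfl) (h2.integrable le_rfl))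
  rw [mul_assoc, ← mul_assoc (star γ)]
  exact .mul .rfl (condExp_mul_right (hb.1.mono (le_sup_of_le_left le_sup_left))
    ((h1.mul hb0).integrable le_rfl) (h1.integrable le_rfl))

theorem Fib.fibc_bm (h : Fib μ x y z) (hc : ColInd μ x y z I J) (hIJ : I ∪ J ≠ univ)
    {γ γ' a : Ω → ℂ} (hγ : BM μ (y I ⊔ y J) γ) (hγ' : BM μ (y univ) γ') (ha : BM μ (x I) a) :
    BM μ (x I) (fibF μ x y z J γ' γ a) := by
  have hI : I ≠ univ := fun e => hIJ (by rw [e, univ_union])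
  have h1 := (hγ.star.mono (sup_le (h.yle _) (h.yle _))).mul (ha.mono (h.xle _))
  have le : y J ⊔ z I ≤ x J ⊔ y J ⊔ z univ := sup_le_sup le_sup_right (h.zmono (subset_univ _))
  have h2 := ((h.cc hc hIJ).cond_right (D' := y J ⊔ z I) le_sup_right (le_sup_of_le_left le)).aesm
    le (h1.integrable le_rfl) (fibc_aesm hγ.star.1 ha.1 (sup_le_sup le_sup_right le_sup_left)
      (le_sup_of_le_left le_sup_left))
  have h3 := (hγ'.mono (h.yle _)).mul ((h1.condExp (x J ⊔ y J ⊔ z univ)).mono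
    (sup_le (sup_le (h.xle _) (h.yle _)) (h.zle _)))
  exact (h3.condExp _).of_aesm (h.swap23.sc_aesm hI (h3.integrable le_rfl)
    (fibc_aesm hγ'.1 h2 le_sup_right
      (sup_le (le_sup_of_le_right (h.ymono (subset_univ _))) le_sup_left)))

theorem Fib.fibc_sop (h : Fib μ x y z) (hT : Tri μ x y z I J K) {L : Set ι}
    (hc : ColInd μ x y z K L) (hL : K ∪ L ≠ univ) {γ γ' : Ω → ℂ}
    (hγ : BM μ (aeInf μ (y K) (y (I ∪ J))) γ) (hγ' : BM μ (y univ) γ') {u : Lp ℂ 2 μ}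
    (hu : AEStronglyMeasurable[aeInf μ (x K) (x (I ∪ J))] u μ) :
    Sop μ (aeInf μ (x K) (x (I ∪ J))) (z univ) γ' γ u = fibC μ x y z L γ' γ u := by
  have g0 := hγ.mono (aeInf_le _ _ _)
  have g1 := g0.mono (h.ymono (subset_univ K))
  have hi : Integrable u μ := (Lp.memLp u).integrable one_le_two
  have h1 := g1.star.mul_integrable (h.yle _) hi
  have h2 : AEStronglyMeasurable[x K ⊔ y K ⊔ z K] (star γ * ⇑u) μ :=
    fibc_aesm g0.star.1 hu (le_sup_of_le_left le_sup_right)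
      ((aeInf_le _ _ _).trans (le_sup_of_le_left le_sup_left))
  have zl := h.zmono (subset_univ K)
  refine Lp.ext ((Sop_ae ((aeInf_le _ _ _).trans (h.xle K)) (h.zle _) (g1.mono (h.yle _))
    (hγ'.mono (h.yle _)) hu).trans ((h.cent hT g1 hγ' hi hu).2.2.trans
    (EventuallyEq.trans (condExp_congr_ae (.mul .rfl ?_)) (h.fibc_ae g1 hγ' .rfl).symm)))
  exact (((h.cc hc hL).mono le_sup_left (le_sup_of_le_left le_sup_right)).condExp_eq' zl h1
    h2).trans ((h.cc hc hL).condExp_eq' (le_sup_of_le_right zl) h1 h2).symm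

theorem Fib.commute (h : Fib μ x y z) (hT : Tri μ x y z I J K) {γ γ' β β' : Ω → ℂ}
    (hγ : BM μ (aeInf μ (y K) (y (I ∪ J))) γ) (hγ' : BM μ (aeInf μ (y K) (y (I ∪ J))) γ')
    (hβ : BM μ (aeInf μ (y K) (y (I ∪ J))) β) (hβ' : BM μ (aeInf μ (y K) (y (I ∪ J))) β') :
    Commute (Sop μ (aeInf μ (x K) (x (I ∪ J))) (z univ) γ' γ)
      (Sop μ (aeInf μ (x K) (x (I ∪ J))) (z univ) β' β) := by
  have lx := (aeInf_le μ (x K) (x (I ∪ J))).trans (h.xle K)
  have ly := (aeInf_le μ (y K) (y (I ∪ J))).trans (h.ymono (subset_univ K))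
  have g1 := hγ.mono ly
  have g2 := hγ'.mono ly
  have b1 := hβ.mono ly
  have b2 := hβ'.mono ly
  have g3 : BM μ (y I ⊔ y J) γ := h.yun I J ▸ hγ.of_aesm (aesm_of_aeInf hγ.1)
  have b3 : BM μ (y J ⊔ y I) β := sup_comm (y I) (y J) ▸ h.yun I J ▸ hβ.of_aesm (aesm_of_aeInf hβ.1)
  have nK : ∀ S, S ∪ K ≠ univ → K ∪ S ≠ univ := fun S e => by rwa [union_comm]
  have key : ∀ u : Lp ℂ 2 μ, AEStronglyMeasurable[x I ⊔ x J] u μ →
      (fibC μ x y z J γ' γ ∘L fibC μ x y z I β' β) u =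
        (fibC μ x y z I β' β ∘L fibC μ x y z J γ' γ) u := fun u hu => by
    refine eq_of_sup (h.xle I) (h.xle J) _ _ (fun s t hs ht f hf => Lp.ext ?_) hu
    have ha : BM μ (x I) (ind s) := BM.ind hs
    have hb : BM μ (x J) (ind t) := BM.ind ht
    have a1 := h.fibc_bm hT.ij hT.nij g3 g2 ha
    have a2 := h.fibc_bm hT.ij.symm (by rw [union_comm]; exact hT.nij) b3 b2 hb
    refine (h.fibc_ae g1 g2 ((h.fibc_ae b1 b2 (hf.trans (.of_eq (mul_comm _ _)))).trans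
      ((h.fibc_mul b1 b2 (hb.mono (h.xle _)) ha).trans (.of_eq (mul_comm _ _))))).trans
      ((h.fibc_mul g1 g2 (ha.mono (h.xle _)) a2).trans (EventuallyEq.symm ?_))
    exact (h.fibc_ae b1 b2 ((h.fibc_ae g1 g2 hf).trans ((h.fibc_mul g1 g2 (ha.mono (h.xle _))
      hb).trans (.of_eq (mul_comm _ _))))).trans
      ((h.fibc_mul b1 b2 (hb.mono (h.xle _)) a1).trans (.of_eq (mul_comm _ _)))
  have e1 : ∀ δ' δ v, Sop μ (aeInf μ (x K) (x (I ∪ J))) (z univ) δ' δ v =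
      Sop μ (aeInf μ (x K) (x (I ∪ J))) (z univ) δ' δ (pr μ (aeInf μ (x K) (x (I ∪ J))) v) :=
    fun δ' δ v => by simp only [Sop, Mop, ContinuousLinearMap.comp_apply, pr_pr_of_le le_rfl lx]
  have e2 : ∀ δ' δ v, BM μ (y univ) δ' → AEStronglyMeasurable[aeInf μ (x K) (x (I ∪ J))]
      (Sop μ (aeInf μ (x K) (x (I ∪ J))) (z univ) δ' δ v) μ := fun δ' δ v hδ => by
    rw [Sop, Mop_adjoint (hδ.mono (h.yle _))]
    exact pr_aesm lx _
  refine ContinuousLinearMap.ext fun v => ?_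
  have hu := pr_aesm lx v
  rw [mul_apply_eq_comp, mul_apply_eq_comp,
    h.fibc_sop hT hT.jk.symm (nK _ hT.njk) hγ g2 (e2 _ _ _ b2),
    h.fibc_sop hT hT.ik.symm (nK _ hT.nik) hβ b2 (e2 _ _ _ g2), e1 β', e1 γ',
    h.fibc_sop hT hT.jk.symm (nK _ hT.njk) hγ g2 hu, h.fibc_sop hT hT.ik.symm (nK _ hT.nik) hβ b2 hu]
  exact key _ (h.xun I J ▸ aesm_of_aeInf hu)

end Vale.Agent.P102
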