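import Vale.Agent.P102.Op
import Vale.Agent.P102.FibCI

/-! P102, file FibN: the noise-killing lemma.

PLAN. For bounded `a` put `N a := μ[μ[a | x univ ⊔ y univ] | z univ]`.
(a) `N` maps `BM (z S)` to `BM (z S)` for `S ≠ univ`: `cz` makes the inner expectation
`x S ⊔ y S`-measurable, then `sc_aesm` for the row `z` (`h.swap13`).
(b) `∫ N a * b = ∫ a * N b` for `a, b ∈ BM (z univ)` (both equal `∫ E[a|xy] * E[b|xy]`).
(c) `N (a * b) = N a * N b` for `a ∈ BM (z I)`, `b ∈ BM (z J)`, `ColInd I J`, `I ∪ J ≠ univ`: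
`E[a b | xy] = E[a b | x (I∪J) ⊔ y (I∪J)]` (`cz`), this sigma-algebra is
`(x I ⊔ y I) ⊔ (x J ⊔ y J)`, `condExp_mul_indep`, and `cz I`, `cz J` again. The outer expectation
is treated in the same way with `sc` (`CI (x S ⊔ y univ) (z univ) (z S)`).
(d) With `[a, a', c] := ∫ a * a' * c` for `a ∈ BM (z I)`, `a' ∈ BM (z J)`, `c ∈ BM (z K)`, (b),(c)
give `[Na, Na', c] = [a, a', Nc]`, `[Na, a', Nc] = [a, Na', c]`, `[a, Na', Nc] = [Na, a', c]`, so
`[a, a', N N N c] = [Na, Na', N N c] = [N N a, a', N c] = [Na, Na', c] = [a, a', N c]`.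
With `c = b` and `ae_zero_of_sup` on `z I ⊔ z J = z (I ∪ J)`: `N N N b = N b`.
(e) Put `v := N b`, `d := b - v`. With `q a := ∫ ‖E[a | xy]‖^2 = ∫ conj a * N a`:
for `e := v - N v` we have `N e = N v - v = - e`, so `q e = - ∫ ‖e‖^2`, hence `e = 0`, `N v = v`.
So `N d = 0`, `q d = 0`, `E[d | xy] = 0`. Now `d = E[Φ - E[b | xy] | z]`, so
`∫ ‖d‖^2 = ∫ conj d * (Φ - E[b|xy]) = ∫ conj (E[d | xy]) * (...) = 0`. So `b = N b`, and then
`∫ ‖b - E[b|xy]‖^2 = ∫ ‖b‖^2 - q b = 0`. -/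

open MeasureTheory ProbabilityTheory Filter Topology Set
open scoped ComplexConjugate ENNReal InnerProductSpace

namespace Vale.Agent.P102

variable {Ω ι : Type*} {x y z : Set ι → MeasurableSpace Ω} {m0 : MeasurableSpace Ω}
  {μ : Measure Ω} [IsProbabilityMeasure μ] {I J K : Set ι}

theorem fibn_hilbert {H : Type*} [NormedAddCommGroup H] [InnerProductSpace ℂ H] [CompleteSpace H]
    {P Q : H →L[ℂ] H} (hP : P.adjoint = P) (hQ : Q.adjoint = Q) (hPP : ∀ v, P (P v) = P v)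
    (hQQ : ∀ v, Q (Q v) = Q v) {b Φ : H} (hΦ : P Φ = Φ) (hb : b = Q Φ)
    (h3 : Q (P (Q (P (Q (P b))))) = Q (P b)) : P b = b := by
  have aP : ∀ v w, ⟪P v, w⟫_ℂ = ⟪v, P w⟫_ℂ := fun v w => by rw [← P.adjoint_inner_right, hP]
  have aQ : ∀ v w, ⟪Q v, w⟫_ℂ = ⟪v, Q w⟫_ℂ := fun v w => by rw [← Q.adjoint_inner_right, hQ]
  have q : ∀ v, Q v = v → ⟪P v, P v⟫_ℂ = ⟪v, Q (P v)⟫_ℂ := fun v hv => by
    rw [aP, hPP, ← aQ, hv]
  have hQb : Q b = b := by rw [hb, hQQ]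
  have h1 : Q (P b) - Q (P (Q (P b))) = 0 := by
    have e := q (Q (P b) - Q (P (Q (P b)))) (by rw [map_sub, hQQ, hQQ])
    rw [map_sub P, map_sub Q, h3, ← neg_sub (Q (P b)), inner_neg_right, inner_self_eq_norm_sq_to_K,
      inner_self_eq_norm_sq_to_K] at e
    norm_cast at e
    exact norm_eq_zero.1 (pow_eq_zero_iff two_ne_zero |>.1 (by
      nlinarith [sq_nonneg ‖P (Q (P b)) - P (Q (P (Q (P b))))‖,
        sq_nonneg ‖Q (P b) - Q (P (Q (P b)))‖]))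
  have hd : Q (b - Q (P b)) = b - Q (P b) := by rw [map_sub, hQQ, hQb]
  have h2 : P (b - Q (P b)) = 0 := by
    rw [← inner_self_eq_zero (𝕜 := ℂ), q _ hd, map_sub P, map_sub Q, h1, inner_zero_right]
  have h4 : b - Q (P b) = 0 := by
    have e : b - Q (P b) = Q (P (Φ - b)) := by rw [map_sub, map_sub, hΦ, ← hb]
    rw [← inner_self_eq_zero (𝕜 := ℂ)]
    conv_lhs => rw [e, ← aQ, ← aP, ← e, hd, h2]
    exact inner_zero_left _
  rw [eq_comm, ← sub_eq_zero, ← inner_self_eq_zero (𝕜 := ℂ), inner_sub_left, aP, map_sub, hPP,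
    sub_self, inner_zero_right, sub_zero]
  conv_lhs => rw [← hQb, aQ, hQb, map_sub, hQb, h4]
  exact inner_zero_right _

theorem fibn_mul {B B₁ B₂ C D₁ D₂ W₁ W₂ m0 : MeasurableSpace Ω} {μ : Measure Ω}
    [IsProbabilityMeasure μ] (hi : Indep W₁ W₂ μ) (hW₁ : W₁ ≤ m0) (hW₂ : W₂ ≤ m0)
    (h1 : CI μ B₁ C D₁) (h2 : CI μ B₂ C D₂) (h12 : CI μ B C (D₁ ⊔ D₂)) (d1 : D₁ ≤ C) (d2 : D₂ ≤ C)
    (w1 : B₁ ⊔ D₁ ≤ W₁) (w2 : B₂ ⊔ D₂ ≤ W₂) (b : B₁ ⊔ B₂ ≤ B) {f g : Ω → ℂ} (hf : BM μ B₁ f)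
    (hg : BM μ B₂ g) : μ[f * g | C] =ᵐ[μ] μ[f | C] * μ[g | C] := by
  have hfg := (hf.mono (le_sup_left.trans b)).mul (hg.mono (le_sup_right.trans b))
  refine (h12.condExp_eq' (sup_le d1 d2) (hfg.integrable h12.leA) (hfg.1.mono le_sup_left)).trans
    ((condExp_mul_indep hW₁ hW₂ hi (le_sup_right.trans w1) (le_sup_right.trans w2)
      (hf.mono (le_sup_left.trans w1)) (hg.mono (le_sup_left.trans w2))).trans ?_)
  exact ((h1.condExp_eq' d1 (hf.integrable h1.leA) (hf.1.mono le_sup_left)).mul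
    (h2.condExp_eq' d2 (hg.integrable h2.leA) (hg.1.mono le_sup_left))).symm

/-- the noise operator -/
noncomputable def fibN {m0 : MeasurableSpace Ω} (μ : @Measure Ω m0)
    (x y z : Set ι → MeasurableSpace Ω) (a : Ω → ℂ) : Ω → ℂ :=
  μ[μ[a | x univ ⊔ y univ] | z univ]

theorem Fib.fibn_in (h : Fib μ x y z) {S : Set ι} (hS : S ≠ univ) {a : Ω → ℂ}
    (ha : BM μ (z S) a) : BM μ (x S ⊔ y S) (μ[a | x univ ⊔ y univ]) :=
  (ha.condExp _).of_aesm ((h.cz S hS).aesm (sup_le_sup (h.xmono (subset_univ _))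
    (h.ymono (subset_univ _))) (ha.integrable (h.zle _)) (ha.1.mono le_sup_left))

theorem Fib.fibn_sc (h : Fib μ x y z) {S : Set ι} (hS : S ≠ univ) :
    CI μ (x S ⊔ y S) (z univ) (z S) :=
  (h.swap13.sc hS).mono (le_sup_of_le_left (sup_le (le_sup_of_le_right (h.xmono (subset_univ _)))
    le_sup_left)) le_sup_left

theorem Fib.fibn_bm (h : Fib μ x y z) {S : Set ι} (hS : S ≠ univ) {a : Ω → ℂ}
    (ha : BM μ (z S) a) : BM μ (z S) (fibN μ x y z a) :=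
  ((ha.condExp _).condExp _).of_aesm ((h.fibn_sc hS).aesm (h.zmono (subset_univ _))
    integrable_condExp ((h.fibn_in hS ha).1.mono le_sup_left))

theorem Fib.fibn_sym (h : Fib μ x y z) {a b : Ω → ℂ} (ha : BM μ (z univ) a)
    (hb : BM μ (z univ) b) : ∫ ω, b ω * fibN μ x y z a ω ∂μ =
      ∫ ω, (μ[a | x univ ⊔ y univ]) ω * (μ[b | x univ ⊔ y univ]) ω ∂μ := by
  have hXY : x univ ⊔ y univ ≤ m0 := sup_le (h.xle _) (h.yle _)
  rw [fibN, integral_mul_condExp (h.zle _) hb.1 (hb.mul_integrable (h.zle _) integrable_condExp)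
    integrable_condExp, integral_mul_condExp hXY (ha.condExp _).1
    ((ha.condExp _).mul_integrable hXY (hb.integrable (h.zle _))) (hb.integrable (h.zle _))]
  simp only [mul_comm]

theorem Fib.fibn_tri (h : Fib μ x y z) (hc : ColInd μ x y z I J) (hIJ : I ∪ J ≠ univ)
    {a a' c : Ω → ℂ} (ha : BM μ (z I) a) (ha' : BM μ (z J) a') (hc' : BM μ (z univ) c) :
    ∫ ω, fibN μ x y z a ω * fibN μ x y z a' ω * c ω ∂μ =
      ∫ ω, a ω * a' ω * fibN μ x y z c ω ∂μ := by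
  have hI : I ≠ univ := fun e => hIJ (by rw [e, univ_union])
  have hJ : J ≠ univ := fun e => hIJ (by rw [e, union_univ])
  have le : ∀ S, x S ⊔ y S ⊔ z S ≤ m0 := fun S => sup_le (sup_le (h.xle _) (h.yle _)) (h.zle _)
  have le' : ∀ S, x S ⊔ y S ≤ x univ ⊔ y univ := fun S =>
    sup_le_sup (h.xmono (subset_univ _)) (h.ymono (subset_univ _))
  have e0 : x (I ∪ J) ⊔ y (I ∪ J) = (x I ⊔ y I) ⊔ (x J ⊔ y J) := by
    rw [h.xun, h.yun, sup_sup_sup_comm]
  have e1 := fibn_mul hc (le I) (le J) (h.cz I hI) (h.cz J hJ) (e0 ▸ h.cz _ hIJ) (le' I) (le' J)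
    (sup_comm _ _).le (sup_comm _ _).le (h.zun I J).ge ha ha'
  have e2 := fibn_mul hc (le I) (le J) (h.fibn_sc hI) (h.fibn_sc hJ) (h.zun I J ▸ h.fibn_sc hIJ)
    (h.zmono (subset_univ _)) (h.zmono (subset_univ _)) le_rfl le_rfl e0.ge (h.fibn_in hI ha)
    (h.fibn_in hJ ha')
  have haa := (ha.mono (h.zmono (subset_univ _))).mul (ha'.mono (h.zmono (subset_univ _)))
  have e3 := h.fibn_sym haa hc'
  have e4 := h.fibn_sym hc' haa
  simp only [mul_comm ((μ[c | x univ ⊔ y univ]) _)] at e4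
  refine Eq.trans (integral_congr_ae ?_) (e3.trans e4.symm)
  filter_upwards [(condExp_congr_ae (m := z univ) e1).trans e2] with ω hω
  rw [mul_comm]
  exact congrArg _ hω.symm

theorem Fib.noise (h : Fib μ x y z) (hT : Tri μ x y z I J K) {b Φ : Ω → ℂ} (hb : BM μ (z K) b)
    (hb' : AEStronglyMeasurable[z (I ∪ J)] b μ) (hΦ : BM μ (x univ ⊔ y univ) Φ)
    (e : b =ᵐ[μ] μ[Φ | z univ]) : AEStronglyMeasurable[x univ ⊔ y univ] b μ := by
  have hXY : x univ ⊔ y univ ≤ m0 := sup_le (h.xle _) (h.yle _)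
  have hK : K ≠ univ := fun e => hT.nik (by rw [e, union_univ])
  have hI : I ≠ univ := fun e => hT.nik (by rw [e, univ_union])
  have hJ : J ≠ univ := fun e => hT.njk (by rw [e, univ_union])
  have up : ∀ {S f}, BM μ (z S) f → BM μ (z univ) f := fun hf => hf.mono (h.zmono (subset_univ _))
  have b1 := h.fibn_bm hK hb
  have b2 := h.fibn_bm hK b1
  have c1 := h.fibn_bm hT.nij (hb.of_aesm hb')
  have c3 := h.fibn_bm hT.nij (h.fibn_bm hT.nij c1)
  have key : fibN μ x y z (fibN μ x y z (fibN μ x y z b)) - fibN μ x y z b =ᵐ[μ] 0 := by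
    refine ae_zero_of_sup (h.zle I) (h.zle J) ((c3.sub c1).integrable (h.zle _))
      (h.zun I J ▸ (c3.sub c1).1) fun s t hs ht => ?_
    have ha : BM μ (z I) (ind s) := BM.ind hs
    have ha' : BM μ (z J) (ind t) := BM.ind ht
    have a1 := h.fibn_bm hI ha
    have e1 := h.fibn_tri hT.ij hT.nij ha ha' (up b2)
    have e2 := h.fibn_tri hT.jk hT.njk ha' b1 (up a1)
    have e3 := h.fibn_tri hT.ik hT.nik a1 hb (up ha')
    have e4 := h.fibn_tri hT.ij hT.nij ha ha' (up hb)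
    have hst := fun {g : Ω → ℂ} (hg : Integrable g μ) =>
      (BM.ind ((h.zle I s hs).inter (h.zle J t ht))).mul_integrable le_rfl hg
    rw [← integral_ind_mul ((h.zle I s hs).inter (h.zle J t ht))]
    simp only [Pi.sub_apply, mul_sub]
    refine (integral_sub (hst (c3.integrable (h.zle _))) (hst (c1.integrable (h.zle _)))).trans
      (sub_eq_zero.2 ?_)
    simp only [ind_inter, Pi.mul_apply]
    rw [← e1, ← e4]
    simp only [mul_comm, mul_left_comm, mul_assoc] at e2 e3 ⊢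
    rw [e2, e3]
  have hN : ∀ {F : Lp ℂ 2 μ} {f : Ω → ℂ}, F =ᵐ[μ] f →
      pr μ (z univ) (pr μ (x univ ⊔ y univ) F) =ᵐ[μ] fibN μ x y z f := fun hf =>
    (pr_ae (h.zle _) _).trans (condExp_congr_ae ((pr_ae hXY _).trans (condExp_congr_ae hf)))
  have eb := (hb.memLp (h.zle _) 2).coeFn_toLp
  have eΦ := (hΦ.memLp hXY 2).coeFn_toLp
  have h1 := fibn_hilbert (pr_adjoint _) (pr_adjoint _) (pr_pr_of_le le_rfl hXY)
    (pr_pr_of_le le_rfl (h.zle univ)) (pr_eq_self hXY (hΦ.1.congr eΦ.symm))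
    (Lp.ext (eb.trans (e.trans ((pr_ae (h.zle _) _).trans (condExp_congr_ae eΦ)).symm)))
    (Lp.ext ((hN (hN (hN eb))).trans (.trans (key.mono fun _ => sub_eq_zero.1) (hN eb).symm)))
  exact (h1 ▸ pr_aesm hXY _ :
    AEStronglyMeasurable[x univ ⊔ y univ] (hb.memLp (h.zle _) 2).toLp μ).congr eb

end Vale.Agent.P102
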