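import Vale.Agent.P102.FibComm
import Vale.Agent.P102.FibN

/-! P102, file FibEig: a joint eigenvector is a multiple of a character.

PLAN. `KX`, `KY`, `X`, `Y`, `Z` as in FibComm. Let `b := E[conj γ₀ * u | Z]` (`Mop_ae`), `b ≠ 0`.
`b` is bounded: `‖b‖ ≤ C * E[‖u‖ | Z] = C * ∫ ‖u‖` (`norm_condExp_le`, `condExp_indep_eq`).
For `γ' ∈ BM KY`: `E[γ' * b | X] = l γ' • u` (`Sop_ae`, `Fib.cent`). `l γ₀ ≠ 0` because
`⟪u, Sop γ₀ γ₀ u⟫ = ‖Mop γ₀ u‖^2`; hence `u` is bounded. `Fib.noise` (with `Φ = conj γ₀ * u`)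
makes `b` measurable for `X ⊔ Y`. Let `n := ∫ ‖u‖^2 ≠ 0`, `c' := E[b * conj u | Y]`. For
`a ∈ BM X` the function `E[b * a | Y]` is `KY`-measurable (`sc_aesm` for the row `y`, sets `K` and
`I ∪ J`, `b` being `z K`- and `z (I ∪ J)`-measurable). So for `γ ∈ BM Y`, `γ' := E[γ | KY]`:
`∫ γ b a = ∫ γ' b a = l γ' * ∫ u a`, and with `a = conj u`: `l γ' * n = ∫ γ' c' = ∫ γ c'`.
Thus `∫ γ a (n b - c' u) = 0` (`integral_mul_indep` for `X ⟂ Y`) and `ae_zero_of_sup` gives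
`n b = c' u`. `norm_const_of_mul` (rows `z, y, x`): `‖c'‖ = β`, `‖u‖ = α` a.e., so `‖b‖` is the
constant `α β / n`. Normalise with `exists_uni`: `u' = u / α`, `c = conj c' / β`,
`w = n b / (α β)`. -/

open MeasureTheory ProbabilityTheory Filter Topology Set
open scoped ComplexConjugate ENNReal InnerProductSpace

namespace Vale.Agent.P102

variable {Ω ι : Type*} {x y z : Set ι → MeasurableSpace Ω} {m0 : MeasurableSpace Ω}
  {μ : Measure Ω} [IsProbabilityMeasure μ] {I J K : Set ι}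

theorem fibe_bdd {X Z m0 : MeasurableSpace Ω} {μ : Measure Ω} [IsProbabilityMeasure μ]
    (hX : X ≤ m0) (hZ : Z ≤ m0) (hi : Indep X Z μ) {g u : Ω → ℂ} (hg : BM μ m0 g)
    (hu : Integrable u μ) (hm : AEStronglyMeasurable[X] u μ) : BM μ Z (μ[g * u | Z]) := by
  obtain ⟨C, hC⟩ := hg.2
  have h1 := condExp_mono (m := Z) (hg.mul_integrable le_rfl hu).norm
    (((integrable_congr hm.ae_eq_mk).1 hu).norm.const_mul C) (by
      filter_upwards [hC, hm.ae_eq_mk] with ω h1 h2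
      rw [Pi.mul_apply, norm_mul, h2]
      exact mul_le_mul_of_nonneg_right h1 (norm_nonneg _))
  refine ⟨stronglyMeasurable_condExp.aestronglyMeasurable, ∫ ω, C * ‖hm.mk u ω‖ ∂μ, ?_⟩
  filter_upwards [norm_condExp_le (μ := μ) (m := Z) (g * u), h1, condExp_indep_eq hX hZ
    (hm.stronglyMeasurable_mk.norm.const_mul C) hi] with ω h2 h3 h4
  exact h2.trans (h3.trans_eq h4)

theorem Fib.fibe_rel (h : Fib μ x y z) (hT : Tri μ x y z I J K) {b u : Ω → ℂ} (hb : BM μ (z K) b)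
    (hb' : AEStronglyMeasurable[z (I ∪ J)] b μ) (hu : BM μ (x univ) u)
    (hxy : AEStronglyMeasurable[x univ ⊔ y univ] b μ)
    (hl : ∀ γ', BM μ (aeInf μ (y K) (y (I ∪ J))) γ' → ∃ l : ℂ, μ[γ' * b | x univ] =ᵐ[μ] l • u) :
    (∫ ω, conj (u ω) * u ω ∂μ) • b =ᵐ[μ] μ[b * star u | y univ] * u := by
  have hK : K ≠ univ := fun e => hT.nik (by rw [e, union_univ])
  have ly := (aeInf_le μ (y K) (y (I ∪ J))).trans (h.ymono (subset_univ K))
  have hb0 := hb.mono (h.zle _)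
  have hc := (hb0.mul (hu.star.mono (h.xle _))).condExp (y univ)
  have hY : ∀ {γ f : Ω → ℂ}, BM μ (y univ) γ → BM μ m0 f →
      ∫ ω, γ ω * (μ[f | y univ]) ω ∂μ = ∫ ω, γ ω * f ω ∂μ := fun hγ hf => integral_mul_condExp
    (h.yle _) hγ.1 (hγ.mul_integrable (h.yle _) (hf.integrable le_rfl)) (hf.integrable le_rfl)
  have h1 := (hb0.smul (∫ ω, conj (u ω) * u ω ∂μ)).integrable le_rfl
  have h2 := ((hc.mono (h.yle _)).mul (hu.mono (h.xle _))).integrable le_rfl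
  refine (ae_zero_of_sup (h.xle univ) (h.yle univ) (h1.sub h2) ((hxy.const_smul _).sub
    (fibc_aesm hc.1 hu.1 le_sup_right le_sup_left)) fun s t hs ht => ?_).mono
      fun _ => sub_eq_zero.1
  have hγ : BM μ (y univ) (ind t) := BM.ind ht
  have hγ' := hγ.condExp (aeInf μ (y K) (y (I ∪ J)))
  obtain ⟨l, e⟩ := hl _ hγ'
  have k : ∀ {a : Ω → ℂ}, BM μ (x univ) a →
      ∫ ω, ind t ω * (b * a) ω ∂μ = l * ∫ ω, a ω * u ω ∂μ := fun {a} ha => by
    have hba := hb0.mul (ha.mono (h.xle _))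
    have k1 : ∀ S, S ≠ univ → AEStronglyMeasurable[z S] b μ →
        AEStronglyMeasurable[y S] (μ[b * a | y univ]) μ := fun S hS hb => h.swap12.swap23.sc_aesm
      hS (hba.integrable le_rfl) (fibc_aesm hb ha.1 le_sup_left le_sup_right)
    have k2 := integral_mul_condExp (ly.trans (h.yle _))
      (aesm_aeInf (k1 K hK hb.1) (k1 _ hT.nij hb')) ((hba.condExp _).mul_integrable (h.yle _)
        (hγ.integrable (h.yle _))) (hγ.integrable (h.yle _))
    have k3 := ((hγ'.mono (ly.trans (h.yle _))).mul hb0).integrable le_rfl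
    have k4 := integral_mul_condExp (h.xle _) ha.1 (ha.mul_integrable (h.xle _) k3) k3
    simp only [mul_comm ((μ[b * a | y univ]) _)] at k2
    rw [← hY hγ hba, ← k2, hY (hγ'.mono ly) hba, ← integral_const_mul]
    refine (integral_congr_ae (.of_forall fun ω => ?_)).trans
      (k4.symm.trans (integral_congr_ae (e.mono fun ω hω => ?_)))
    · simp only [Pi.mul_apply]
      ring
    · simp only [hω, Pi.smul_apply, smul_eq_mul]
      ring
  have ha : BM μ (x univ) (ind s) := BM.ind hs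
  have k5 := k hu.star
  have k6 := integral_mul_indep (h.yle _) (h.xle _) h.xy.symm (hγ.mul hc).1 (ha.mul hu).1
  have hst := fun {g : Ω → ℂ} (hg : Integrable g μ) =>
    (BM.ind ((h.xle _ s hs).inter (h.yle _ t ht))).mul_integrable le_rfl hg
  rw [← hY hγ (hb0.mul (hu.star.mono (h.xle _)))] at k5
  rw [← integral_ind_mul ((h.xle _ s hs).inter (h.yle _ t ht))]
  simp only [Pi.sub_apply, mul_sub]
  refine (integral_sub (hst h1) (hst h2)).trans (sub_eq_zero.2 ?_)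
  refine Eq.trans ?_ ((integral_congr_ae (.of_forall fun ω => ?_)).trans k6).symm
  · simp only [Pi.mul_apply] at k5 ⊢
    rw [k5, mul_right_comm, ← k ha, ← integral_mul_const]
    refine integral_congr_ae (.of_forall fun ω => ?_)
    simp only [ind_inter, Pi.mul_apply, Pi.smul_apply, Pi.star_apply, smul_eq_mul, RCLike.star_def]
    ring
  · simp only [ind_inter, Pi.mul_apply]
    ring

theorem Fib.eig (h : Fib μ x y z) (hT : Tri μ x y z I J K) {u : Lp ℂ 2 μ}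
    (hu : AEStronglyMeasurable[aeInf μ (x K) (x (I ∪ J))] u μ)
    (heig : ∀ γ γ' : Ω → ℂ, BM μ (aeInf μ (y K) (y (I ∪ J))) γ →
      BM μ (aeInf μ (y K) (y (I ∪ J))) γ' →
      ∃ l : ℂ, Sop μ (aeInf μ (x K) (x (I ∪ J))) (z univ) γ' γ u = l • u)
    {γ₀ : Ω → ℂ} (hγ₀ : BM μ (aeInf μ (y K) (y (I ∪ J))) γ₀)
    (h0 : Mop μ (aeInf μ (x K) (x (I ∪ J))) (z univ) γ₀ u ≠ 0) :
    ∃ (α : ℂ) (u' c w : Ω → ℂ), α ≠ 0 ∧ Uni (x K) u' ∧ Uni (y univ) c ∧ Uni (z univ) w ∧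
      u' =ᵐ[μ] c * w ∧ (u : Ω → ℂ) =ᵐ[μ] α • u' := by
  have lx := (aeInf_le μ (x K) (x (I ∪ J))).trans (h.xmono (subset_univ K))
  have ly := (aeInf_le μ (y K) (y (I ∪ J))).trans (h.ymono (subset_univ K))
  have hi : Integrable u μ := (Lp.memLp u).integrable one_le_two
  have g0 := hγ₀.mono ly
  have hb := fibe_bdd (h.xle _) (h.zle _) h.xz (g0.star.mono (h.yle _)) hi (hu.mono lx)
  obtain ⟨b1, b2, -⟩ := h.cent hT g0 g0 hi hu
  have hl : ∀ (γ' : Ω → ℂ) (l : ℂ), BM μ (y univ) γ' →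
      Sop μ (aeInf μ (x K) (x (I ∪ J))) (z univ) γ' γ₀ u = l • u →
      μ[γ' * μ[star γ₀ * ⇑u | z univ] | x univ] =ᵐ[μ] l • ⇑u := fun γ' l hγ' e =>
    (h.cent hT g0 hγ' hi hu).2.2.symm.trans ((Sop_ae (lx.trans (h.xle _)) (h.zle _)
      (g0.mono (h.yle _)) (hγ'.mono (h.yle _)) hu).symm.trans (e ▸ Lp.coeFn_smul l u))
  have hu1 : BM μ (x univ) u := by
    obtain ⟨l, e⟩ := heig γ₀ γ₀ hγ₀ hγ₀
    have hl0 : l ≠ 0 := by
      rintro rfl
      refine h0 ((inner_self_eq_zero (𝕜 := ℂ)).1 ?_)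
      rw [← ContinuousLinearMap.adjoint_inner_right]
      exact (congrArg _ (e.trans (zero_smul _ _))).trans (inner_zero_right _)
    refine ((((g0.mono (h.yle _)).mul (hb.mono (h.zle _))).condExp (x univ)).smul l⁻¹).congr ?_
    filter_upwards [hl γ₀ l g0 e] with ω hω
    rw [Pi.smul_apply, hω, Pi.smul_apply, inv_smul_smul₀ hl0]
  have hn : ∫ ω, conj (u ω) * u ω ∂μ ≠ 0 := by
    rw [← inner_eq, inner_self_ne_zero]
    rintro rfl
    exact h0 (map_zero _)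
  have key := h.fibe_rel hT (hb.of_aesm b1) b2 hu1
    (h.noise hT (hb.of_aesm b1) b2 ((g0.star.mono le_sup_right).mul (hu1.mono le_sup_left)) .rfl)
    fun γ' hγ' => (heig γ₀ γ' hγ₀ hγ').imp fun l => hl γ' l (hγ'.mono ly)
  have hc := ((hb.mono (h.zle _)).mul (hu1.star.mono (h.xle _))).condExp (y univ)
  obtain ⟨β, α, hβ, hα, e1, e2⟩ := norm_const_of_mul (h.zle _) (h.yle _) (h.xle _) h.yz.symm
    h.xz.symm h.xy.symm (hb.smul _) hc hu1 key fun e => h0 (Lp.ext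
      ((Mop_ae (lx.trans (h.xle _)) (h.zle _) (g0.mono (h.yle _)) hu).trans
        (.trans (e.mono fun ω hω => (smul_eq_zero_iff_right hn).1 hω) (Lp.coeFn_zero _ _ _).symm)))
  have hα' : (α : ℂ) ≠ 0 := by exact_mod_cast hα.ne'
  have hβ' : (β : ℂ) ≠ 0 := by exact_mod_cast hβ.ne'
  obtain ⟨u', h1, e3⟩ := exists_uni ((hu.mono (aeInf_le _ _ _)).const_smul (α : ℂ)⁻¹)
    (e2.mono fun ω hω => by simp [hω, abs_of_pos hα, hα.ne'])
  obtain ⟨c, h2, e4⟩ := exists_uni (hc.star.smul (β : ℂ)⁻¹).1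
    (e1.mono fun ω hω => by simp [hω, abs_of_pos hβ, hβ.ne'])
  obtain ⟨w, h3, e5⟩ := exists_uni ((hb.smul (∫ ω, conj (u ω) * u ω ∂μ)).smul ((β : ℂ) * α)⁻¹).1 (by
    filter_upwards [key, e1, e2] with ω k1 k2 k3
    rw [Pi.smul_apply, k1]
    simp [k2, k3, abs_of_pos hβ, abs_of_pos hα]
    field_simp)
  refine ⟨α, u', c, w, hα', h1, h2, h3, ?_, ?_⟩
  · filter_upwards [key, e1, e3, e4, e5] with ω k1 k2 k3 k4 k5
    have k6 := Complex.conj_mul' ((μ[μ[star γ₀ * ⇑u | z univ] * star ⇑u | y univ]) ω)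
    rw [k2] at k6
    rw [Pi.mul_apply, k3, k4, k5, Pi.smul_apply _ (_ • _), k1]
    simp only [Pi.smul_apply, Pi.mul_apply, Pi.star_apply, smul_eq_mul, RCLike.star_def]
    field_simp
    rw [mul_assoc, k6]
  · filter_upwards [e3] with ω k1
    rw [Pi.smul_apply, k1, Pi.smul_apply, smul_inv_smul₀ hα']

end Vale.Agent.P102
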