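import Vale.Agent.P102.FibMain

/-! P102, file FibFact: a character of independent column blocks factorises.

PLAN of `Fib.fact2`. Write `W I = x I ⊔ y I ⊔ z I`. Since `c ≠ 0` there is `s ∈ y J` with
`c_s := E[c * ind s | y I] ≠ 0` (else `ae_zero_of_sup` gives `c = 0`), likewise `t ∈ z J` with
`w_t := E[w * ind t | z I] ≠ 0`. KEY: for `β ∈ BM (y J)`, `β' ∈ BM (z J)` and any triple
`u = c w` as in the statement, `E[u β β' | W I]` is `x I`-measurable and equals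
`E[c β | y I] * E[w β' | z I]`. (First: `E[β β' | W I ⊔ x J] = E[β β' | x J]` and
`E[u p | W I] = E[u p | x I]` for `p ∈ BM (x J)`; both come from `CI.of_indep` for `W I ⟂ W J` and
weak union. Second: `E[c β w β' | W I] = E[.. | y I ⊔ z I]` in the same way, then
`condExp_mul_indep` for `y univ ⟂ z univ`.) The product `c_s * w_t` is not a.e. zero
(`eLpNorm_mul_indep`), so `norm_const_of_mul` gives constant moduli; normalise (`exists_uni`) to
`u₁, c₁, w₁` with `u₁ = c₁ w₁`. Put `u' = u conj u₁`, `c' = c conj c₁`, `w' = w conj w₁`; then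
`E[w' ind t | z I]` is a nonzero constant, so by KEY every `E[c' β | y I]` is `x I`-measurable and
`y I`-measurable, hence constant (`ae_const_of_indep`); so `c' = E[c' | y J]` (test on `s ∩ s'`,
`ae_zero_of_sup`, `y I ⟂ y J`). The same for `w'`. Then `u' = c' w'` is `W J`-measurable and
`x I ⊔ x J`-measurable, so `u' = E[u' | W J] = E[u' | x J]`.
`Fib.fact`: `Finset.Nonempty.cons_induction`, cutting off one column with `fact2`.
`Fib.out`: `I = {i0}`, `K = {iB}`, `J = {i0, iB}ᶜ`; `Fib.main`, `Fib.slot` for `K` and for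
`I ∪ J = {iB}ᶜ`, `exists_uni`, `Fib.fact` with `S = univ.erase iB`; the factor at `iB` is
`conj u`. -/

open MeasureTheory ProbabilityTheory Filter Topology Set
open scoped ComplexConjugate ENNReal InnerProductSpace

namespace Vale.Agent.P102

section Aux

variable {Ω : Type*} {A C W1 W2 X1 X2 Y1 Y2 Z1 Z2 m0 : MeasurableSpace Ω}
  {μ : Measure Ω} [IsProbabilityMeasure μ] {f u c w β β' : Ω → ℂ}

theorem ff_gen (h1 : W1 ≤ m0) (h2 : W2 ≤ m0) (hi : Indep W1 W2 μ) (hA : A ≤ W1)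
    (hf : BM μ (W2 ⊔ A) f) : μ[f | W1] =ᵐ[μ] μ[f | A] :=
  ((CI.of_indep h2 h1 hi.symm).cond_right bot_le (hA.trans le_sup_left)).condExp_eq' hA
    (hf.integrable (sup_le h2 (hA.trans h1))) hf.1

theorem ff_zero (hA : A ≤ m0) (hC : C ≤ m0) (hf : BM μ (A ⊔ C) f)
    (h : ∀ s, MeasurableSet[C] s → μ[f * ind s | A] =ᵐ[μ] 0) : f =ᵐ[μ] 0 := by
  have hAC := sup_le hA hC
  refine ae_zero_of_sup hA hC (hf.integrable hAC) hf.1 fun s t hs ht => ?_
  have h1 : BM μ (A ⊔ C) (f * ind t) := hf.mul ((BM.ind ht).mono le_sup_right)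
  have h2 := integral_mul_condExp hA (BM.ind (μ := μ) hs).1
    ((BM.ind hs).mul_integrable hA (h1.integrable hAC)) (h1.integrable hAC)
  rw [← integral_ind_mul ((hA s hs).inter (hC t ht)), ind_inter]
  have h3 : ∫ ω, ind s ω * (μ[f * ind t | A]) ω ∂μ = 0 := by
    rw [← integral_zero Ω ℂ]
    refine integral_congr_ae ?_
    filter_upwards [h t ht] with ω e
    rw [e, Pi.zero_apply, mul_zero]
  rw [← h3, h2]
  refine integral_congr_ae (Eventually.of_forall fun ω => ?_)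
  simp only [Pi.mul_apply]
  ring

theorem ff_ne (hA : A ≤ m0) (hC : C ≤ m0) (hc : Uni (A ⊔ C) c) :
    ∃ s, MeasurableSet[C] s ∧ ¬ μ[c * ind s | A] =ᵐ[μ] 0 := by
  by_contra hn
  push Not at hn
  obtain ⟨ω, hω⟩ := (ff_zero hA hC hc.bm hn).exists
  have := hc.2 ω
  rw [hω] at this
  simp at this

theorem ff_meas (hA : A ≤ m0) (hC : C ≤ m0) (hi : Indep A C μ) (hf : BM μ (A ⊔ C) f)
    (h : ∀ s, MeasurableSet[C] s → ∃ k : ℂ, μ[f * ind s | A] =ᵐ[μ] fun _ => k) :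
    AEStronglyMeasurable[C] f μ := by
  have hAC := sup_le hA hC
  have hg : BM μ C (μ[f | C]) := hf.condExp C
  have h0 := ff_zero hA hC (hf.sub (hg.mono le_sup_right)) fun s hs => by
    obtain ⟨k, hk⟩ := h s hs
    have h1 : BM μ (A ⊔ C) (f * ind s) := hf.mul ((BM.ind hs).mono le_sup_right)
    have h2 : BM μ C (μ[f | C] * ind s) := hg.mul (BM.ind hs)
    have h3 : ∫ ω, (f * ind s) ω ∂μ = k := by
      rw [← integral_condExp hA, integral_congr_ae hk]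
      simp
    have h4 : ∫ ω, (μ[f | C] * ind s) ω ∂μ = k := by
      have h5 := integral_mul_condExp hC (BM.ind (μ := μ) hs).1
        ((BM.ind hs).mul_integrable hC (hf.integrable hAC)) (hf.integrable hAC)
      simp only [Pi.mul_apply] at h3 ⊢
      simp only [mul_comm (ind s _)] at h5
      rw [h5, h3]
    rw [sub_mul]
    filter_upwards [condExp_sub (h1.integrable hAC) (h2.integrable hC) A, hk,
      condExp_indep hC hA hi.symm h2.1] with ω e1 e2 e3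
    rw [e1, Pi.sub_apply, e2, e3, h4, sub_self, Pi.zero_apply]
  refine hg.1.congr ?_
  filter_upwards [h0] with ω e
  exact (sub_eq_zero.1 e).symm

/-- two independent blocks of three pairwise independent rows -/
structure FF {m0 : MeasurableSpace Ω} (μ : @Measure Ω m0)
    (W1 W2 X1 X2 Y1 Y2 Z1 Z2 : MeasurableSpace Ω) : Prop where
  w1 : W1 ≤ m0
  w2 : W2 ≤ m0
  iw : Indep W1 W2 μ
  x1 : X1 ≤ W1
  y1 : Y1 ≤ W1
  z1 : Z1 ≤ W1
  x2 : X2 ≤ W2
  y2 : Y2 ≤ W2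
  z2 : Z2 ≤ W2
  xy : Indep (X1 ⊔ X2) (Y1 ⊔ Y2) μ
  xz : Indep (X1 ⊔ X2) (Z1 ⊔ Z2) μ
  yz : Indep (Y1 ⊔ Y2) (Z1 ⊔ Z2) μ

omit [IsProbabilityMeasure μ] in
theorem FF.swap (h : FF μ W1 W2 X1 X2 Y1 Y2 Z1 Z2) : FF μ W1 W2 X1 X2 Z1 Z2 Y1 Y2 :=
  ⟨h.w1, h.w2, h.iw, h.x1, h.z1, h.y1, h.x2, h.z2, h.y2, h.xz, h.xy, h.yz.symm⟩

theorem FF.key (h : FF μ W1 W2 X1 X2 Y1 Y2 Z1 Z2) (hu : BM μ (X1 ⊔ X2) u)
    (hc : BM μ (Y1 ⊔ Y2) c) (hw : BM μ (Z1 ⊔ Z2) w) (e : u =ᵐ[μ] c * w) (hβ : BM μ Y2 β)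
    (hβ' : BM μ Z2 β') : μ[u * β * β' | X1] =ᵐ[μ] μ[c * β | Y1] * μ[w * β' | Z1] := by
  have h1 : BM μ (Y1 ⊔ Y2) (c * β) := hc.mul (hβ.mono le_sup_right)
  have h2 : BM μ (Z1 ⊔ Z2) (w * β') := hw.mul (hβ'.mono le_sup_right)
  have e1 := ff_gen h.w1 h.w2 h.iw h.x1 (f := u * β * β')
    (((hu.mono (sup_le le_sup_right (h.x2.trans le_sup_left))).mul
      (hβ.mono (h.y2.trans le_sup_left))).mul (hβ'.mono (h.z2.trans le_sup_left)))
  have e2 := ff_gen h.w1 h.w2 h.iw (sup_le h.y1 h.z1) (f := c * β * (w * β'))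
    ((h1.mono (sup_le (le_sup_left.trans le_sup_right) (h.y2.trans le_sup_left))).mul
      (h2.mono (sup_le (le_sup_right.trans le_sup_right) (h.z2.trans le_sup_left))))
  have e3 := condExp_mul_indep (sup_le (h.y1.trans h.w1) (h.y2.trans h.w2))
    (sup_le (h.z1.trans h.w1) (h.z2.trans h.w2)) h.yz le_sup_left le_sup_left h1 h2
  have e4 : μ[u * β * β' | W1] =ᵐ[μ] μ[c * β * (w * β') | W1] := condExp_congr_ae (by
    filter_upwards [e] with ω e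
    simp only [Pi.mul_apply] at e ⊢
    rw [e]; ring)
  exact ((e1.symm.trans e4).trans e2).trans e3

theorem FF.half (h : FF μ W1 W2 X1 X2 Y1 Y2 Z1 Z2) (hu : BM μ (X1 ⊔ X2) u)
    (hc : BM μ (Y1 ⊔ Y2) c) (hw : BM μ (Z1 ⊔ Z2) w) (e : u =ᵐ[μ] c * w) (hβ' : BM μ Z2 β')
    {k : ℂ} (hk : k ≠ 0) (h0 : μ[w * β' | Z1] =ᵐ[μ] fun _ => k) :
    AEStronglyMeasurable[Y2] c μ := by
  refine ff_meas (h.y1.trans h.w1) (h.y2.trans h.w2)
    (indep_of_indep_of_le_right (indep_of_indep_of_le_left h.iw h.y1) h.y2) hc fun s hs => ⟨_,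
      ae_const_of_indep (h.x1.trans h.w1) (h.y1.trans h.w1) (indep_of_indep_of_le_right
        (indep_of_indep_of_le_left h.xy le_sup_left) le_sup_left) integrable_condExp ?_
        stronglyMeasurable_condExp.aestronglyMeasurable⟩
  refine ((stronglyMeasurable_condExp (m := X1) (μ := μ)
    (f := u * ind s * β')).aestronglyMeasurable.const_smul k⁻¹).congr ?_
  filter_upwards [h.key hu hc hw e (BM.ind hs) hβ', h0] with ω e1 e2
  rw [Pi.smul_apply, e1, Pi.mul_apply, e2, smul_eq_mul, mul_comm, mul_inv_cancel_right₀ hk]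

omit [IsProbabilityMeasure μ] in
theorem ff_norm {r : ℝ} (hr : 0 < r) (hf : AEStronglyMeasurable[A] f μ)
    (h : ∀ᵐ ω ∂μ, ‖f ω‖ = r) : ∃ a, Uni A a ∧ f =ᵐ[μ] (r : ℂ) • a := by
  have hr' : (r : ℂ) ≠ 0 := Complex.ofReal_ne_zero.2 hr.ne'
  obtain ⟨a, h1, h2⟩ := exists_uni (hf.const_smul (r : ℂ)⁻¹) (by
    filter_upwards [h] with ω e
    rw [Pi.smul_apply, norm_smul, e, norm_inv, Complex.norm_real, Real.norm_of_nonneg hr.le,
      inv_mul_cancel₀ hr.ne'])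
  refine ⟨a, h1, ?_⟩
  filter_upwards [h2] with ω e
  rw [Pi.smul_apply, e, Pi.smul_apply, smul_inv_smul₀ hr']

theorem ff_pull (hA : A ≤ m0) (hC : C ≤ m0) {a : Ω → ℂ} (ha : Uni A a) (hc : BM μ (A ⊔ C) c)
    (hβ : BM μ C β) {k : ℂ} (e : μ[c * β | A] =ᵐ[μ] k • a) :
    μ[c * star a * β | A] =ᵐ[μ] fun _ => k := by
  have h1 : Integrable (c * β) μ := (hc.mul (hβ.mono le_sup_right)).integrable (sup_le hA hC)
  have h2 := condExp_mul_left (ha.star.bm (μ := μ)).1 (ha.star.bm.mul_integrable hA h1) h1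
  rw [show c * star a * β = star a * (c * β) by ring]
  filter_upwards [h2, e] with ω e1 e2
  have e3 := congrFun ha.star_mul_self ω
  rw [Pi.mul_apply, Pi.one_apply] at e3
  rw [e1, Pi.mul_apply, e2, Pi.smul_apply, smul_eq_mul, mul_left_comm, e3, mul_one]

theorem FF.fact (h : FF μ W1 W2 X1 X2 Y1 Y2 Z1 Z2) (hu : Uni (X1 ⊔ X2) u)
    (hc : Uni (Y1 ⊔ Y2) c) (hw : Uni (Z1 ⊔ Z2) w) (e : u =ᵐ[μ] c * w) :
    ∃ u₁ c₁ w₁ u₂ c₂ w₂ : Ω → ℂ, Uni X1 u₁ ∧ Uni Y1 c₁ ∧ Uni Z1 w₁ ∧ Uni X2 u₂ ∧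
      Uni Y2 c₂ ∧ Uni Z2 w₂ ∧ u₁ =ᵐ[μ] c₁ * w₁ ∧ u₂ =ᵐ[μ] c₂ * w₂ ∧ u =ᵐ[μ] u₁ * u₂ := by
  have x1 := h.x1.trans h.w1
  have y1 := h.y1.trans h.w1
  have z1 := h.z1.trans h.w1
  have x2 := h.x2.trans h.w2
  have y2 := h.y2.trans h.w2
  have z2 := h.z2.trans h.w2
  have xy := indep_of_indep_of_le_right (indep_of_indep_of_le_left h.xy le_sup_left) le_sup_left
  have xz := indep_of_indep_of_le_right (indep_of_indep_of_le_left h.xz le_sup_left) le_sup_left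
  have yz := indep_of_indep_of_le_right (indep_of_indep_of_le_left h.yz le_sup_left) le_sup_left
  obtain ⟨s, hs, s0⟩ := ff_ne (μ := μ) y1 y2 hc
  obtain ⟨t, ht, t0⟩ := ff_ne (μ := μ) z1 z2 hw
  have k1 := h.key hu.bm hc.bm hw.bm e (BM.ind hs) (BM.ind ht)
  have b1 : BM μ X1 (μ[u * ind s * ind t | X1]) := BM.condExp (m := m0)
    (((hu.bm.mono (sup_le x1 x2)).mul ((BM.ind hs).mono y2)).mul ((BM.ind ht).mono z2)) X1
  have b2 : BM μ Y1 (μ[c * ind s | Y1]) := (hc.bm.mul ((BM.ind hs).mono le_sup_right)).condExp Y1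
  have b3 : BM μ Z1 (μ[w * ind t | Z1]) := (hw.bm.mul ((BM.ind ht).mono le_sup_right)).condExp Z1
  obtain ⟨r, r', hr, hr', n2, n3⟩ := norm_const_of_mul x1 y1 z1 xy xz yz b1 b2 b3 k1 fun h0 => by
    have h1 := eLpNorm_mul_indep y1 z1 yz b2.1 b3.1
    rw [eLpNorm_congr_ae (k1.symm.trans h0), eLpNorm_zero, eq_comm, mul_eq_zero,
      eLpNorm_eq_zero_iff (b2.1.mono y1) two_ne_zero,
      eLpNorm_eq_zero_iff (b3.1.mono z1) two_ne_zero] at h1
    exact h1.elim s0 t0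
  obtain ⟨u₁, hu₁, f1⟩ := ff_norm (mul_pos hr hr') b1.1 (by
    filter_upwards [k1, n2, n3] with ω e1 e2 e3
    rw [e1, Pi.mul_apply, norm_mul, e2, e3])
  obtain ⟨c₁, hc₁, f2⟩ := ff_norm hr b2.1 n2
  obtain ⟨w₁, hw₁, f3⟩ := ff_norm hr' b3.1 n3
  have r0 : (r : ℂ) ≠ 0 := Complex.ofReal_ne_zero.2 hr.ne'
  have r0' : (r' : ℂ) ≠ 0 := Complex.ofReal_ne_zero.2 hr'.ne'
  have e1 : u₁ =ᵐ[μ] c₁ * w₁ := by
    filter_upwards [k1, f1, f2, f3] with ω g0 g1 g2 g3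
    rw [g1, Pi.mul_apply, g2, g3] at g0
    simp only [Pi.smul_apply, smul_eq_mul, Complex.ofReal_mul] at g0
    refine mul_left_cancel₀ (mul_ne_zero r0 r0') ?_
    rw [g0, Pi.mul_apply]; ring
  have hu' : Uni (X1 ⊔ X2) (u * star u₁) := hu.mul (hu₁.star.mono le_sup_left)
  have hc' : Uni (Y1 ⊔ Y2) (c * star c₁) := hc.mul (hc₁.star.mono le_sup_left)
  have hw' : Uni (Z1 ⊔ Z2) (w * star w₁) := hw.mul (hw₁.star.mono le_sup_left)
  have e2 : u * star u₁ =ᵐ[μ] c * star c₁ * (w * star w₁) := by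
    filter_upwards [e, e1] with ω g0 g1
    simp only [Pi.mul_apply, Pi.star_apply] at g0 g1 ⊢
    rw [g0, g1, star_mul]; ring
  have m2 := h.half hu'.bm hc'.bm hw'.bm e2 (BM.ind ht) r0' (ff_pull z1 z2 hw₁ hw.bm (BM.ind ht) f3)
  have m3 := h.swap.half hu'.bm hw'.bm hc'.bm (by rwa [mul_comm (w * star w₁)]) (BM.ind hs) r0
    (ff_pull y1 y2 hc₁ hc.bm (BM.ind hs) f2)
  have m1 : AEStronglyMeasurable[X2] (u * star u₁) μ := by
    have g1 : AEStronglyMeasurable[W2] (u * star u₁) μ :=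
      ((m2.mono h.y2).mul (m3.mono h.z2)).congr e2.symm
    have g2 := ff_gen h.w2 h.w1 h.iw.symm h.x2
      (hu'.bm.mono (sup_le (h.x1.trans le_sup_left) le_sup_right))
    have g3 := condExp_of_aestronglyMeasurable' h.w2 g1 (hu'.bm.integrable (sup_le x1 x2))
    exact stronglyMeasurable_condExp.aestronglyMeasurable.congr (g2.symm.trans g3)
  obtain ⟨u₂, hu₂, g1⟩ := exists_uni m1 (Eventually.of_forall hu'.2)
  obtain ⟨c₂, hc₂, g2⟩ := exists_uni m2 (Eventually.of_forall hc'.2)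
  obtain ⟨w₂, hw₂, g3⟩ := exists_uni m3 (Eventually.of_forall hw'.2)
  refine ⟨u₁, c₁, w₁, u₂, c₂, w₂, hu₁, hc₁, hw₁, hu₂, hc₂, hw₂, e1,
    (g1.trans e2).trans (g2.mul g3).symm, ?_⟩
  filter_upwards [g1] with ω g1
  have e3 := congrFun hu₁.star_mul_self ω
  rw [Pi.mul_apply, Pi.one_apply] at e3
  rw [Pi.mul_apply, g1, Pi.mul_apply, mul_left_comm, mul_comm (u₁ ω), e3, mul_one]

end Aux

variable {Ω ι : Type*} {x y z : Set ι → MeasurableSpace Ω} {m0 : MeasurableSpace Ω}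
  {μ : Measure Ω} [IsProbabilityMeasure μ] {I J : Set ι}

theorem Fib.fact2 (h : Fib μ x y z) (hc : ColInd μ x y z I J) {u c w : Ω → ℂ}
    (hu : Uni (x (I ∪ J)) u) (hy : Uni (y (I ∪ J)) c) (hw : Uni (z (I ∪ J)) w)
    (e : u =ᵐ[μ] c * w) :
    ∃ u₁ c₁ w₁ u₂ c₂ w₂ : Ω → ℂ, Uni (x I) u₁ ∧ Uni (y I) c₁ ∧ Uni (z I) w₁ ∧ Uni (x J) u₂ ∧
      Uni (y J) c₂ ∧ Uni (z J) w₂ ∧ u₁ =ᵐ[μ] c₁ * w₁ ∧ u₂ =ᵐ[μ] c₂ * w₂ ∧ u =ᵐ[μ] u₁ * u₂ := by
  have hx : x I ⊔ x J ≤ x univ := sup_le (h.xmono (subset_univ _)) (h.xmono (subset_univ _))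
  have hy' : y I ⊔ y J ≤ y univ := sup_le (h.ymono (subset_univ _)) (h.ymono (subset_univ _))
  have hz : z I ⊔ z J ≤ z univ := sup_le (h.zmono (subset_univ _)) (h.zmono (subset_univ _))
  rw [h.xun] at hu
  rw [h.yun] at hy
  rw [h.zun] at hw
  exact FF.fact ⟨sup_le (sup_le (h.xle I) (h.yle I)) (h.zle I),
    sup_le (sup_le (h.xle J) (h.yle J)) (h.zle J), hc, le_sup_left.trans le_sup_left,
    le_sup_right.trans le_sup_left, le_sup_right, le_sup_left.trans le_sup_left,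
    le_sup_right.trans le_sup_left, le_sup_right,
    indep_of_indep_of_le_right (indep_of_indep_of_le_left h.xy hx) hy',
    indep_of_indep_of_le_right (indep_of_indep_of_le_left h.xz hx) hz,
    indep_of_indep_of_le_right (indep_of_indep_of_le_left h.yz hy') hz⟩ hu hy hw e

theorem Fib.fact (h : Fib μ x y z) (S : Finset ι) (hS : S.Nonempty)
    (hc : ∀ i ∈ S, ∀ S' : Set ι, S' ⊆ S → i ∉ S' → ColInd μ x y z {i} S') {u c w : Ω → ℂ}
    (hu : Uni (x S) u) (hy : Uni (y S) c) (hw : Uni (z S) w) (e : u =ᵐ[μ] c * w) :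
    ∃ a b d : ι → Ω → ℂ, (∀ i ∈ S, Uni (x {i}) (a i) ∧ Uni (y {i}) (b i) ∧ Uni (z {i}) (d i) ∧
      a i =ᵐ[μ] b i * d i) ∧ u =ᵐ[μ] ∏ i ∈ S, a i := by
  classical
  induction hS using Finset.Nonempty.cons_induction generalizing u c w with
  | singleton j =>
    rw [Finset.coe_singleton] at hu hy hw
    refine ⟨fun _ => u, fun _ => c, fun _ => w, fun i hi => ?_, by simp⟩
    rw [Finset.mem_singleton.1 hi]
    exact ⟨hu, hy, hw, e⟩
  | cons j S hj hS ih =>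
    have hS' : (S : Set ι) ⊆ (S.cons j hj : Finset ι) := Finset.coe_subset.2 (Finset.subset_cons hj)
    rw [Finset.coe_cons, insert_eq] at hu hy hw
    obtain ⟨u₁, c₁, w₁, u₂, c₂, w₂, h1, h2, h3, h4, h5, h6, e1, e2, e3⟩ :=
      h.fact2 (hc j (Finset.mem_cons_self _ _) S hS' hj) hu hy hw e
    obtain ⟨a, b, d, h7, e4⟩ := ih (fun i hi S' h1 h2 =>
      hc i (Finset.mem_cons_of_mem hi) S' (h1.trans hS') h2) h4 h5 h6 e2
    refine ⟨Function.update a j u₁, Function.update b j c₁, Function.update d j w₁,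
      fun i hi => ?_, ?_⟩
    · rcases Finset.mem_cons.1 hi with rfl | hi
      · simp only [Function.update_self]
        exact ⟨h1, h2, h3, e1⟩
      · have hij : i ≠ j := fun h => hj (h ▸ hi)
        simp only [Function.update_of_ne hij]
        exact h7 i hi
    · rw [Finset.prod_cons, Function.update_self, Finset.prod_update_of_notMem hj]
      exact e3.trans (EventuallyEq.rfl.mul e4)

theorem Fib.out [Fintype ι] (h : Fib μ x y z)
    (hc : ∀ (i j : ι) (S : Set ι), i ∉ S → j ≠ i → j ∉ S → ColInd μ x y z {i} S) {i0 iB i2 : ι}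
    (h0B : i0 ≠ iB) (h20 : i2 ≠ i0) (h2B : i2 ≠ iB) {v g g' : Ω → ℂ} (hv : MemLp v 2 μ)
    (hvm : AEStronglyMeasurable[x {iB}ᶜ] v μ) (hg : BM μ (y univ) g) (hg' : BM μ (z {iB}) g')
    (h0 : ∫ ω, v ω * (g ω * g' ω) ∂μ ≠ 0) :
    ∃ a b d : ι → Ω → ℂ, (∀ i, Uni (x {i}) (a i) ∧ Uni (y {i}) (b i) ∧ Uni (z {i}) (d i) ∧
      a i =ᵐ[μ] b i * d i) ∧ (∏ i, a i) =ᵐ[μ] 1 ∧ ∫ ω, v ω * conj (a iB ω) ∂μ ≠ 0 := by
  classical
  have hIJ : ({i0} : Set ι) ∪ ({i0, iB} : Set ι)ᶜ = {iB}ᶜ := by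
    ext i
    by_cases hi : i = i0
    · simp [hi, h0B]
    · simp [hi]
  have hne : ∀ (S : Set ι) (j : ι), j ∉ S → S ≠ univ := fun S j hj e => hj (e ▸ mem_univ j)
  have hT : Tri μ x y z {i0} ({i0, iB} : Set ι)ᶜ {iB} :=
    ⟨hc i0 iB _ (by simp) h0B.symm (by simp), hc i0 i2 _ h0B h20 h2B,
      (hc iB i0 _ (by simp) h0B (by simp)).symm, hne _ iB (by simp [h0B.symm]),
      hne _ i2 (by simp [h20, h2B]), hne _ i0 (by simp [h0B])⟩
  obtain ⟨u, c, w, hu, hu', hc', hw, e, h1⟩ := h.main hT hv (hIJ ▸ hvm) hg hg' h0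
  rw [hIJ] at hu'
  obtain ⟨m1, m2⟩ := h.slot (hne _ i0 h0B) (hu.bm (μ := μ)).1 hc' hw e
  obtain ⟨m3, m4⟩ := h.slot (hne _ iB (by simp)) hu' hc' hw e
  obtain ⟨c₁, hc₁, f1⟩ := exists_uni m1 (Eventually.of_forall hc'.2)
  obtain ⟨w₁, hw₁, f2⟩ := exists_uni m2 (Eventually.of_forall hw.2)
  obtain ⟨u₂, hu₂, f3⟩ := exists_uni hu' (Eventually.of_forall hu.2)
  obtain ⟨c₂, hc₂, f4⟩ := exists_uni m3 (Eventually.of_forall hc'.2)
  obtain ⟨w₂, hw₂, f5⟩ := exists_uni m4 (Eventually.of_forall hw.2)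
  have hS : ((Finset.univ.erase iB : Finset ι) : Set ι) = {iB}ᶜ := by
    ext i; simp
  obtain ⟨a, b, d, h2, e2⟩ := h.fact (Finset.univ.erase iB) ⟨i0, by simp [h0B]⟩
    (fun i hi S' h1 h2 => hc i iB S' h2 (Finset.ne_of_mem_erase hi).symm fun h3 => by
      simpa using h1 h3) (hS ▸ hu₂) (hS ▸ hc₂) (hS ▸ hw₂) ((f3.trans e).trans (f4.mul f5).symm)
  refine ⟨Function.update a iB (star u), Function.update b iB (star c₁),
    Function.update d iB (star w₁), fun i => ?_, ?_, ?_⟩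
  · by_cases hi : i = iB
    · subst hi
      simp only [Function.update_self]
      refine ⟨hu.star, hc₁.star, hw₁.star, ?_⟩
      filter_upwards [e, f1, f2] with ω g0 g1 g2
      simp only [Pi.mul_apply, Pi.star_apply] at g0 ⊢
      rw [g0, g1, g2, star_mul']
    · simp only [Function.update_of_ne hi]
      exact h2 i (by simp [hi])
  · rw [← Finset.mul_prod_erase _ _ (Finset.mem_univ iB), Function.update_self,
      Finset.prod_update_of_notMem (Finset.notMem_erase _ _), ← hu.star_mul_self]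
    exact EventuallyEq.rfl.mul (e2.symm.trans f3)
  · simpa using h1

end Vale.Agent.P102
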