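import Mathlib

/-! P102, file JE: joint eigenvectors of a commuting star-closed family.

PLAN. By `ContinuousLinearMap.orthogonalComplement_iSup_eigenspaces_eq_bot` the eigenspaces of
`S j0` span densely. If `w` were orthogonal to all eigenspaces with eigenvalue `≠ 0` then `S j0 w`
would be orthogonal to every eigenspace, hence `0`. So there is `μ ≠ 0` and `v ∈ E := eigenspace μ`
with `⟪w, v⟫ ≠ 0`. `E` is finite dimensional (`ContinuousLinearMap.finite_dimensional_eigenspace`)
and invariant under all `S j`. On `E` apply `LinearMap.IsSymmetric.iSup_iInf_eq_top_of_commute` to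
the restrictions of the symmetric operators `S j + S j'`, `I • (S j - S j')` (`S j' = (S j)†`;
index type `J × Bool`; for symmetric maps maximal generalized eigenspaces are eigenspaces, see the
proof of `directSum_isInternal_of_pairwise_commute`): the joint eigenvectors span `E`, so one of
them is not orthogonal to `w`. (Alternative: induction on the dimension of an invariant subspace
not orthogonal to `w`.) -/

open MeasureTheory ProbabilityTheory Filter Topology Set
open scoped ComplexConjugate ENNReal InnerProductSpace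

namespace Vale.Agent.P102

theorem je_aux {H J : Type*} [NormedAddCommGroup H] [InnerProductSpace ℂ H]
    [CompleteSpace H] (S : J → H →L[ℂ] H) (hc : ∀ j j', Commute (S j) (S j'))
    (hs : ∀ j, ∃ j', S j' = ContinuousLinearMap.adjoint (S j)) (w : H) (n : ℕ) :
    ∀ E : Submodule ℂ H, FiniteDimensional ℂ E → Module.finrank ℂ E = n →
      (∀ j, ∀ x ∈ E, S j x ∈ E) → ∀ v ∈ E, ⟪w, v⟫_ℂ ≠ 0 →
      ∃ u ∈ E, (∀ j, ∃ l : ℂ, S j u = l • u) ∧ ⟪w, u⟫_ℂ ≠ 0 := by
  induction n using Nat.strong_induction_on with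
  | _ n ih =>
  intro E hE hn hinv v hv hw
  by_cases h : ∀ j, ∃ l : ℂ, S j v = l • v
  · exact ⟨v, hv, h, hw⟩
  push Not at h
  obtain ⟨j, hj⟩ := h
  have : Nontrivial E := ⟨⟨⟨v, hv⟩, 0, fun e => hw (by
    rw [show v = 0 from congrArg Subtype.val e, inner_zero_right])⟩⟩
  obtain ⟨l, hl⟩ := Module.End.exists_eigenvalue ((S j : H →ₗ[ℂ] H).restrict (hinv j))
  obtain ⟨x, hx⟩ := hl.exists_hasEigenvector
  let E1 : Submodule ℂ H := E ⊓ Module.End.eigenspace (S j : H →ₗ[ℂ] H) l
  have hx1 : x.1 ∈ E1 :=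
    ⟨x.2, Module.End.mem_eigenspace_iff.2 (congrArg Subtype.val hx.apply_eq_smul)⟩
  have hE1 : FiniteDimensional ℂ E1 := Submodule.finiteDimensional_inf_left _ _
  have hi1 : ∀ i, ∀ y ∈ E1, S i y ∈ E1 := fun i y hy => ⟨hinv i y hy.1,
    Module.End.mem_eigenspace_iff.2 (by
      have h1 : S j y = l • y := Module.End.mem_eigenspace_iff.1 hy.2
      have h2 : S j (S i y) = S i (S j y) := congrArg (fun T : H →L[ℂ] H => T y) (hc j i).eq
      exact h2.trans (by rw [h1, map_smul]))⟩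
  obtain ⟨y, hy, z, hz, e⟩ := Submodule.exists_add_mem_mem_orthogonal (K := E1) v
  by_cases hy0 : ⟪w, y⟫_ℂ = 0
  · have hlt : E ⊓ E1ᗮ < E := lt_of_le_of_ne inf_le_left fun e' => hx.2 (Subtype.ext
      (inner_self_eq_zero.1 ((e'.ge x.2).2 _ hx1)))
    obtain ⟨u, hu, h'⟩ := ih _ (hn ▸ Submodule.finrank_lt_finrank_of_lt hlt) (E ⊓ E1ᗮ)
      (Submodule.finiteDimensional_inf_left _ _) rfl (fun i a ha => ⟨hinv i a ha.1, fun b hb => by
        obtain ⟨i', hi'⟩ := hs i
        rw [← ContinuousLinearMap.adjoint_inner_left, ← hi']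
        exact ha.2 _ (hi1 i' b hb)⟩) z ⟨by
          rw [eq_sub_of_add_eq' e.symm]
          exact sub_mem hv hy.1, hz⟩ (by rwa [e, inner_add_right, hy0, zero_add] at hw)
    exact ⟨u, hu.1, h'⟩
  · have hlt : E1 < E := lt_of_le_of_ne inf_le_left fun e' =>
      hj l (Module.End.mem_eigenspace_iff.1 (e'.ge hv).2)
    obtain ⟨u, hu, h'⟩ := ih _ (hn ▸ Submodule.finrank_lt_finrank_of_lt hlt) E1 hE1 rfl hi1 y hy hy0
    exact ⟨u, hu.1, h'⟩

theorem exists_joint_eigenvector {H J : Type*} [NormedAddCommGroup H] [InnerProductSpace ℂ H]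
    [CompleteSpace H] (S : J → H →L[ℂ] H) (hc : ∀ j j', Commute (S j) (S j'))
    (hs : ∀ j, ∃ j', S j' = ContinuousLinearMap.adjoint (S j)) (j0 : J)
    (h0 : ContinuousLinearMap.adjoint (S j0) = S j0) (hK : IsCompactOperator (S j0)) {w : H}
    (hw : S j0 w ≠ 0) :
    ∃ u : H, (∀ j, ∃ l : ℂ, S j u = l • u) ∧ S j0 u ≠ 0 ∧ ⟪w, u⟫_ℂ ≠ 0 := by
  have hsym : (S j0 : H →ₗ[ℂ] H).IsSymmetric :=
    ContinuousLinearMap.isSelfAdjoint_iff_isSymmetric.1 h0
  have h1 : ∃ l : ℂ, l ≠ 0 ∧ ∃ v ∈ Module.End.eigenspace (S j0 : H →ₗ[ℂ] H) l,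
      ⟪w, v⟫_ℂ ≠ 0 := by
    by_contra hcon
    push Not at hcon
    apply hw
    rw [← Submodule.mem_bot ℂ,
      ← ContinuousLinearMap.orthogonalComplement_iSup_eigenspaces_eq_bot hK hsym,
      ← Submodule.iInf_orthogonal, Submodule.mem_iInf]
    intro l v hv
    have h2 : S j0 v = l • v := Module.End.mem_eigenspace_iff.1 hv
    rw [← ContinuousLinearMap.adjoint_inner_left, h0, h2, inner_smul_left]
    by_cases hl : l = 0
    · simp [hl]
    · rw [inner_eq_zero_symm.1 (hcon l hl v hv), mul_zero]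
  obtain ⟨l, hl, v, hv, hwv⟩ := h1
  obtain ⟨u, hu, h2, h3⟩ := je_aux S hc hs w _ _
    (ContinuousLinearMap.finite_dimensional_eigenspace hK l hl) rfl (fun i y hy =>
      Module.End.mem_eigenspace_iff.2 (by
        have h1 : S j0 y = l • y := Module.End.mem_eigenspace_iff.1 hy
        have h2 : S j0 (S i y) = S i (S j0 y) := congrArg (fun T : H →L[ℂ] H => T y) (hc j0 i).eq
        exact h2.trans (by rw [h1, map_smul]))) v hv hwv
  refine ⟨u, h2, fun h4 => h3 ?_, h3⟩
  have h5 : S j0 u = l • u := Module.End.mem_eigenspace_iff.1 hu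
  rw [(smul_eq_zero.1 (h5.symm.trans h4)).resolve_left hl, inner_zero_right]

end Vale.Agent.P102
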