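import Vale.Agent.P102.FibEig
import Vale.Agent.P102.Compact
import Vale.Agent.P102.JE

/-! P102, file FibMain: the fibre lemma.

PLAN. Let `w₀ := (conj v).toLp`, `P := pr KX`. Put `γ₁ := E[g | y (I ∪ J)]`. Since
`E[v g' | Y]` is `y (I ∪ J)`-measurable (`sc_aesm` of `h.swap12`), `∫ v g g' = ∫ v γ₁ g'`.
`u₁ := E[γ₁ g' | X]` is measurable for `x (I ∪ J)` (`sc_aesm`) and for `x K` (`sc_aesm` of
`h.swap23`, `g' ∈ z K`), hence for `KX`. So `∫ v g g' = ∫ v u₁ = ∫ v₁ u₁ = ∫ v₁ γ₁ g'` with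
`v₁ := E[v | KX] = conj (P w₀)`. `E[v₁ g' | Y]` is `KY`-measurable, so this equals `∫ v₁ γ g'` with
`γ := E[γ₁ | KY] ∈ BM KY`, `= conj ∫ E[conj γ * P w₀ | Z] * conj g'`. Hence `Mop γ w₀ ≠ 0`
(`Mop γ w₀ = Mop γ (P w₀)`) and `Sop γ γ w₀ ≠ 0`. Apply `exists_joint_eigenvector` to the family
`Sop γ' γ` indexed by pairs in the subtype `BM KY` (`Fib.commute`, `Sop_adjoint`,
`isCompactOperator_Mop` with `KX ≤ X ⟂ Z`, `IsCompactOperator.clm_comp`). The eigenvector `u` has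
`Sop γ γ u = l • u ≠ 0`, so it lies in the range of `P` (`Mop_adjoint`, `pr_aesm`). `Fib.eig`, and
`⟪w₀, u⟫ = ∫ v u = α ∫ v u'`. -/

open MeasureTheory ProbabilityTheory Filter Topology Set
open scoped ComplexConjugate ENNReal InnerProductSpace

namespace Vale.Agent.P102

theorem fm_step {Ω : Type*} {m m' m0 : MeasurableSpace Ω} {μ : Measure Ω} [IsProbabilityMeasure μ]
    (h1 : m' ≤ m) (h2 : m ≤ m0) {F G : Ω → ℂ} (hF : MemLp F 2 μ) (hG : MemLp G 2 μ)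
    (hGm : AEStronglyMeasurable[m] G μ) (hFm : AEStronglyMeasurable[m'] (μ[F | m]) μ) :
    ∫ ω, F ω * G ω ∂μ = ∫ ω, F ω * (μ[G | m']) ω ∂μ := by
  have e1 := integral_mul_condExp h2 hGm (hG.integrable_mul hF) (hF.integrable one_le_two)
  have e2 := integral_mul_condExp (h1.trans h2) hFm
    ((hF.condExp (m := m) one_le_two).integrable_mul hG) (hG.integrable one_le_two)
  have e3 := integral_mul_condExp h2
    (stronglyMeasurable_condExp (μ := μ) (f := G).aestronglyMeasurable.mono h1)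
    ((hG.condExp (m := m') one_le_two).integrable_mul hF) (hF.integrable one_le_two)
  simp only [mul_comm (F _)]
  rw [← e1, ← e3]
  simp only [mul_comm _ ((μ[F | m]) _)]
  exact e2.symm

variable {Ω ι : Type*} {x y z : Set ι → MeasurableSpace Ω} {m0 : MeasurableSpace Ω}
  {μ : Measure Ω} [IsProbabilityMeasure μ] {I J K : Set ι}

theorem fm_ne (h : Fib μ x y z) (hT : Tri μ x y z I J K) {v g g' : Ω → ℂ} (hv : MemLp v 2 μ)
    (hvm : AEStronglyMeasurable[x (I ∪ J)] v μ) (hg : BM μ (y univ) g) (hg' : BM μ (z K) g')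
    (h0 : ∫ ω, v ω * (g ω * g' ω) ∂μ ≠ 0) : ∃ γ, BM μ (aeInf μ (y K) (y (I ∪ J))) γ ∧
      ∫ ω, g' ω * (γ * μ[v | aeInf μ (x K) (x (I ∪ J))]) ω ∂μ ≠ 0 := by
  have hK : K ≠ univ := fun e => hT.nik (by rw [e, union_univ])
  have hz : z K ≤ z univ := h.zmono (subset_univ _)
  have hx : aeInf μ (x K) (x (I ∪ J)) ≤ x univ := (aeInf_le _ _ _).trans (h.xmono (subset_univ _))
  have hy : aeInf μ (y K) (y (I ∪ J)) ≤ y univ := (aeInf_le _ _ _).trans (h.ymono (subset_univ _))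
  have hyIJ : y (I ∪ J) ≤ y univ := h.ymono (subset_univ _)
  have hγ₁ := hg.condExp (y (I ∪ J))
  have hv₁ : MemLp (μ[v | aeInf μ (x K) (x (I ∪ J))]) 2 μ := hv.condExp one_le_two
  have hv₁m : AEStronglyMeasurable[aeInf μ (x K) (x (I ∪ J))]
      (μ[v | aeInf μ (x K) (x (I ∪ J))]) μ := stronglyMeasurable_condExp.aestronglyMeasurable
  have l1 : MemLp (g' * v) 2 μ := hg'.mul_memLp (h.zle _) hv
  have l2 : MemLp (g' * μ[g | y (I ∪ J)]) 2 μ := hg'.mul_memLp (h.zle _) (hγ₁.memLp (h.yle _) 2)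
  have l3 := hg'.mul_memLp (h.zle _) hv₁
  have e1 := fm_step hyIJ (h.yle _) l1 (hg.memLp (h.yle _) 2) hg.1
    (h.swap12.sc_aesm hT.nij (l1.integrable one_le_two)
      ((hg'.1.mono (hz.trans le_sup_right)).mul (hvm.mono le_sup_left)))
  have e2 := fm_step hx (h.xle _) l2 hv (hvm.mono (h.xmono (subset_univ _))) (aesm_aeInf
    (h.swap23.sc_aesm hK (l2.integrable one_le_two)
      ((hg'.1.mono le_sup_left).mul (hγ₁.1.mono (hyIJ.trans le_sup_right))))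
    (h.sc_aesm hT.nij (l2.integrable one_le_two)
      ((hg'.1.mono (hz.trans le_sup_right)).mul (hγ₁.1.mono le_sup_left))))
  have e3 := fm_step hy (h.yle _) l3 (hγ₁.memLp (h.yle _) 2) (hγ₁.1.mono hyIJ) (aesm_aeInf
    (h.swap12.swap23.sc_aesm hK (l3.integrable one_le_two)
      ((hg'.1.mono le_sup_left).mul (hv₁m.mono (hx.trans le_sup_right))))
    (h.swap12.sc_aesm hT.nij (l3.integrable one_le_two)
      ((hg'.1.mono (hz.trans le_sup_right)).mul ((aesm_of_aeInf hv₁m).mono le_sup_left))))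
  refine ⟨_, hγ₁.condExp _, fun e => h0 ?_⟩
  simp only [Pi.mul_apply] at e e1 e2 e3
  rw [← e]
  calc _ = ∫ ω, g' ω * v ω * g ω ∂μ := by simp only [mul_comm, mul_left_comm, mul_assoc]
    _ = ∫ ω, g' ω * (μ[g | y (I ∪ J)]) ω * v ω ∂μ := by
      rw [e1]; simp only [mul_comm, mul_left_comm, mul_assoc]
    _ = ∫ ω, g' ω * (μ[v | aeInf μ (x K) (x (I ∪ J))]) ω * (μ[g | y (I ∪ J)]) ω ∂μ := by
      rw [e2]; simp only [mul_comm, mul_left_comm, mul_assoc]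
    _ = _ := by rw [e3]; simp only [mul_comm, mul_left_comm, mul_assoc]

theorem Fib.main (h : Fib μ x y z) (hT : Tri μ x y z I J K) {v g g' : Ω → ℂ} (hv : MemLp v 2 μ)
    (hvm : AEStronglyMeasurable[x (I ∪ J)] v μ) (hg : BM μ (y univ) g) (hg' : BM μ (z K) g')
    (h0 : ∫ ω, v ω * (g ω * g' ω) ∂μ ≠ 0) :
    ∃ u c w : Ω → ℂ, Uni (x K) u ∧ AEStronglyMeasurable[x (I ∪ J)] u μ ∧ Uni (y univ) c ∧
      Uni (z univ) w ∧ u =ᵐ[μ] c * w ∧ ∫ ω, v ω * u ω ∂μ ≠ 0 := by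
  obtain ⟨γ, hγ, hne⟩ := fm_ne h hT hv hvm hg hg' h0
  have hx : aeInf μ (x K) (x (I ∪ J)) ≤ x univ := (aeInf_le _ _ _).trans (h.xmono (subset_univ _))
  have hx0 := hx.trans (h.xle _)
  have hy0 : aeInf μ (y K) (y (I ∪ J)) ≤ m0 := (aeInf_le _ _ _).trans (h.yle _)
  have hγ0 := hγ.mono hy0
  set KX := aeInf μ (x K) (x (I ∪ J)) with hKX
  let w₀ : Lp ℂ 2 μ := hv.star.toLp
  have hw₀ : w₀ =ᵐ[μ] star v := hv.star.coeFn_toLp
  have hM : Mop μ KX (z univ) γ w₀ ≠ 0 := fun e => by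
    have e1 : Mop μ KX (z univ) γ (pr μ KX w₀) = Mop μ KX (z univ) γ w₀ := by
      simp only [Mop, ContinuousLinearMap.comp_apply, pr_pr_of_le le_rfl hx0]
    have e2 := Mop_ae hx0 (h.zle univ) hγ0 (pr_aesm hx0 w₀)
    have e3 : star γ * ⇑(pr μ KX w₀) =ᵐ[μ] star (γ * μ[v | KX]) := by
      filter_upwards [pr_ae hx0 w₀, condExp_congr_ae (m := KX) hw₀, condExp_star (m := KX) v]
        with ω a1 a2 a3
      simp only [Pi.mul_apply, Pi.star_apply, a1, a2, a3, star_mul']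
    rw [e1, e] at e2
    have e4 : μ[γ * μ[v | KX] | z univ] =ᵐ[μ] 0 := by
      filter_upwards [e2, condExp_congr_ae (m := z univ) e3,
        condExp_star (m := z univ) (γ * μ[v | KX]), Lp.coeFn_zero ℂ 2 μ] with ω a1 a2 a3 a4
      rw [a4, a2, a3] at a1
      exact star_eq_zero.1 a1.symm
    have l1 : Integrable (γ * μ[v | KX]) μ := hγ.mul_integrable hy0 integrable_condExp
    refine hne ?_
    rw [← integral_mul_condExp (h.zle univ) (hg'.1.mono (h.zmono (subset_univ _)))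
      (hg'.mul_integrable (h.zle _) l1) l1]
    refine integral_eq_zero_of_ae ?_
    filter_upwards [e4] with ω a1
    simp [a1]
  have hS : Sop μ KX (z univ) γ γ w₀ ≠ 0 := fun e => hM <| by
    rw [← inner_self_eq_zero (𝕜 := ℂ), ← ContinuousLinearMap.adjoint_inner_right]
    exact (congrArg (inner ℂ w₀) e).trans (inner_zero_right _)
  obtain ⟨u, hu1, hu2, hu3⟩ := exists_joint_eigenvector
    (J := {γ // BM μ (aeInf μ (y K) (y (I ∪ J))) γ} × {γ // BM μ (aeInf μ (y K) (y (I ∪ J))) γ})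
    (fun j => Sop μ KX (z univ) j.1.1 j.2.1) (fun j j' => h.commute hT j.2.2 j.1.2 j'.2.2 j'.1.2)
    (fun j => ⟨j.swap, (Sop_adjoint _ _ _ _).symm⟩) (⟨γ, hγ⟩, ⟨γ, hγ⟩) (Sop_adjoint _ _ _ _)
    ((isCompactOperator_Mop hx0 (h.zle _) (indep_of_indep_of_le_left h.xz hx) hγ0).clm_comp
      (ContinuousLinearMap.adjoint (Mop μ KX (z univ) γ))) hS
  have hP : pr μ KX u = u := by
    obtain ⟨l, hl⟩ := hu1 (⟨γ, hγ⟩, ⟨γ, hγ⟩)
    have hl0 : l ≠ 0 := fun e => hu2 (by rw [hl, e, zero_smul])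
    have e1 : pr μ KX (Sop μ KX (z univ) γ γ u) = Sop μ KX (z univ) γ γ u := by
      simp only [Sop, Mop_adjoint hγ0, ContinuousLinearMap.comp_apply, pr_pr_of_le le_rfl hx0]
    rw [hl, map_smul] at e1
    exact smul_right_injective _ hl0 e1
  have hum : AEStronglyMeasurable[KX] u μ := hP ▸ pr_aesm hx0 u
  obtain ⟨α, u', c, w, hα, a1, a2, a3, a4, a5⟩ := h.eig hT hum
    (fun β β' hβ hβ' => hu1 (⟨β', hβ'⟩, ⟨β, hβ⟩)) hγ
    (fun e => hu2 ((congrArg (ContinuousLinearMap.adjoint (Mop μ KX (z univ) γ)) e).trans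
      (map_zero _)))
  refine ⟨u', c, w, a1, ?_, a2, a3, a4, fun e => hu3 ?_⟩
  · refine ((aesm_of_aeInf hum).const_smul α⁻¹).congr ?_
    filter_upwards [a5] with ω b1
    rw [Pi.smul_apply, b1, Pi.smul_apply, inv_smul_smul₀ hα]
  · rw [inner_eq, ← mul_zero α, ← e, ← integral_const_mul]
    refine integral_congr_ae ?_
    filter_upwards [a5, hw₀] with ω b1 b2
    simp only [b1, b2, Pi.smul_apply, Pi.star_apply, smul_eq_mul, RCLike.star_def,
      Complex.conj_conj]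
    ring

end Vale.Agent.P102
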