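import Vale.Agent.P102.CubeDefs

/-! P102, file Levels: existence of the level structure.

PLAN. Let `C := {x : Fin k × Finset (Fin k) // x.1 ∉ x.2 ∧ x.2.card + 2 ≤ k}` (finite, nonempty),
`M := card C ≥ 1`, `e : Fin M ≃ C`. Let `Λ := {x : ℕ × ℕ // x.1 < 2 ^ x.2}` with the injective value
`val (m, j) = (2 m + 1) / 2 ^ (j + 1) ∈ (0, 1)` in `ℚ` (`LinearOrder.lift'`), colour
`e (j % M)`, and `θ b (m, j) = (m + b * 2 ^ j, j + M)`, whose value is `(val + b) / 2 ^ M`
(`b ∈ {0, 1}`). Density: for `0 ≤ a < b ≤ 1` take `j ≡ c (mod M)` with `2 / 2 ^ j < b - a` and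
`m = ⌊a * 2 ^ j⌋₊ + 1` (or `⌊..⌋₊`, check). Take `U := WithBot (WithTop Λ)`, or directly
`U := Option (Option Λ)` / `Bool ⊕ Λ` with the order lifted from the value in `ℚ` (`p0 ↦ 0`,
`κ ↦ 1`), `σ = iB` and `mk' = ∅` at the two end points. Any other model is fine. -/

open MeasureTheory ProbabilityTheory Filter Topology Set
open scoped ComplexConjugate ENNReal InnerProductSpace

namespace Vale.Agent.P102

theorem levels_col (C : Type) [Fintype C] [Nonempty C] : ∃ M : ℕ, 0 < M ∧ ∃ col : ℕ → C,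
    (∀ j, col (j + M) = col j) ∧ ∀ c n, ∃ j, n ≤ j ∧ col j = c := by
  have hM : 0 < Fintype.card C := Fintype.card_pos
  refine ⟨Fintype.card C, hM, fun j => (Fintype.equivFin C).symm ⟨j % _, Nat.mod_lt _ hM⟩,
    fun j => by simp, fun c n => ⟨(Fintype.equivFin C c : ℕ) + Fintype.card C * n, ?_, ?_⟩⟩
  · nlinarith
  · rw [Equiv.symm_apply_eq]
    exact Fin.ext (by simp [Nat.mod_eq_of_lt (Fintype.equivFin C c).2])

/-- Dyadic fractions with odd numerator. -/
def LevL : Type := {x : ℕ × ℕ // x.1 < 2 ^ x.2}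

instance : Countable LevL := by unfold LevL; infer_instance

/-- The value of a dyadic fraction. -/
def levV (x : LevL) : ℚ := (2 * x.1.1 + 1) / 2 ^ (x.1.2 + 1)

theorem levV_pos (x : LevL) : 0 < levV x := by unfold levV; positivity

theorem levV_lt (x : LevL) : levV x < 1 := by
  unfold levV
  rw [div_lt_one (by positivity), pow_succ]
  have h : x.1.1 + 1 ≤ 2 ^ x.1.2 := x.2
  have h' : (x.1.1 : ℚ) + 1 ≤ 2 ^ x.1.2 := by exact_mod_cast h
  linarith

theorem levels_par {m m' j e : ℕ} (h : (2 * m + 1) * 2 ^ (j + e + 1) = (2 * m' + 1) * 2 ^ (j + 1)) :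
    e = 0 ∧ m = m' := by
  have h1 : (2 * m + 1) * 2 ^ e = 2 * m' + 1 := by
    apply Nat.eq_of_mul_eq_mul_right (Nat.two_pow_pos (j + 1))
    rw [← h]; ring
  rcases e with _ | e
  · exact ⟨rfl, by omega⟩
  · rw [pow_succ, ← mul_assoc] at h1
    omega

theorem levV_inj : Function.Injective levV := by
  rintro ⟨⟨m, j⟩, h⟩ ⟨⟨m', j'⟩, h'⟩ e
  unfold levV at e
  rw [div_eq_div_iff (by positivity) (by positivity)] at e
  have e' : (2 * m + 1) * 2 ^ (j' + 1) = (2 * m' + 1) * 2 ^ (j + 1) := by exact_mod_cast e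
  refine Subtype.ext ?_
  rcases le_total j j' with h1 | h1
  · obtain ⟨d, rfl⟩ := Nat.exists_eq_add_of_le h1
    obtain ⟨rfl, rfl⟩ := levels_par e'
    rfl
  · obtain ⟨d, rfl⟩ := Nat.exists_eq_add_of_le h1
    obtain ⟨rfl, rfl⟩ := levels_par e'.symm
    rfl

/-- The two contractions. -/
def levT {M : ℕ} (hM : 0 < M) (b : Bool) (x : LevL) : LevL :=
  ⟨(x.1.1 + b.toNat * 2 ^ x.1.2, x.1.2 + M), by
    have h : x.1.1 < 2 ^ x.1.2 := x.2
    have h1 : 2 ^ (x.1.2 + 1) ≤ 2 ^ (x.1.2 + M) := Nat.pow_le_pow_right (by norm_num) (by omega)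
    rw [pow_succ] at h1
    cases b <;> simp <;> omega⟩

theorem levV_levT {M : ℕ} (hM : 0 < M) (b : Bool) (x : LevL) :
    levV (levT hM b x) = (levV x + b.toNat) / 2 ^ M := by
  unfold levV levT
  push_cast
  field_simp
  ring

theorem levels_dense {a b : ℚ} (h0 : 0 ≤ a) (hab : a < b) (h1 : b ≤ 1) :
    ∃ n : ℕ, ∀ j, n ≤ j → ∃ x : LevL, x.1.2 = j ∧ a < levV x ∧ levV x < b := by
  obtain ⟨n, hn⟩ := pow_unbounded_of_one_lt (2 / (b - a)) (show (1 : ℚ) < 2 by norm_num)
  refine ⟨n, fun j hj => ?_⟩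
  have h2 : (2 : ℚ) ^ n ≤ 2 ^ j := pow_le_pow_right₀ (by norm_num) hj
  have h3 : 2 < 2 ^ j * (b - a) := by
    rw [← div_lt_iff₀ (by linarith)]
    linarith
  have hp : (0 : ℚ) < 2 ^ j := by positivity
  have h4 := Nat.lt_floor_add_one (a * 2 ^ j)
  have h5 := Nat.floor_le (mul_nonneg h0 hp.le)
  have h6 : b * 2 ^ j ≤ 1 * 2 ^ j := mul_le_mul_of_nonneg_right h1 hp.le
  refine ⟨⟨(⌊a * 2 ^ j⌋₊ + 1, j), ?_⟩, rfl, ?_, ?_⟩
  · have : ((⌊a * 2 ^ j⌋₊ + 1 : ℕ) : ℚ) < ((2 ^ j : ℕ) : ℚ) := by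
      push_cast
      linarith
    exact_mod_cast this
  · unfold levV
    rw [lt_div_iff₀ (by positivity), pow_succ]
    push_cast
    linarith
  · unfold levV
    rw [div_lt_iff₀ (by positivity), pow_succ]
    push_cast
    linarith

/-- The value of a level. -/
def levW : Bool ⊕ LevL → ℚ := Sum.elim (fun b => b.toNat) levV

theorem levW_bd (u : Bool ⊕ LevL) : 0 ≤ levW u ∧ levW u ≤ 1 := by
  rcases u with (_ | _) | x
  · simp [levW]
  · simp [levW]
  · exact ⟨(levV_pos x).le, (levV_lt x).le⟩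

theorem levW_inj : Function.Injective levW := by
  rintro ((_ | _) | x) ((_ | _) | y) h <;> simp only [levW, Sum.elim_inl, Sum.elim_inr,
    Bool.toNat_false, Bool.toNat_true, Nat.cast_zero, Nat.cast_one] at h
  · rfl
  · norm_num at h
  · exact absurd h (levV_pos y).ne
  · norm_num at h
  · rfl
  · exact absurd h (levV_lt y).ne'
  · exact absurd h (levV_pos x).ne'
  · exact absurd h (levV_lt x).ne
  · rw [levV_inj h]

theorem levW_mono {M : ℕ} (hM : 0 < M) (b : Bool) (u v : Bool ⊕ LevL) (h : levW u < levW v) :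
    levW (Sum.map id (levT hM b) u) < levW (Sum.map id (levT hM b) v) := by
  rcases u with (_ | _) | x <;> rcases v with (_ | _) | y
  · exact h
  · exact h
  · simpa [levW] using levV_pos _
  · exact h
  · exact h
  · exact absurd (levV_lt y) (not_lt.2 (by simpa [levW] using h.le))
  · exact absurd (levV_pos x) (not_lt.2 (by simpa [levW] using h.le))
  · simpa [levW] using levV_lt _
  · simp only [levW, Sum.map_inr, Sum.elim_inr, levV_levT] at h ⊢
    gcongr

theorem levW_sep {M : ℕ} (hM : 0 < M) (u v : Bool ⊕ LevL) (hu : levW u < 1) (hv : 0 < levW v) :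
    levW (Sum.map id (levT hM false) u) < levW (Sum.map id (levT hM true) v) := by
  rcases u with (_ | _) | x <;> rcases v with (_ | _) | y
  · simp [levW] at hv
  · simp [levW]
  · simpa [levW] using levV_pos _
  · simp [levW] at hu
  · simp [levW] at hu
  · simp [levW] at hu
  · simp [levW] at hv
  · simpa [levW] using levV_lt _
  · simp only [levW, Sum.map_inr, Sum.elim_inr, levV_levT]
    have h1 := levV_lt x
    have h2 := levV_pos y
    refine div_lt_div_of_pos_right ?_ (by positivity)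
    simp only [Bool.toNat_false, Bool.toNat_true, Nat.cast_zero, Nat.cast_one]
    linarith

theorem exists_lev {k : ℕ} (hk : 2 ≤ k) (iB : Fin k) :
    ∃ (U : Type) (_ : LinearOrder U) (_ : Countable U), Nonempty (Lev k U iB) := by
  classical
  let C := {x : Fin k × Finset (Fin k) // x.1 ∉ x.2 ∧ x.2.card + 2 ≤ k}
  let c0 : C := ⟨(iB, ∅), by simp, by simpa using hk⟩
  have : Nonempty C := ⟨c0⟩
  obtain ⟨M, hM, col, hcol, hsurj⟩ := levels_col C
  let cl : Bool ⊕ LevL → C := Sum.elim (fun _ => c0) fun x => col x.1.2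
  have hcl : ∀ b u, cl (Sum.map id (levT hM b) u) = cl u := by
    rintro b (u | x)
    · rfl
    · exact hcol _
  let ord : LinearOrder (Bool ⊕ LevL) := LinearOrder.lift' levW levW_inj
  refine ⟨Bool ⊕ LevL, ord, inferInstance, ⟨{
    p0 := Sum.inl false
    κ := Sum.inl true
    σ := fun u => (cl u).1.1
    mk' := fun u => (cl u).1.2
    θ := fun b => Sum.map id (levT hM b)
    p0_lt := show levW _ < levW _ by simp [levW]
    p0_le := fun l => show levW _ ≤ levW l by simpa [levW] using (levW_bd l).1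
    le_κ := fun l => show levW l ≤ levW _ by simpa [levW] using (levW_bd l).2
    σ_κ := rfl
    mk_p0 := rfl
    mk_κ := rfl
    σ_notMem := fun l => (cl l).2.1
    card_le := fun l => (cl l).2.2
    dense := fun a b hab c S h1 h2 => ?_
    θ_mono := fun b u v h => levW_mono hM b u v h
    θ_p0 := fun _ => rfl
    θ_κ := fun _ => rfl
    θ_σ := fun b l => by rw [hcl]
    θ_mk := fun b l => by rw [hcl]
    θ_sep := fun l l' h h' => levW_sep hM l l' (by
      have : levW l < levW (Sum.inl true) := h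
      simpa [levW] using this) (by
      have : levW (Sum.inl false) < levW l' := h'
      simpa [levW] using this) }⟩⟩
  obtain ⟨n, hn⟩ := levels_dense (levW_bd a).1 (show levW a < levW b from hab) (levW_bd b).2
  obtain ⟨j, hj, hc⟩ := hsurj ⟨(c, S), h1, h2⟩ n
  obtain ⟨x, hx, h3, h4⟩ := hn j hj
  have e : cl (Sum.inr x) = ⟨(c, S), h1, h2⟩ := by rw [← hc, ← hx]; rfl
  exact ⟨Sum.inr x, h3, h4, by rw [e], by rw [e]⟩

end Vale.Agent.P102
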