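import Vale.Agent.P102.CubeDefs
import Vale.Agent.P102.Defs

/-! P102, file Red1: reduction to a symbolic system.

PLAN. `iter` is an action (`zpow_add`, `Equiv.Perm.mul_apply`); measurability and invariance by
`Int.induction_on` (`MeasurePreserving.symm`). `order_two`: `⋂ i : Fin 2` is a binary intersection,
pull back by `iter T (t 0)`; `tendsto_comap`/`Metric.tendsto_nhds`, `eventually_comap`.
`exists_dyn`: negate `MixingOfOrder (n + 1)`, choose `t N` for every `N : ℕ`; `𝔭 := hyperfilter ℕ`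
(`≤ cofinite = atTop`). `Φ ω m i := decide (iter T m ω ∈ A i)`, `μ_X := μ.map Φ`,
`T_X d x m := x (m + d)`, `Φ ∘ iter T d = T_X d ∘ Φ`. Consecutive gaps `≥ N` and `StrictMono` give
`Gaps N` (`i < j`: `t j - t i ≥ t (i+1) - t i`). For `A c = univ` restrict to the indices
`c.succAbove i` (`Fin.prod_univ_succAbove`, `Fin.forall_iff_succAbove`) and use `MixingOfOrder n`
for the preimages under `Φ`. The clopen sets are `{x | x 0 i = true}`. -/

open MeasureTheory ProbabilityTheory Filter Topology Set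
open scoped ComplexConjugate ENNReal InnerProductSpace

namespace Vale.Agent.P102

variable {Ω : Type*} [MeasurableSpace Ω] {μ : Measure Ω} [IsProbabilityMeasure μ] {T : Ω ≃ᵐ Ω}

theorem iter_zero (T : Ω ≃ᵐ Ω) (ω : Ω) : iter T 0 ω = ω := by
  simp [iter]

theorem iter_add (T : Ω ≃ᵐ Ω) (a b : ℤ) (ω : Ω) : iter T (a + b) ω = iter T a (iter T b ω) := by
  simp [iter, zpow_add]

theorem measurePreserving_iter (hT : MeasurePreserving T μ μ) (n : ℤ) :
    MeasurePreserving (iter T n) μ μ := by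
  induction n using Int.induction_on with
  | zero =>
    rw [show iter T 0 = id from funext (iter_zero T)]
    exact MeasurePreserving.id μ
  | succ n ih =>
    rw [show iter T (n + 1) = iter T n ∘ T from funext fun ω => iter_add T _ _ ω]
    exact ih.comp hT
  | pred n ih =>
    rw [show iter T (-n - 1) = iter T (-n) ∘ T.symm from funext fun ω => iter_add T _ (-1) ω]
    exact ih.comp (hT.symm T)

theorem order_two (hT : MeasurePreserving T μ μ) (h : Mixing μ T) : MixingOfOrder μ T 2 := by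
  intro A hA ε hε
  have h1 := Metric.tendsto_nhds.1 (h (A 0) (A 1) (hA 0) (hA 1)) ε hε
  rw [eventually_comap, eventually_atTop] at h1
  obtain ⟨N, hN⟩ := h1
  refine ⟨N.toNat, fun t _ hg => ?_⟩
  have e : ⋂ i, iter T (t i) ⁻¹' A i = iter T (t 0) ⁻¹' (A 0 ∩ iter T (t 1 - t 0) ⁻¹' A 1) := by
    ext ω
    simp [Fin.forall_fin_two, ← iter_add]
  rw [e, (measurePreserving_iter hT _).measureReal_preimage
    ((hA 0).inter ((measurePreserving_iter hT _).measurable (hA 1))).nullMeasurableSet,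
    Fin.prod_univ_two]
  exact hN _ ((Int.self_le_toNat N).trans ((hg 0 1 rfl).trans (le_abs_self _))) _ rfl

theorem red1_gaps {k : ℕ} {t : Fin k → ℤ} (ht : StrictMono t) {N : ℤ}
    (hg : ∀ i j : Fin k, (j : ℕ) = i + 1 → N ≤ t j - t i) : Gaps N t := fun i j hij =>
  have h : (i : ℕ) + 1 < k := (Nat.succ_le_of_lt hij).trans_lt j.2
  (hg i ⟨i + 1, h⟩ rfl).trans (sub_le_sub_right (ht.monotone (Nat.succ_le_of_lt hij)) _)

theorem exists_dyn (hT : MeasurePreserving T μ μ) (h : Mixing μ T) {n : ℕ}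
    (h1 : MixingOfOrder μ T n) (h2 : ¬ MixingOfOrder μ T (n + 1)) :
    ∃ D : Dyn (n + 1) (ℤ → Fin (n + 1) → Bool),
      (∀ g : ℤ, ∀ᶠ m in (D.𝔭 : Filter ℕ), Gaps g (D.t m)) ∧
      (∀ A B, MeasurableSet A → MeasurableSet B →
        Tendsto (fun d : ℤ => (D.μ : Measure (ℤ → Fin (n + 1) → Bool)).real (A ∩ D.T d ⁻¹' B))
          atTop (𝓝 ((D.μ : Measure (ℤ → Fin (n + 1) → Bool)).real A *
            (D.μ : Measure (ℤ → Fin (n + 1) → Bool)).real B))) ∧
      (∀ (c : Fin (n + 1)) (A : Fin (n + 1) → Set (ℤ → Fin (n + 1) → Bool)),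
        (∀ i, MeasurableSet (A i)) → A c = univ →
        Tendsto (fun m => (D.μ : Measure (ℤ → Fin (n + 1) → Bool)).real
          (⋂ i, D.T (D.t m i) ⁻¹' A i)) D.𝔭
          (𝓝 (∏ i, (D.μ : Measure (ℤ → Fin (n + 1) → Bool)).real (A i)))) ∧
      ∃ A : Fin (n + 1) → Set (ℤ → Fin (n + 1) → Bool), (∀ i, IsClopen (A i)) ∧
        ¬ Tendsto (fun m => (D.μ : Measure (ℤ → Fin (n + 1) → Bool)).real
          (⋂ i, D.T (D.t m i) ⁻¹' A i)) D.𝔭
          (𝓝 (∏ i, (D.μ : Measure (ℤ → Fin (n + 1) → Bool)).real (A i))) := by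
  classical
  simp only [MixingOfOrder, not_forall] at h2
  obtain ⟨A, hA, ε, hε, h2⟩ := h2
  push Not at h2
  choose t ht hg hb using h2
  let Φ : Ω → ℤ → Fin (n + 1) → Bool := fun ω m i => decide (iter T m ω ∈ A i)
  let S : ℤ → (ℤ → Fin (n + 1) → Bool) → ℤ → Fin (n + 1) → Bool := fun d x m => x (m + d)
  have hΦ : Measurable Φ := measurable_pi_lambda _ fun m => measurable_pi_lambda _ fun i =>
    measurable_to_bool (by
      convert (measurePreserving_iter hT m).measurable (hA i) using 1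
      ext ω
      simp [Φ])
  have hS : ∀ d, Continuous (S d) := fun d => continuous_pi fun m => continuous_apply _
  have hc : ∀ d, S d ∘ Φ = Φ ∘ iter T d := fun d => by
    funext ω m i
    simp only [S, Φ, Function.comp, iter_add]
  have hp : ∀ d B, Φ ⁻¹' (S d ⁻¹' B) = iter T d ⁻¹' (Φ ⁻¹' B) := fun d B => by
    rw [← preimage_comp, hc, preimage_comp]
  have hr : ∀ B, MeasurableSet B → (μ.map Φ).real B = μ.real (Φ ⁻¹' B) := fun B hB =>
    map_measureReal_apply hΦ hB
  have hi : ∀ B : Fin (n + 1) → Set (ℤ → Fin (n + 1) → Bool), (∀ i, MeasurableSet (B i)) → ∀ m,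
      (μ.map Φ).real (⋂ i, S (t m i) ⁻¹' B i) = μ.real (⋂ i, iter T (t m i) ⁻¹' (Φ ⁻¹' B i)) :=
    fun B hB m => by
      rw [hr _ (MeasurableSet.iInter fun i => (hS _).measurable (hB i)), preimage_iInter]
      simp only [hp]
  have hf : (hyperfilter ℕ : Filter ℕ) ≤ atTop := hyperfilter_le_cofinite.trans Nat.cofinite_eq_atTop.le
  have hG : ∀ g : ℤ, ∀ᶠ m in atTop, Gaps g (t m) := fun g =>
    (eventually_ge_atTop g.toNat).mono fun m hm i j hij =>
      (Int.toNat_le.1 hm).trans (red1_gaps (ht m) (hg m) i j hij)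
  refine ⟨⟨⟨μ.map Φ, Measure.isProbabilityMeasure_map hΦ.aemeasurable⟩, S, hS,
    fun x => funext fun m => congrArg x (add_zero m),
    fun a b x => funext fun m => congrArg x (add_assoc m a b).symm, fun d => ?_, t,
    hyperfilter ℕ⟩, fun g => hf (hG g), fun B C hB hC => ?_, fun c B hB hc => ?_,
    fun i => {x | x 0 i = true}, fun i => ?_, fun hl => ?_⟩
  · change (μ.map Φ).map (S d) = μ.map Φ
    rw [Measure.map_map (hS d).measurable hΦ, hc,
      ← Measure.map_map hΦ (measurePreserving_iter hT d).measurable,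
      (measurePreserving_iter hT d).map_eq]
  · change Tendsto (fun d : ℤ => (μ.map Φ).real (B ∩ S d ⁻¹' C)) _
      (𝓝 ((μ.map Φ).real B * (μ.map Φ).real C))
    simp only [hr _ (hB.inter ((hS _).measurable hC)), hr _ hB, hr _ hC, preimage_inter, hp]
    exact (h _ _ (hΦ hB) (hΦ hC)).mono_left tendsto_abs_atTop_atTop.le_comap
  · change Tendsto (fun m => (μ.map Φ).real (⋂ i, S (t m i) ⁻¹' B i)) _
      (𝓝 (∏ i, (μ.map Φ).real (B i)))
    simp only [hi B hB, hr _ (hB _)]
    refine Tendsto.mono_left (Metric.tendsto_nhds.2 fun δ hδ => ?_) hf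
    obtain ⟨N, hN⟩ := h1 (fun i => Φ ⁻¹' B (c.succAbove i)) (fun i => hΦ (hB _)) δ hδ
    filter_upwards [hG N] with m hm
    have e : ⋂ i, iter T (t m i) ⁻¹' (Φ ⁻¹' B i) =
        ⋂ i, iter T (t m (c.succAbove i)) ⁻¹' (Φ ⁻¹' B (c.succAbove i)) := by
      ext ω
      simp only [mem_iInter, Fin.forall_iff_succAbove c, hc, preimage_univ, mem_univ, true_and]
    rw [e, Fin.prod_univ_succAbove _ c, hc, preimage_univ, probReal_univ, one_mul]
    exact hN _ ((ht m).comp (Fin.strictMono_succAbove c)) fun i j hij =>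
      hm _ _ (Fin.strictMono_succAbove c (by rw [Fin.lt_def]; omega))
  · exact (isClopen_discrete {true}).preimage (f := fun x : ℤ → Fin (n + 1) → Bool => x 0 i)
      (by fun_prop)
  · change Tendsto (fun m => (μ.map Φ).real (⋂ i, S (t m i) ⁻¹' {x | x 0 i = true})) _
      (𝓝 (∏ i, (μ.map Φ).real {x | x 0 i = true})) at hl
    have hm : ∀ i, MeasurableSet {x : ℤ → Fin (n + 1) → Bool | x 0 i = true} := fun i =>
      measurableSet_eq_fun (by fun_prop) measurable_const
    have e : ∀ i, Φ ⁻¹' {x | x 0 i = true} = A i := fun i => by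
      ext ω
      simp [Φ, iter_zero]
    simp only [hi _ hm, hr _ (hm _), e] at hl
    obtain ⟨m, hm⟩ := (Metric.tendsto_nhds.1 hl ε hε).exists
    exact (hb m).not_gt hm

end Vale.Agent.P102
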