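import Vale.Agent.P102.Cube1
import Vale.Agent.P102.Sat
import Vale.Agent.P102.Join
import Vale.Agent.P102.Prod

/-! P102, file Red2: properties of the limit joining.

PLAN. `tendsto_real`: `join_tendsto` with `ν_tendsto`, `ν_eval`, `pres` and `Φ i = ind (A i)`
(`integral_map`, `∏ ind = ind (⋂ ..)`, `integral_ind`). `real_pi`: uniqueness of limits along the
ultrafilter. `mix_of_sets`: the sigma-algebras `comap (eval r)`, `r ≠ c'`, are `iIndep` under `ν`
(`iIndep_iff` / `iIndepSets`; put `univ` outside the given finset), `indep_iSup_of_disjoint`.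
(Alternative: `IndepSets.indep` with the pi-systems of boxes.)
`exists_f`: let `f₀ i = ind (A i) - μ (A i)` (continuous: `IsClopen.continuous_indicator`; real;
norm `≤ 1`; mean zero). Expand `∏ ind (A i) = ∏ (f₀ i + c i)` (`Finset.prod_add`): for
`∅ ≠ S ≠ univ`, `∫ ∏_{i ∈ S} f₀ i (y i) ∂ν = 0` (pick `c ∈ S`, `c' ∉ S`, `Mix`,
`integral_mul_indep`), so `∫ ∏ f₀ i (y i) ∂ν = ν (box) - ∏ μ (A i) ≠ 0`. Let
`F y = ∏_{r ≠ iB} f₀ r (y r)`, and `h` measurable with `ν[F | cyl {iB}] = h ∘ eval iB`
(`cyl_singleton`, `StronglyMeasurable.exists_eq_measurable_comp`), truncated to norm `≤ 1`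
(`norm_condExp_le_of_bound`). `h ∘ eval` is a.e. real (`condExp_star`) and not a.e. zero (because
`∫ F * f₀ iB = ∫ h * f₀ iB`), so `∫ F * h = ∫ h * h = ∫ ‖h‖² ≠ 0`. Take
`f = Function.update f₀ iB h`. -/

open MeasureTheory ProbabilityTheory Filter Topology Set
open scoped ComplexConjugate ENNReal InnerProductSpace

namespace Vale.Agent.P102

theorem red2_box {k : ℕ} {X : Type} (A : Fin k → Set X) (y : Fin k → X) :
    ∏ i, ind (A i) (y i) = ind (Set.pi univ A) y := by
  unfold ind
  by_cases h : y ∈ Set.pi univ A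
  · rw [indicator_of_mem h]
    exact Finset.prod_eq_one fun i _ => indicator_of_mem (h i (mem_univ i)) _
  · rw [indicator_of_notMem h]
    obtain ⟨i, hi⟩ := not_forall.1 (mt mem_univ_pi.2 h)
    exact Finset.prod_eq_zero (Finset.mem_univ i) (indicator_of_notMem hi _)

theorem red2_norm {X : Type} (A : Set X) {c : ℝ} (h0 : 0 ≤ c) (h1 : c ≤ 1) (x : X) :
    ‖ind A x - (c : ℂ)‖ ≤ 1 := by
  unfold ind
  by_cases h : x ∈ A
  · rw [indicator_of_mem h, ← Complex.ofReal_one, ← Complex.ofReal_sub, Complex.norm_real,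
      Real.norm_eq_abs, abs_le]
    constructor <;> linarith
  · rw [indicator_of_notMem h, zero_sub, norm_neg, Complex.norm_real, Real.norm_eq_abs, abs_le]
    constructor <;> linarith

theorem red2_prod_le {ι : Type*} (S : Finset ι) {a : ι → ℂ} (ha : ∀ i, ‖a i‖ ≤ 1) :
    ‖∏ i ∈ S, a i‖ ≤ 1 := by
  rw [norm_prod]
  exact Finset.prod_le_one (fun _ _ => norm_nonneg _) fun i _ => ha i

theorem red2_meas {k : ℕ} {X : Type} [MeasurableSpace X] (S : Finset (Fin k)) {R : Set (Fin k)}
    (hS : ∀ i ∈ S, i ∈ R) {f : Fin k → X → ℂ} (hf : ∀ i, Measurable (f i)) :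
    Measurable[cyl X R] fun y : Fin k → X => ∏ i ∈ S, f i (y i) :=
  @Finset.measurable_prod _ _ _ _ _ _ (cyl X R) _ _ fun i hi =>
    (hf i).comp (measurable_cylinderEvent_apply (X := fun _ : Fin k => X) (hS i hi))

namespace Dyn

variable {k : ℕ} {X : Type} [TopologicalSpace X] [PolishSpace X] [CompactSpace X]
  [MeasurableSpace X] [BorelSpace X] (D : Dyn k X)

theorem tendsto_real (A : Fin k → Set X) (hA : ∀ i, MeasurableSet (A i)) :
    Tendsto (fun n => (D.μ : Measure X).real (⋂ i, D.T (D.t n i) ⁻¹' A i)) D.𝔭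
      (𝓝 (D.ν.real (Set.pi univ A))) := by
  have hm : ∀ n, Measurable fun (x : X) (i : Fin k) => D.T (D.t n i) x := fun n =>
    measurable_pi_lambda _ fun i => (D.cont _).measurable
  have hB : MeasurableSet (Set.pi univ A) := MeasurableSet.univ_pi hA
  have h := join_tendsto (D.μ : Measure X) _ _ D.ν_tendsto (fun n i => by
      rw [ProbabilityMeasure.toMeasure_map, Measure.map_map (measurable_pi_apply i) (hm n)]
      exact D.pres _) D.ν_eval (fun i => ind (A i)) (fun i => measurable_ind (hA i))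
    fun i => norm_ind_le _
  simp only [red2_box, integral_ind hB] at h
  refine ((Complex.continuous_re.tendsto _).comp h).congr fun n => ?_
  rw [Function.comp_apply, Complex.ofReal_re, ProbabilityMeasure.toMeasure_map,
    map_measureReal_apply (hm n) hB]
  refine congrArg _ (Set.ext fun x => ?_)
  simp only [mem_preimage, mem_univ_pi, mem_iInter]

theorem red2_eval (i : Fin k) {B : Set X} (hB : MeasurableSet B) :
    D.ν ((fun y : Fin k → X => y i) ⁻¹' B) = (D.μ : Measure X) B := by
  rw [← D.ν_eval i, Measure.map_apply (measurable_pi_apply i) hB]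

theorem red2_int (i : Fin k) {f : X → ℂ} (hf : Measurable f) :
    ∫ y, f (y i) ∂D.ν = ∫ x, f x ∂(D.μ : Measure X) := by
  rw [← D.ν_eval i, integral_map (measurable_pi_apply i).aemeasurable hf.aestronglyMeasurable]

theorem mix_of_sets
    (h : ∀ (c : Fin k) (A : Fin k → Set X), (∀ i, MeasurableSet (A i)) → A c = univ →
      Tendsto (fun n => (D.μ : Measure X).real (⋂ i, D.T (D.t n i) ⁻¹' A i)) D.𝔭
        (𝓝 (∏ i, (D.μ : Measure X).real (A i)))) : D.Mix := by
  classical
  intro c c' hc
  let m : Fin k → MeasurableSpace (Fin k → X) := fun r =>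
    if r = c' then ⊥ else MeasurableSpace.comap (fun y => y r) inferInstance
  have hle : ∀ r, m r ≤ MeasurableSpace.pi := fun r => by
    by_cases hr : r = c'
    · simp only [m, if_pos hr]
      exact bot_le
    · simp only [m, if_neg hr]
      exact (measurable_pi_apply r).comap_le
  have hi : iIndep m D.ν := by
    refine (iIndep_iff _ _).2 fun s f hf => ?_
    by_cases h0 : c' ∈ s ∧ f c' = ∅
    · rw [Finset.prod_eq_zero h0.1 (by rw [h0.2, measure_empty])]
      refine measure_mono_null (biInter_subset_of_mem h0.1) ?_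
      rw [h0.2, measure_empty]
    have hB : ∀ i, ∃ B : Set X, MeasurableSet B ∧ (i ∈ s → f i = (fun y => y i) ⁻¹' B) ∧
        (i ∉ s → B = univ) ∧ (i = c' → B = univ) := fun i => by
      by_cases his : i ∈ s
      · by_cases hr : i = c'
        · have h1 := hf i his
          rw [show m i = ⊥ from if_pos hr] at h1
          rcases MeasurableSpace.measurableSet_bot_iff.1 h1 with h2 | h2
          · exact absurd ⟨hr ▸ his, hr ▸ h2⟩ h0
          · exact ⟨univ, .univ, fun _ => h2, fun _ => rfl, fun _ => rfl⟩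
        · have h1 := hf i his
          rw [show m i = MeasurableSpace.comap (fun y => y i) inferInstance from if_neg hr] at h1
          obtain ⟨B, h2, h3⟩ := h1
          exact ⟨B, h2, fun _ => h3.symm, fun h4 => absurd his h4, fun h4 => absurd h4 hr⟩
      · exact ⟨univ, .univ, fun h4 => absurd h4 his, fun _ => rfl, fun _ => rfl⟩
    choose B hB1 hB2 hB3 hB4 using hB
    have e1 : ⋂ i ∈ s, f i = Set.pi univ B := by
      ext y
      simp only [mem_iInter, mem_univ_pi]
      refine ⟨fun h1 i => ?_, fun h1 i his => ?_⟩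
      · by_cases his : i ∈ s
        · have h2 := h1 i his
          rwa [hB2 i his] at h2
        · rw [hB3 i his]
          exact mem_univ _
      · rw [hB2 i his]
        exact h1 i
    have e2 := tendsto_nhds_unique (D.tendsto_real B hB1) (h c' B hB1 (hB4 c' rfl))
    have e3 : D.ν (Set.pi univ B) = ∏ i, (D.μ : Measure X) (B i) := by
      rw [← ofReal_measureReal (μ := D.ν) (s := Set.pi univ B), e2,
        ENNReal.ofReal_prod_of_nonneg fun _ _ => measureReal_nonneg]
      exact Finset.prod_congr rfl fun i _ => ofReal_measureReal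
    rw [e1, e3, ← Finset.prod_subset (Finset.subset_univ s) fun i _ his => by
      rw [hB3 i his, measure_univ]]
    exact Finset.prod_congr rfl fun i his => by rw [hB2 i his, D.red2_eval i (hB1 i)]
  have key : ∀ R : Set (Fin k), c' ∉ R → cyl X R ≤ ⨆ i ∈ R, m i := fun R hR =>
    iSup₂_mono fun i hi => by
      have hr : i ≠ c' := fun e => hR (e ▸ hi)
      simp only [m, if_neg hr]
      exact le_rfl
  refine indep_of_indep_of_le (indep_iSup_of_disjoint hle hi (S := {c}) (T := {c, c'}ᶜ) ?_)
    (key _ fun e => hc (mem_singleton_iff.1 e).symm) (key _ fun e => e (Or.inr rfl))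
  exact disjoint_singleton_left.2 fun e => e (Or.inl rfl)

theorem red2_zero (hM : D.Mix) {f : Fin k → X → ℂ} (hf : ∀ i, Measurable (f i))
    (h0 : ∀ i, ∫ x, f i x ∂(D.μ : Measure X) = 0) {S : Finset (Fin k)} (h1 : S ≠ ∅)
    (h2 : S ≠ Finset.univ) : ∫ y, ∏ i ∈ S, f i (y i) ∂D.ν = 0 := by
  obtain ⟨a, ha⟩ := Finset.nonempty_iff_ne_empty.2 h1
  obtain ⟨b, hb⟩ : ∃ b, b ∉ S := not_forall.1 fun h => h2 (Finset.eq_univ_iff_forall.2 h)
  have hab : a ≠ b := fun e => hb (e ▸ ha)
  have m1 : Measurable[cyl X {a}] fun y : Fin k → X => f a (y a) :=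
    (hf a).comp (measurable_cylinderEvent_apply (X := fun _ : Fin k => X) (mem_singleton a))
  have m2 := red2_meas (S.erase a) (R := {a, b}ᶜ) (fun i hi e => by
    rcases e with e | e
    · exact Finset.ne_of_mem_erase hi e
    · exact hb (mem_singleton_iff.1 e ▸ Finset.mem_of_mem_erase hi)) hf
  simp_rw [← Finset.mul_prod_erase S _ ha]
  rw [integral_mul_indep (cyl_le _) (cyl_le _) (hM a b hab)
    m1.stronglyMeasurable.aestronglyMeasurable m2.stronglyMeasurable.aestronglyMeasurable,
    D.red2_int a (hf a), h0, zero_mul]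

theorem red2_ne (hM : D.Mix) (A : Fin k → Set X) (hA : ∀ i, MeasurableSet (A i))
    (h : ¬ Tendsto (fun n => (D.μ : Measure X).real (⋂ i, D.T (D.t n i) ⁻¹' A i)) D.𝔭
      (𝓝 (∏ i, (D.μ : Measure X).real (A i)))) {f : Fin k → X → ℂ}
    (e : ∀ i x, f i x = ind (A i) x - ((D.μ : Measure X).real (A i) : ℂ))
    (hf : ∀ i, Measurable (f i)) (h1 : ∀ i x, ‖f i x‖ ≤ 1)
    (h0 : ∀ i, ∫ x, f i x ∂(D.μ : Measure X) = 0) : ∫ y, ∏ i, f i (y i) ∂D.ν ≠ 0 := by
  intro hz
  have hI : ∀ S : Finset (Fin k), Integrable (fun y : Fin k → X => ∏ i ∈ S, f i (y i)) D.ν :=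
    fun S => Integrable.of_bound (Finset.measurable_prod _ fun i _ =>
      (hf i).comp (measurable_pi_apply i)).aestronglyMeasurable 1
      (.of_forall fun y => red2_prod_le _ fun i => h1 i _)
  have e1 : ∀ y : Fin k → X, ind (Set.pi univ A) y = ∑ S ∈ Finset.univ.powerset,
      (∏ i ∈ S, f i (y i)) * ∏ i ∈ Finset.univ \ S, ((D.μ : Measure X).real (A i) : ℂ) :=
    fun y => by
      rw [← Finset.prod_add, ← red2_box]
      exact Finset.prod_congr rfl fun i _ => by rw [e, sub_add_cancel]
  have e2 : (D.ν.real (Set.pi univ A) : ℂ) = ∏ i, ((D.μ : Measure X).real (A i) : ℂ) := by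
    rw [← integral_ind (MeasurableSet.univ_pi hA)]
    simp_rw [e1]
    rw [integral_finsetSum _ fun S _ => (hI S).mul_const _]
    simp_rw [integral_mul_const]
    rw [Finset.sum_eq_single_of_mem ∅ (Finset.empty_mem_powerset _) fun S _ hS => ?_]
    · simp
    · by_cases h2 : S = Finset.univ
      · rw [h2, hz, zero_mul]
      · rw [D.red2_zero hM hf h0 hS h2, zero_mul]
  rw [← Complex.ofReal_prod, Complex.ofReal_inj] at e2
  exact h (e2 ▸ D.tendsto_real A hA)

theorem exists_f (hM : D.Mix) {i0 iB : Fin k} (n0B : i0 ≠ iB) (A : Fin k → Set X)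
    (hA : ∀ i, IsClopen (A i))
    (h : ¬ Tendsto (fun n => (D.μ : Measure X).real (⋂ i, D.T (D.t n i) ⁻¹' A i)) D.𝔭
      (𝓝 (∏ i, (D.μ : Measure X).real (A i)))) :
    ∃ f : Fin k → X → ℂ, (∀ r, r ≠ iB → Continuous (f r)) ∧ (∀ r x, ‖f r x‖ ≤ 1) ∧
      Measurable (f iB) ∧ ∫ x, f i0 x ∂(D.μ : Measure X) = 0 ∧
      D.ν[fun y => ∏ r ∈ Finset.univ.erase iB, f r (y r) - f iB (y iB) | cyl X {iB}] =ᵐ[D.ν] 0 ∧
      ∫ y, ∏ i, f i (y i) ∂D.ν ≠ 0 := by
  obtain ⟨f, e⟩ : ∃ f : Fin k → X → ℂ,
      ∀ i x, f i x = ind (A i) x - ((D.μ : Measure X).real (A i) : ℂ) := ⟨_, fun _ _ => rfl⟩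
  have hA' : ∀ i, MeasurableSet (A i) := fun i => (hA i).isClosed.measurableSet
  have hc : ∀ i, Continuous (f i) := fun i => by
    rw [funext (e i)]
    exact ((hA i).continuous_indicator continuous_const).sub continuous_const
  have hf : ∀ i, Measurable (f i) := fun i => (hc i).measurable
  have h1 : ∀ i x, ‖f i x‖ ≤ 1 := fun i x => by
    rw [e]
    exact red2_norm _ measureReal_nonneg measureReal_le_one x
  have h0 : ∀ i, ∫ x, f i x ∂(D.μ : Measure X) = 0 := fun i => by
    simp_rw [e]
    rw [integral_sub ((BM.ind (hA' i)).integrable le_rfl) (integrable_const _),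
      integral_ind (hA' i)]
    simp
  have hne := D.red2_ne hM A hA' h e hf h1 h0
  have hle : cyl X {iB} ≤ MeasurableSpace.pi := cyl_le _
  obtain ⟨F, hF⟩ : ∃ F : (Fin k → X) → ℂ,
      F = fun y => ∏ r ∈ Finset.univ.erase iB, f r (y r) := ⟨_, rfl⟩
  have hF1 : ∀ y, ‖F y‖ ≤ 1 := fun y => by
    rw [hF]
    exact red2_prod_le _ fun i => h1 i _
  have bF : BM D.ν MeasurableSpace.pi F := BM.of_le (by
    rw [hF]
    exact Finset.measurable_prod _ fun i _ => (hf i).comp (measurable_pi_apply i)) hF1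
  have iF := bF.integrable le_rfl
  have sF : star F = F := by
    funext y
    rw [hF, Pi.star_apply, star_prod]
    refine Finset.prod_congr rfl fun i _ => ?_
    rw [e, star_sub, ← Pi.star_apply, star_ind, RCLike.star_def, Complex.conj_ofReal]
  have sG : D.ν[F | cyl X {iB}] =ᵐ[D.ν] star (D.ν[F | cyl X {iB}]) := by
    have h2 := condExp_star (μ := D.ν) (m := cyl X {iB}) F
    rwa [sF] at h2
  have hG : StronglyMeasurable[MeasurableSpace.comap (fun y : Fin k → X => y iB) inferInstance]
      (D.ν[F | cyl X {iB}]) := by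
    rw [← cyl_singleton]
    exact stronglyMeasurable_condExp
  obtain ⟨g, hg, eg⟩ := hG.exists_eq_measurable_comp
  have hg' : Measurable fun x => joinR (g x) := joinR_cont.measurable.comp hg.measurable
  have ev : Measurable[cyl X {iB}] fun y : Fin k → X => y iB :=
    measurable_cylinderEvent_apply (X := fun _ : Fin k => X) (mem_singleton iB)
  have bg : BM D.ν (cyl X {iB}) fun y => joinR (g (y iB)) :=
    BM.of_le (hg'.comp ev) fun _ => joinR_le _
  have e1 : (fun y => joinR (g (y iB))) =ᵐ[D.ν] D.ν[F | cyl X {iB}] := by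
    filter_upwards [norm_condExp_le_of_bound (μ := D.ν) zero_le_one (.of_forall hF1)
      (cyl X {iB})] with y hy
    have h2 := joinR_sub hy ((D.ν[F | cyl X {iB}]) y)
    rw [sub_self, norm_zero, mul_zero, norm_le_zero_iff, sub_eq_zero] at h2
    rw [h2, eg]
    rfl
  have e2 : ∀ y : Fin k → X, ∏ r ∈ Finset.univ.erase iB,
      Function.update f iB (fun x => joinR (g x)) r (y r) = F y := fun y => by
    rw [hF]
    exact Finset.prod_congr rfl fun r hr => by
      rw [Function.update_of_ne (Finset.ne_of_mem_erase hr)]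
  refine ⟨Function.update f iB fun x => joinR (g x), fun r hr => ?_, fun r x => ?_, ?_, ?_, ?_,
    fun hz => hne ?_⟩
  · rw [Function.update_of_ne hr]
    exact hc r
  · by_cases hr : r = iB
    · rw [hr, Function.update_self]
      exact joinR_le _
    · rw [Function.update_of_ne hr]
      exact h1 r x
  · rw [Function.update_self]
    exact hg'
  · rw [Function.update_of_ne n0B]
    exact h0 i0
  · simp only [e2, Function.update_self]
    filter_upwards [condExp_sub iF (bg.integrable hle) (cyl X {iB}),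
      condExp_of_aestronglyMeasurable' hle bg.1 (bg.integrable hle), e1] with y h2 h3 h4
    refine h2.trans ?_
    rw [Pi.sub_apply, h3, h4, sub_self, Pi.zero_apply]
  · simp only [← Finset.mul_prod_erase _ _ (Finset.mem_univ iB), e2, Function.update_self] at hz
    rw [← integral_mul_condExp hle bg.1 (bg.mul_integrable hle iF) iF] at hz
    have e3 : ∫ y, ((‖(D.ν[F | cyl X {iB}]) y‖ ^ 2 : ℝ) : ℂ) ∂D.ν = 0 := by
      refine (integral_congr_ae ?_).trans hz
      filter_upwards [e1, sG] with y h2 h3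
      rw [h2, Complex.ofReal_pow, ← Complex.conj_mul']
      exact congrArg (· * _) h3.symm
    rw [integral_complex_ofReal, Complex.ofReal_eq_zero, integral_eq_zero_iff_of_nonneg
      (fun _ => sq_nonneg _) ((bF.condExp _).memLp hle 2).norm.integrable_sq] at e3
    have bB : BM D.ν (cyl X {iB}) fun y => f iB (y iB) :=
      BM.of_le ((hf iB).comp ev) fun _ => h1 _ _
    have e4 : ∀ y : Fin k → X, ∏ i, f i (y i) = f iB (y iB) * F y := fun y => by
      rw [hF, Finset.mul_prod_erase _ (fun i => f i (y i)) (Finset.mem_univ iB)]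
    simp_rw [e4]
    rw [← integral_mul_condExp hle bB.1 (bB.mul_integrable hle iF) iF]
    refine integral_eq_zero_of_ae ?_
    filter_upwards [e3] with y hy
    rw [Pi.zero_apply, sq_eq_zero_iff, norm_eq_zero] at hy
    rw [hy, mul_zero, Pi.zero_apply]

end Dyn

end Vale.Agent.P102
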