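import Vale.Agent.P102.Inst
import Vale.Agent.P102.Red1
import Vale.Agent.P102.Red2
import Vale.Agent.P102.Levels

/-! P102, file Final: mixing implies mixing of all orders. -/

open MeasureTheory ProbabilityTheory Filter Topology Set
open scoped ComplexConjugate ENNReal InnerProductSpace

namespace Vale.Agent.P102

theorem mix_fun {X : Type*} [MeasurableSpace X] (μ : Measure X) [IsProbabilityMeasure μ]
    {T : ℤ → X → X} (hT : ∀ d, Measurable (T d)) (hp : ∀ d, μ.map (T d) = μ)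
    (h : ∀ A B, MeasurableSet A → MeasurableSet B →
      Tendsto (fun d : ℤ => μ.real (A ∩ T d ⁻¹' B)) atTop (𝓝 (μ.real A * μ.real B)))
    (φ ψ : X → ℂ) (hφ : Measurable φ) (hψ : Measurable ψ) (h1 : ∀ x, ‖φ x‖ ≤ 1)
    (h2 : ∀ x, ‖ψ x‖ ≤ 1) :
    Tendsto (fun n : ℤ => ∫ x, φ (T n x) * ψ x ∂μ) atTop (𝓝 ((∫ x, φ x ∂μ) * ∫ x, ψ x ∂μ)) := by
  have := tendsto_prod_of_sets (ι := Fin 2) μ (l := (atTop : Filter ℤ)) (fun n => ![T n, id])
    (fun n i => by fin_cases i; exacts [hT n, measurable_id])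
    (fun n i => by fin_cases i; exacts [hp n, Measure.map_id])
    (fun A hA => by
      have e : ∀ n : ℤ, (⋂ i : Fin 2, (![T n, id] : Fin 2 → X → X) i ⁻¹' A i) =
          A 1 ∩ T n ⁻¹' A 0 := fun n => by
        ext x; simp [Fin.forall_fin_two, and_comm]
      simp only [e, Fin.prod_univ_two]
      rw [mul_comm]
      exact h _ _ (hA 1) (hA 0))
    ![φ, ψ] (fun i => by fin_cases i; exacts [hφ, hψ])
    (fun i => by fin_cases i; exacts [h1, h2])
  simpa [Fin.prod_univ_two] using this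

theorem order_succ {Ω : Type*} [MeasurableSpace Ω] {μ : Measure Ω} [IsProbabilityMeasure μ]
    {T : Ω ≃ᵐ Ω} (hT : MeasurePreserving T μ μ) (h : Mixing μ T) {n : ℕ} (hn : 2 ≤ n)
    (h1 : MixingOfOrder μ T n) : MixingOfOrder μ T (n + 1) := by
  by_contra h2
  obtain ⟨D, hg, hm, hs, A, hA, hne⟩ := exists_dyn hT h h1 h2
  have hM := D.mix_of_sets hs
  let i0 : Fin (n + 1) := ⟨0, by omega⟩
  let iB : Fin (n + 1) := ⟨1, by omega⟩
  let i2 : Fin (n + 1) := ⟨2, by omega⟩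
  have n0B : i0 ≠ iB := by simp [i0, iB]
  have n20 : i2 ≠ i0 := by simp [i0, i2]
  have n2B : i2 ≠ iB := by simp [iB, i2]
  obtain ⟨f, hf, hf1, hh, hf0, hν, hτ⟩ := D.exists_f hM n0B A hA hne
  obtain ⟨U, _, _, ⟨L⟩⟩ := exists_lev (k := n + 1) (by omega) iB
  exact D.impossible n0B n20 n2B hM hg
    (mix_fun _ (fun d => (D.cont d).measurable) D.pres hm) hf hf1 hh hf0 hν hτ L

theorem rokhlin {Ω : Type*} [MeasurableSpace Ω] (μ : Measure Ω) [IsProbabilityMeasure μ]
    (T : Ω ≃ᵐ Ω) (hT : MeasurePreserving T μ μ) (h : Mixing μ T) (k : ℕ) (hk : 2 ≤ k) :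
    MixingOfOrder μ T k := by
  induction k, hk using Nat.le_induction with
  | base => exact order_two hT h
  | succ n hn ih => exact order_succ hT h hn ih

end Vale.Agent.P102
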