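import Vale.Agent.P102.Prod

/-! P102, file Gap: characters.

PLAN. `gap`: let `α, β, γ` be the moduli of `∫ a, ∫ c, ∫ w`. Pointwise `‖a - c w‖ = ‖c - a conj w‖
= ‖w - a conj c‖`, and `integral_mul_indep` gives `|α - β γ| ≤ δ`, `|β - α γ| ≤ δ`,
`|γ - α β| ≤ δ`, all in `[0, 1]`. So `β ≥ α - δ` and `β (1 - α²) ≤ 2 δ`.
`triv_of_norm_integral`: `θ := ∫ a` has norm 1 and `∫ (1 - re (conj θ * a)) = 0` with nonnegative
integrand. `exists_phase`: `‖a - θ‖² = 2 - 2 re (conj θ * a)`, and `(∫ ‖a - θ‖)² ≤ ∫ ‖a - θ‖²`.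
`Ch.dich`: let `δ → 0` in `gap`. `dich3`: `gap` with `δ = 0` for `a₀ = conj a₁ * conj a₂`, plus
the three equations `α = β γ`, `β = α γ`, `γ = α β`. -/

open MeasureTheory ProbabilityTheory Filter Topology Set
open scoped ComplexConjugate ENNReal InnerProductSpace

namespace Vale.Agent.P102

variable {Ω : Type*} {A C D m m0 : MeasurableSpace Ω} {B : Fin 3 → MeasurableSpace Ω}
  {ρ : Measure Ω} [IsProbabilityMeasure ρ] {a a' c w : Ω → ℂ}

private theorem uni_int (ha : Uni m a) (hm : m ≤ m0) : Integrable a ρ :=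
  (integrable_const (1 : ℝ)).mono' (ha.1.mono hm le_rfl).aestronglyMeasurable
    (Eventually.of_forall fun ω => (ha.2 ω).le)

private theorem uni_dist (ha : Uni A a) (hA : A ≤ m0) (hc : Uni C c) (hC : C ≤ m0) :
    Integrable (fun ω => ‖a ω - c ω‖) ρ :=
  ((uni_int ha hA).sub (uni_int hc hC)).norm

private theorem uni_norm_le (ha : Uni m a) : ‖∫ ω, a ω ∂ρ‖ ≤ 1 := by
  simpa using norm_integral_le_of_norm_le_const (μ := ρ) (Eventually.of_forall fun ω => (ha.2 ω).le)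

private theorem norm_int_star (ρ : Measure Ω) (a : Ω → ℂ) :
    ‖∫ ω, star a ω ∂ρ‖ = ‖∫ ω, a ω ∂ρ‖ := by
  simp only [Pi.star_apply, RCLike.star_def, integral_conj, RCLike.norm_conj]

private theorem norm_swap {x y z : ℂ} (hz : ‖z‖ = 1) : ‖y - x * conj z‖ = ‖x - y * z‖ := by
  have h : conj z * z = 1 := by rw [Complex.conj_mul', hz]; simp
  rw [← mul_one ‖y - x * conj z‖, ← hz, ← norm_mul, sub_mul, mul_assoc, h, mul_one, norm_sub_rev]

private theorem gap_one (hA : A ≤ m0) (hC : C ≤ m0) (hD : D ≤ m0) (hCD : Indep C D ρ)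
    (ha : Uni A a) (hc : Uni C c) (hw : Uni D w) :
    ‖∫ ω, a ω ∂ρ‖ ≤ ‖∫ ω, c ω ∂ρ‖ * ‖∫ ω, w ω ∂ρ‖ + ∫ ω, ‖a ω - c ω * w ω‖ ∂ρ := by
  rw [← norm_mul, ← integral_mul_indep hC hD hCD hc.1.stronglyMeasurable.aestronglyMeasurable
    hw.1.stronglyMeasurable.aestronglyMeasurable]
  refine (norm_le_norm_add_norm_sub' _ _).trans (add_le_add le_rfl ?_)
  rw [← integral_sub (g := fun ω => c ω * w ω) (uni_int ha hA)
    (uni_int ((hc.mono hC).mul (hw.mono hD)) le_rfl)]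
  exact norm_integral_le_integral_norm _

private theorem triv_phase (ha : Uni m a) (ha' : Uni m a') (h : Triv ρ (a * Star.star a')) :
    ∃ θ : ℂ, ‖θ‖ = 1 ∧ ∀ᵐ ω ∂ρ, a ω = θ * a' ω := by
  obtain ⟨θ, h⟩ := h
  obtain ⟨ω, hω⟩ := h.exists
  refine ⟨θ, (congrArg norm hω).symm.trans ((ha.mul ha'.star).2 ω), h.mono fun ω hω => ?_⟩
  have h1 := congrFun ha'.star_mul_self ω
  simp only [Pi.mul_apply, Pi.one_apply] at h1 hω
  rw [← hω, mul_assoc, h1, mul_one]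

private theorem norm_mul_sub_mul {x y x' y' : ℂ} (hy : ‖y‖ = 1) (hx' : ‖x'‖ = 1) :
    ‖x * y - x' * y'‖ ≤ ‖x - x'‖ + ‖y - y'‖ := by
  rw [show x * y - x' * y' = (x - x') * y + x' * (y - y') by ring]
  refine (norm_add_le _ _).trans_eq ?_
  rw [norm_mul, norm_mul, hy, hx', mul_one, one_mul]

private theorem eq_zero_or_one {α : ℝ} (h0 : 0 ≤ α) (h1 : α ≤ 1) (h : α * (1 - α ^ 2) ≤ 0) :
    α = 0 ∨ α = 1 := by
  rcases h0.eq_or_lt with e | e
  · exact Or.inl e.symm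
  · have h2 : 1 - α ^ 2 ≤ 0 := nonpos_of_mul_nonpos_right h e
    exact Or.inr (le_antisymm h1 (by nlinarith))

theorem gap (hA : A ≤ m0) (hC : C ≤ m0) (hD : D ≤ m0) (hAC : Indep A C ρ) (hAD : Indep A D ρ)
    (hCD : Indep C D ρ) (ha : Uni A a) (hc : Uni C c) (hw : Uni D w) {δ : ℝ}
    (h : ∫ ω, ‖a ω - c ω * w ω‖ ∂ρ ≤ δ) :
    (‖∫ ω, a ω ∂ρ‖ - δ) * (1 - ‖∫ ω, a ω ∂ρ‖ ^ 2) ≤ 2 * δ := by
  have h1 := gap_one hA hC hD hCD ha hc hw
  have h2 := gap_one hC hA hD hAD hc ha hw.star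
  have h3 := gap_one hD hA hC hAC hw ha hc.star
  rw [norm_int_star] at h2 h3
  simp only [Pi.star_apply, RCLike.star_def, norm_swap (hw.2 _), norm_swap (hc.2 _),
    mul_comm (w _)] at h2 h3
  have ha1 := uni_norm_le (ρ := ρ) ha
  have hw1 := uni_norm_le (ρ := ρ) hw
  have h0 : 0 ≤ δ := (integral_nonneg fun _ => norm_nonneg _).trans h
  generalize ∫ ω, ‖a ω - c ω * w ω‖ ∂ρ = η at *
  have hα := norm_nonneg (∫ ω, a ω ∂ρ)
  have hβ := norm_nonneg (∫ ω, c ω ∂ρ)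
  generalize ‖∫ ω, a ω ∂ρ‖ = α at *
  generalize ‖∫ ω, c ω ∂ρ‖ = β at *
  generalize ‖∫ ω, w ω ∂ρ‖ = γ at *
  have h4 : α - δ ≤ β := by nlinarith
  have h5 : α * γ ≤ α * (α * β + δ) := mul_le_mul_of_nonneg_left (by linarith) hα
  have h6 : 0 ≤ 1 - α ^ 2 := by nlinarith
  nlinarith [mul_le_mul_of_nonneg_right h4 h6, mul_le_of_le_one_left h0 ha1]


private theorem phase_aux (hm : m ≤ m0) (ha : Uni m a) {ε : ℝ} (h : 1 - ε ≤ ‖∫ ω, a ω ∂ρ‖) :
    ∃ θ : ℂ, ‖θ‖ = 1 ∧ ∫ ω, ‖a ω - θ‖ ∂ρ ≤ √(2 * ε) := by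
  obtain ⟨z, hz, e⟩ := Complex.exists_norm_eq_mul_self (∫ ω, a ω ∂ρ)
  have hθ : Uni m fun _ => conj z := ⟨measurable_const, fun _ => (RCLike.norm_conj z).trans hz⟩
  refine ⟨conj z, hθ.2 (Classical.choice (nonempty_of_isProbabilityMeasure ρ)),
    Real.le_sqrt_of_sq_le ?_⟩
  have h1 : ∀ ω, ‖a ω - conj z‖ ^ 2 = 2 - 2 * (z * a ω).re := fun ω => by
    rw [← Complex.normSq_eq_norm_sq, Complex.normSq_sub, Complex.normSq_eq_norm_sq,
      Complex.normSq_eq_norm_sq, ha.2 ω, hθ.2 ω, Complex.conj_conj, mul_comm z]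
    norm_num
  have h2 : MemLp (fun ω => ‖a ω - conj z‖) 2 ρ :=
    MemLp.of_bound (uni_dist ha hm hθ hm).1 2 (Eventually.of_forall fun ω => by
      rw [norm_norm]
      refine (norm_sub_le _ _).trans_eq ?_
      rw [ha.2 ω, hθ.2 ω, one_add_one_eq_two])
  have h3 := variance_nonneg (fun ω => ‖a ω - conj z‖) ρ
  have h4 := (uni_int (ρ := ρ) ha hm).const_mul z
  rw [variance_eq_sub h2] at h3
  simp only [Pi.pow_apply, h1] at h3
  rw [integral_sub (g := fun ω => 2 * (z * a ω).re) (integrable_const _) (h4.re.const_mul 2),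
    integral_const_mul] at h3
  have h5 : ∫ ω, (z * a ω).re ∂ρ = ‖∫ ω, a ω ∂ρ‖ := by
    refine (integral_re h4).trans ?_
    rw [integral_const_mul, ← e]
    exact Complex.ofReal_re _
  simp only [h5, integral_const, probReal_univ, one_smul] at h3
  linarith

theorem triv_of_norm_integral (hm : m ≤ m0) (ha : Uni m a) (h : ‖∫ ω, a ω ∂ρ‖ = 1) : Triv ρ a := by
  obtain ⟨θ, hθ, h1⟩ := phase_aux (ρ := ρ) (ε := 0) hm ha (by rw [h, sub_zero])
  rw [mul_zero, Real.sqrt_zero] at h1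
  have h2 := (integral_eq_zero_iff_of_nonneg (fun _ => norm_nonneg _)
    ((uni_int ha hm).sub (integrable_const θ)).norm).1
      (le_antisymm h1 (integral_nonneg fun _ => norm_nonneg _))
  exact ⟨θ, h2.mono fun ω hω => sub_eq_zero.1 (norm_eq_zero.1 hω)⟩


theorem norm_integral_of_triv (ha : Uni m a) (h : Triv ρ a) : ‖∫ ω, a ω ∂ρ‖ = 1 := by
  obtain ⟨θ, h⟩ := h
  obtain ⟨ω, hω⟩ := h.exists
  rw [integral_congr_ae h, integral_const, probReal_univ, one_smul]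
  exact (congrArg norm hω).symm.trans (ha.2 ω)


theorem exists_phase (hm : m ≤ m0) (ha : Uni m a) {ε : ℝ} (h : 1 - ε ≤ ‖∫ ω, a ω ∂ρ‖) :
    ∃ θ : ℂ, ‖θ‖ = 1 ∧ ∫ ω, ‖a ω - θ‖ ∂ρ ≤ √(2 * ε) := by
  exact phase_aux hm ha h


/-- Three pairwise independent unimodular functions with product one. -/
theorem dich3 (hA : A ≤ m0) (hC : C ≤ m0) (hD : D ≤ m0) (hAC : Indep A C ρ) (hAD : Indep A D ρ)
    (hCD : Indep C D ρ) (ha : Uni A a) (hc : Uni C c) (hw : Uni D w) (h : a * c * w =ᵐ[ρ] 1) :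
    ∫ ω, a ω ∂ρ = 0 ∨ (Triv ρ a ∧ Triv ρ c ∧ Triv ρ w) := by
  have h0 : ∫ ω, ‖a ω - star c ω * star w ω‖ ∂ρ = 0 := by
    refine integral_eq_zero_of_ae (h.mono fun ω hω => ?_)
    have h1 := congrFun hc.star_mul_self ω
    have h2 := congrFun hw.star_mul_self ω
    simp only [Pi.mul_apply, Pi.one_apply] at h1 h2 hω
    rw [Pi.zero_apply, norm_eq_zero]
    linear_combination (star c ω * star w ω) * hω - a ω * (star w ω * w ω) * h1 - a ω * h2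
  have h1 := gap hA hC hD hAC hAD hCD ha hc.star hw.star h0.le
  rw [sub_zero, mul_zero] at h1
  rcases eq_zero_or_one (norm_nonneg _) (uni_norm_le ha) h1 with e | e
  · exact Or.inl (norm_eq_zero.1 e)
  have h2 := gap_one hA hC hD hCD ha hc.star hw.star
  rw [h0, add_zero, norm_int_star, norm_int_star, e] at h2
  have hc1 := uni_norm_le (ρ := ρ) hc
  have hw1 := uni_norm_le (ρ := ρ) hw
  exact Or.inr ⟨triv_of_norm_integral hA ha e, triv_of_norm_integral hC hc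
    (le_antisymm hc1 (h2.trans (mul_le_of_le_one_right (norm_nonneg _) hw1))),
    triv_of_norm_integral hD hw
    (le_antisymm hw1 (h2.trans (mul_le_of_le_one_left (norm_nonneg _) hc1)))⟩


theorem Ch.dich (hB : ∀ j, B j ≤ m0) (hG : Good B ρ) (ha : Uni (B 0) a) (h : Ch B ρ a) :
    ∫ ω, a ω ∂ρ = 0 ∨ Triv ρ a := by
  have h1 : ‖∫ ω, a ω ∂ρ‖ * (1 - ‖∫ ω, a ω ∂ρ‖ ^ 2) ≤ 0 := by
    refine le_of_forall_pos_le_add fun ε hε => ?_
    obtain ⟨c, w, hc, hw, h2⟩ := h (ε / 3) (by positivity)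
    have h3 := gap (hB 0) (hB 1) (hB 2) hG.1 hG.2.1 hG.2.2 ha hc hw h2.le
    nlinarith [mul_nonneg hε.le (sq_nonneg ‖∫ ω, a ω ∂ρ‖)]
  exact (eq_zero_or_one (norm_nonneg _) (uni_norm_le ha) h1).imp norm_eq_zero.1
    (triv_of_norm_integral (hB 0) ha)


theorem Ch.one : Ch B ρ 1 := by
  exact fun ε hε => ⟨1, 1, Uni.one _, Uni.one _, by simpa using hε⟩


theorem Ch.mul (hB : ∀ j, B j ≤ m0) (ha : Uni (B 0) a) (ha' : Uni (B 0) a') (h : Ch B ρ a)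
    (h' : Ch B ρ a') : Ch B ρ (a * a') := by
  intro ε hε
  obtain ⟨c, w, hc, hw, h1⟩ := h (ε / 2) (half_pos hε)
  obtain ⟨c', w', hc', hw', h2⟩ := h' (ε / 2) (half_pos hε)
  have u := (hc.mono (hB 1)).mul (hw.mono (hB 2))
  have u' := (hc'.mono (hB 1)).mul (hw'.mono (hB 2))
  have i1 := uni_dist (ρ := ρ) ha (hB 0) u le_rfl
  have i2 := uni_dist (ρ := ρ) ha' (hB 0) u' le_rfl
  refine ⟨c * c', w * w', hc.mul hc', hw.mul hw', ?_⟩
  refine lt_of_le_of_lt (integral_mono_of_nonneg (Eventually.of_forall fun _ => norm_nonneg _)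
    (i1.add i2) (Eventually.of_forall fun ω => ?_)) ?_
  · simp only [Pi.mul_apply, Pi.add_apply]
    rw [mul_mul_mul_comm]
    exact norm_mul_sub_mul (ha'.2 ω) (u.2 ω)
  · rw [integral_add' i1 i2, ← add_halves ε]
    exact add_lt_add h1 h2


theorem Ch.prod {ι : Type*} (hB : ∀ j, B j ≤ m0) (S : Finset ι) {b : ι → Ω → ℂ}
    (hb : ∀ i ∈ S, Uni (B 0) (b i)) (h : ∀ i ∈ S, Ch B ρ (b i)) : Ch B ρ (∏ i ∈ S, b i) := by
  exact (Finset.prod_induction b (fun x => Uni (B 0) x ∧ Ch B ρ x)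
    (fun _ _ h1 h2 => ⟨h1.1.mul h2.1, Ch.mul hB h1.1 h2.1 h1.2 h2.2⟩) ⟨Uni.one _, Ch.one⟩
    fun i hi => ⟨hb i hi, h i hi⟩).2


theorem Ch.star (h : Ch B ρ a) : Ch B ρ (star a) := by
  intro ε hε
  obtain ⟨c, w, hc, hw, h1⟩ := h ε hε
  refine ⟨_, _, hc.star, hw.star, ?_⟩
  simpa only [Pi.star_apply, RCLike.star_def, ← map_mul, ← map_sub, RCLike.norm_conj] using h1


theorem Ch.of_ae (hc : Uni (B 1) c) (hw : Uni (B 2) w) (h : a =ᵐ[ρ] c * w) : Ch B ρ a := by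
  refine fun ε hε => ⟨c, w, hc, hw, ?_⟩
  rwa [integral_eq_zero_of_ae (h.mono fun ω hω => ?_)]
  rw [hω, Pi.mul_apply, sub_self, norm_zero, Pi.zero_apply]


theorem Ch.of_triv (ha : Uni (B 0) a) (ha' : Uni (B 0) a') (h' : Ch B ρ a')
    (h : Triv ρ (a * Star.star a')) : Ch B ρ a := by
  obtain ⟨θ, hθ, h1⟩ := triv_phase ha ha' h
  intro ε hε
  obtain ⟨c, w, hc, hw, h2⟩ := h' ε hε
  refine ⟨(fun _ => θ) * c, w, Uni.mul ⟨measurable_const, fun _ => hθ⟩ hc, hw,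
    (integral_congr_ae (h1.mono fun ω hω => ?_)).trans_lt h2⟩
  simp only [hω, Pi.mul_apply, mul_assoc, ← mul_sub, norm_mul, hθ, one_mul]


/-- Two characters are orthogonal or proportional. -/
theorem Ch.dich₂ (hB : ∀ j, B j ≤ m0) (hG : Good B ρ) (ha : Uni (B 0) a) (ha' : Uni (B 0) a')
    (h : Ch B ρ a) (h' : Ch B ρ a') :
    ∫ ω, a ω * conj (a' ω) ∂ρ = 0 ∨ Triv ρ (a * Star.star a') := by
  exact Ch.dich hB hG (ha.mul ha'.star) (Ch.mul hB ha ha'.star h h'.star)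


/-- Two characters at distance `< 1` are proportional. -/
theorem Ch.triv_of_close (hB : ∀ j, B j ≤ m0) (hG : Good B ρ) (ha : Uni (B 0) a)
    (ha' : Uni (B 0) a') (h : Ch B ρ a) (h' : Ch B ρ a') (hd : ∫ ω, ‖a ω - a' ω‖ ∂ρ < 1) :
    Triv ρ (a * Star.star a') := by
  refine (Ch.dich₂ hB hG ha ha' h h').resolve_left fun e => hd.not_ge ?_
  have h1 := norm_integral_le_integral_norm (μ := ρ) fun ω => 1 - a ω * conj (a' ω)
  rw [integral_sub (g := fun ω => a ω * conj (a' ω)) (integrable_const _)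
    (uni_int (ha.mul ha'.star) (hB 0)), e] at h1
  simpa only [norm_swap (ha'.2 _), one_mul, integral_const, probReal_univ, one_smul, sub_zero,
    norm_one] using h1


theorem Ch.comp {Ω' : Type*} {mΩ' : MeasurableSpace Ω'} {B' : Fin 3 → MeasurableSpace Ω'}
    {ρ' : Measure Ω'} {Θ : Ω' → Ω} (hB : ∀ j, B j ≤ m0) (hΘ : Measurable Θ)
    (hΘB : ∀ j, Measurable[B' j, B j] Θ) (ha : Uni (B 0) a) (h : Ch B (ρ'.map Θ) a) :
    Ch B' ρ' (a ∘ Θ) := by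
  intro ε hε
  obtain ⟨c, w, hc, hw, h1⟩ := h ε hε
  refine ⟨c ∘ Θ, w ∘ Θ, hc.comp (hΘB 1), hw.comp (hΘB 2), ?_⟩
  rwa [integral_map (f := fun ω => ‖a ω - c ω * w ω‖) hΘ.aemeasurable ((ha.mono (hB 0)).1.sub
    ((hc.mono (hB 1)).1.mul (hw.mono (hB 2)).1)).norm.aestronglyMeasurable] at h1


/-- Proportional unimodular functions have labels of the same size. -/
theorem norm_integral_mul_of_triv (ha : Uni m a) (ha' : Uni m a') (h : Triv ρ (a * Star.star a'))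
    (F : Ω → ℂ) : ‖∫ ω, a ω * F ω ∂ρ‖ = ‖∫ ω, a' ω * F ω ∂ρ‖ := by
  obtain ⟨θ, hθ, h1⟩ := triv_phase ha ha' h
  rw [integral_congr_ae (g := fun ω => θ * (a' ω * F ω)) (h1.mono fun ω hω => by
    simp only [hω, mul_assoc]), integral_const_mul, norm_mul, hθ, one_mul]


theorem norm_integral_mul_sub_le (hm : m ≤ m0) (ha : Uni m a) (ha' : Uni m a') {F : Ω → ℂ}
    (hF : Measurable F) (hF1 : ∀ ω, ‖F ω‖ ≤ 1) :
    ‖∫ ω, a ω * F ω ∂ρ - ∫ ω, a' ω * F ω ∂ρ‖ ≤ ∫ ω, ‖a ω - a' ω‖ ∂ρ := by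
  have h1 : ∀ {b : Ω → ℂ}, Uni m b → Integrable (fun ω => b ω * F ω) ρ := fun hb =>
    (uni_int hb hm).mul_bdd hF.aestronglyMeasurable (Eventually.of_forall hF1)
  rw [← integral_sub (h1 ha) (h1 ha')]
  refine norm_integral_le_of_norm_le (uni_dist ha hm ha' hm) (Eventually.of_forall fun ω => ?_)
  rw [← sub_mul, norm_mul]
  exact mul_le_of_le_one_right (norm_nonneg _) (hF1 ω)


theorem norm_integral_prod_sub_le {ι : Type*} [Fintype ι] {b b' : ι → Ω → ℂ}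
    (hb : ∀ i, Uni m0 (b i)) (hb' : ∀ i, Uni m0 (b' i)) :
    ‖∫ ω, ∏ i, b i ω ∂ρ - ∫ ω, ∏ i, b' i ω ∂ρ‖ ≤ ∑ i, ∫ ω, ‖b i ω - b' i ω‖ ∂ρ := by
  classical
  have h1 : ∀ {b : ι → Ω → ℂ}, (∀ i, Uni m0 (b i)) → Integrable (fun ω => ∏ i, b i ω) ρ :=
    fun {b} hb => by
      simpa only [Finset.prod_fn] using uni_int (Uni.prod Finset.univ fun i _ => hb i) le_rfl
  have h2 : ∀ ω (S : Finset ι), ‖∏ i ∈ S, b i ω - ∏ i ∈ S, b' i ω‖ ≤ ∑ i ∈ S, ‖b i ω - b' i ω‖ := by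
    intro ω S
    induction S using Finset.induction_on with
    | empty => simp
    | insert i S hi ih =>
      rw [Finset.prod_insert hi, Finset.prod_insert hi, Finset.sum_insert hi]
      refine (norm_mul_sub_mul ?_ ((hb' i).2 ω)).trans (add_le_add le_rfl ih)
      simp only [norm_prod, (hb _).2 ω, Finset.prod_const_one]
  have h3 := fun i (_ : i ∈ Finset.univ) => uni_dist (ρ := ρ) (hb i) le_rfl (hb' i) le_rfl
  rw [← integral_sub (h1 hb) (h1 hb'), ← integral_finsetSum _ h3]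
  exact norm_integral_le_of_norm_le (integrable_finsetSum _ h3)
    (Eventually.of_forall fun ω => h2 ω _)


end Vale.Agent.P102
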