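import Vale.Agent.P102.HFib

/-! P102, file HAtom: atoms exist on a non-null set.

PLAN of `atom_fibre` (one fibre `Q = κe1 (η1 ω)`; write `x A = sl B π 0 A`, `h = f iB ∘ ξ ∘ π iB`,
`Fx = ∏_{i ≠ iB} f i ∘ ξ ∘ π i`, `G = (g * g') ∘ π iB`). Column independence in row `x` under `Q`
comes from one good `ω'` (`Agree.indep`, `indep_of_indep_of_le_left`). Let
`Pf := {a : Fin k → UG (B 0) // ∀ᵐ ω' ∂Q, ∏ a i (π i ω') = 1}`, `w a := a iB ∘ π iB`, a.e. equal to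
`conj ∏_{i ≠ iB} a i ∘ π i`, which is `x {iB}ᶜ`-measurable.
(U) If `b ∈ Pf` and `∫ w b ≠ 0` then every `b i ∘ π i` is `Triv Q`: `dich3` for the blocks
`{iB}, {i}, {iB, i}ᶜ`. This gives `horth` (take `b = a / a'`).
(T) If `v ∈ L²(Q)` is `x {iB}ᶜ`-measurable with `∫ v h ≠ 0`, then `∫ v G ∂Q ≠ 0` (`horth7`), and by
the tower hypothesis (`Measure.integral_comp` / `integral_bind`-type lemma) the set of `ω'` with
`∫ v G ∂κw1 (ζ1 ω') ≠ 0` is not `Q`-null. At a good such `ω'`, `Out` gives an element of `Pf`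
(`Agree.memLp`, `Agree.ae`, `Agree.integral_eq`).
`exists_corr` gives `a ∈ Pf` with `∫ Fx * conj (w a) ≠ 0`, `∫ w a * h ≠ 0`. The first integral is
`∏_{i ≠ iB} ∫ (a i * F i 0) ∘ π i` (induction on a finset avoiding `iB`, `integral_mul_indep`), so
all labels are nonzero (`integral_map`). Apply (T) to `v = conj ∏_{i ≠ iB} a i ∘ π i`: on a non-null
set `Z` of good `ω'` there is `a'` with `∫ w (a / a') ≠ 0`, so by (U), `triv_map_iff`, `Gw`,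
`Ch.of_triv` all `a i` are characters of `κw (ζ (π i ω'))`. The weight is
`Q (π i ⁻¹' {Ch ..}) > 0` since it contains `Z` (`measurableSet_ch`).
`exists_atoms`: if `¬ Atom` a.e. then a.e. fibre has `¬ Atom` a.e. (`ae_ae_kd`); all hypotheses of
`atom_fibre` hold a.e. (`kd_tower`, `kd_orth` with `a7`, `kd_proper`, ...), so
`∫ ∏ f i .. ∂κe1 (η1 ω) = 0` a.e., and `kd_integral`, `integral_condExp` contradict `tau`. -/

open MeasureTheory ProbabilityTheory Filter Topology Set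
open scoped ComplexConjugate ENNReal InnerProductSpace

namespace Vale.Agent.P102

namespace Sys

variable {k : ℕ} {X Ω₀ Ω₁ W E : Type} [mX : MeasurableSpace X] [m0 : MeasurableSpace Ω₀]
  [m1 : MeasurableSpace Ω₁] [mW : MeasurableSpace W] [mE : MeasurableSpace E]
  [StandardBorelSpace X] [StandardBorelSpace Ω₀] [Nonempty Ω₀] [StandardBorelSpace Ω₁]
  [Nonempty Ω₁] [StandardBorelSpace W] [StandardBorelSpace E] (Y : Sys k X Ω₀ Ω₁ W E)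

theorem _root_.Vale.Agent.P102.ha_tower {Ω : Type*} [MeasurableSpace Ω] {κ : Kernel Ω Ω}
    {Q : Measure Ω} (h : κ ∘ₘ Q = Q) {u : Ω → ℂ} (hu : Integrable u Q) :
    ∫ ω, u ω ∂Q = ∫ ω, ∫ ω', u ω' ∂κ ω ∂Q := by
  have h1 : (κ ∘ₖ Kernel.const Unit Q) () = Q := by
    rw [← Measure.comp_eq_comp_const_apply, h]
  have h2 := Kernel.integral_comp (η := κ) (κ := Kernel.const Unit Q) (a := ()) (f := u)
    (by rwa [h1])
  rwa [h1] at h2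

/-- Independence of one column from a block in row `x`. -/
def XInd (Q : Measure Ω₁) : Prop :=
  ∀ (i j : Fin k) (A : Set (Fin k)), i ∉ A → j ≠ i → j ∉ A →
    Indep (sl Y.B Y.π 0 {i}) (sl Y.B Y.π 0 A) Q

/-- Families with product one. -/
def POne (Q : Measure Ω₁) (a : Fin k → UG (Y.B 0)) : Prop :=
  ∀ᵐ ω' ∂Q, ∏ i, (a i : Ω₀ → ℂ) (Y.π i ω') = 1

theorem ha_uni (a : UG (Y.B 0)) {A : Set (Fin k)} {i : Fin k} (hi : i ∈ A) :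
    Uni (sl Y.B Y.π 0 A) (fun ω => (a : Ω₀ → ℂ) (Y.π i ω)) :=
  (UG.uni a).comp (Y.measurable_π_sl 0 hi)

theorem ha_uni_prod (a : Fin k → UG (Y.B 0)) {A : Set (Fin k)} (S : Finset (Fin k))
    (hS : ∀ i ∈ S, i ∈ A) :
    Uni (sl Y.B Y.π 0 A) (fun ω => ∏ i ∈ S, (a i : Ω₀ → ℂ) (Y.π i ω)) := by
  have h := Uni.prod S fun i hi => Y.ha_uni (a i) (hS i hi)
  rwa [Finset.prod_fn] at h

include Y in
theorem ha_third (i j : Fin k) : ∃ l, l ≠ i ∧ l ≠ j := by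
  by_contra h
  push Not at h
  have h1 := Y.n0B
  have h2 := Y.n20
  have h3 := Y.n2B
  have h4 := h Y.i0
  have h5 := h Y.iB
  have h6 := h Y.i2
  grind

theorem POne.div {Q : Measure Ω₁} {a b : Fin k → UG (Y.B 0)} (ha : Y.POne Q a) (hb : Y.POne Q b) :
    Y.POne Q (fun i => a i / b i) := by
  filter_upwards [ha, hb] with ω h1 h2
  simp only [UG.coe_div, Pi.mul_apply, Pi.star_apply, Finset.prod_mul_distrib, h1, ← star_prod, h2,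
    star_one, mul_one]

theorem POne.agree {Q Q' : Measure Ω₁} {a : Fin k → UG (Y.B 0)} (ha : Y.POne Q a)
    (h : Agree (sl Y.B Y.π 0 univ) Q Q') : Y.POne Q' a :=
  h.ae (measurableSet_eq_fun (Y.ha_uni_prod a Finset.univ fun _ _ => mem_univ _).1
    measurable_const) ha

/-- (U) -/
theorem ha_U {Q : Measure Ω₁} [IsProbabilityMeasure Q] (hI : Y.XInd Q) {b : Fin k → UG (Y.B 0)}
    (hb : Y.POne Q b) (h0 : ∫ ω, (b Y.iB : Ω₀ → ℂ) (Y.π Y.iB ω) ∂Q ≠ 0) (i : Fin k) :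
    Triv Q (fun ω => (b i : Ω₀ → ℂ) (Y.π i ω)) := by
  classical
  have key : ∀ i, i ≠ Y.iB → Triv Q (fun ω => (b Y.iB : Ω₀ → ℂ) (Y.π Y.iB ω)) ∧
      Triv Q (fun ω => (b i : Ω₀ → ℂ) (Y.π i ω)) := by
    intro i hi
    obtain ⟨l, hl1, hl2⟩ := Y.ha_third Y.iB i
    have h := dich3 (Y.sl_le 0 {Y.iB}) (Y.sl_le 0 {i}) (Y.sl_le 0 {Y.iB, i}ᶜ)
      (hI Y.iB l {i} hi.symm hl1 hl2) (hI Y.iB i _ (by simp) hi (by simp))
      (hI i Y.iB _ (by simp) hi.symm (by simp)) (Y.ha_uni (b Y.iB) rfl) (Y.ha_uni (b i) rfl)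
      (Y.ha_uni_prod b ((Finset.univ.erase Y.iB).erase i) fun l hl => by
        simp only [Finset.mem_erase] at hl
        simp [hl.1, hl.2.1]) (by
        filter_upwards [hb] with ω h1
        rw [← Finset.mul_prod_erase _ _ (Finset.mem_univ Y.iB),
          ← Finset.mul_prod_erase _ _ (Finset.mem_erase.2 ⟨hi, Finset.mem_univ i⟩),
          ← mul_assoc] at h1
        exact h1)
    exact ⟨(h.resolve_left h0).1, (h.resolve_left h0).2.1⟩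
  by_cases hi : i = Y.iB
  · rw [hi]; exact (key Y.i0 Y.n0B).1
  · exact (key i hi).2

theorem ha_conj {Q : Measure Ω₁} {a : Fin k → UG (Y.B 0)} (ha : Y.POne Q a) :
    ∀ᵐ ω ∂Q, conj ((a Y.iB : Ω₀ → ℂ) (Y.π Y.iB ω)) =
      ∏ i ∈ Finset.univ.erase Y.iB, (a i : Ω₀ → ℂ) (Y.π i ω) := by
  filter_upwards [ha] with ω h1
  rw [← Finset.mul_prod_erase _ _ (Finset.mem_univ Y.iB)] at h1
  have h2 : conj ((a Y.iB : Ω₀ → ℂ) (Y.π Y.iB ω)) * (a Y.iB : Ω₀ → ℂ) (Y.π Y.iB ω) = 1 :=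
    congrFun (UG.uni (a Y.iB)).star_mul_self (Y.π Y.iB ω)
  rw [← one_mul (∏ i ∈ Finset.univ.erase Y.iB, _), ← h2, mul_assoc, h1, mul_one]

theorem ha_meas_prod {u : Fin k → Ω₀ → ℂ} (hu : ∀ i, Measurable[Y.B 0] (u i)) {A : Set (Fin k)}
    (S : Finset (Fin k)) (hS : ∀ i ∈ S, i ∈ A) :
    Measurable[sl Y.B Y.π 0 A] fun ω => ∏ i ∈ S, u i (Y.π i ω) :=
  Finset.measurable_prod S fun i hi => (hu i).comp (Y.measurable_π_sl 0 (hS i hi))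

theorem ha_prod {Q : Measure Ω₁} [IsProbabilityMeasure Q] (hI : Y.XInd Q) {u : Fin k → Ω₀ → ℂ}
    (hu : ∀ i, Measurable[Y.B 0] (u i)) (S : Finset (Fin k)) (hS : Y.iB ∉ S) :
    ∫ ω, ∏ i ∈ S, u i (Y.π i ω) ∂Q = ∏ i ∈ S, ∫ ω, u i (Y.π i ω) ∂Q := by
  classical
  induction S using Finset.induction_on with
  | empty => simp
  | insert i S hi ih =>
    rw [Finset.mem_insert, not_or] at hS
    simp only [Finset.prod_insert hi]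
    rw [← ih hS.2]
    have h1 : Measurable[sl Y.B Y.π 0 {i}] fun ω => u i (Y.π i ω) :=
      (hu i).comp (Y.measurable_π_sl 0 (mem_singleton i))
    have h2 := Y.ha_meas_prod hu (A := S) S fun _ h => h
    exact integral_mul_indep (Y.sl_le 0 {i}) (Y.sl_le 0 S) (hI i Y.iB S hi hS.1 hS.2)
      h1.aestronglyMeasurable h2.aestronglyMeasurable

theorem ha_F (i : Fin k) (ω : Ω₀) : Y.F i 0 ω = Y.f i (Y.ξ ω) := by
  rw [F, Y.T_zero]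

/-- Good points of a fibre. -/
def GoodAt (ω ω' : Ω₁) : Prop :=
  Y.η1 ω' = Y.η1 ω ∧ Y.Out ω' ∧ (∀ i, Y.Gw (Y.π i ω')) ∧
    Agree (sl Y.B Y.π 0 univ) (Y.κw1 (Y.ζ1 ω')) (Y.κe1 (Y.η1 ω')) ∧
    ∀ (i j : Fin k) (A : Set (Fin k)), i ∉ A → j ≠ i → j ∉ A →
      ColInd (Y.κw1 (Y.ζ1 ω')) (sl Y.B Y.π 0) (sl Y.B Y.π 1) (sl Y.B Y.π 2) {i} A

theorem ha_mG : Measurable fun ω => Y.g (Y.π Y.iB ω) * Y.g' (Y.π Y.iB ω) :=
  ((Y.mg.mono (Y.B_le 1) le_rfl).comp (Y.mπ _)).mul ((Y.mg'.mono (Y.B_le 2) le_rfl).comp (Y.mπ _))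

theorem ha_G_le (ω : Ω₁) : ‖Y.g (Y.π Y.iB ω) * Y.g' (Y.π Y.iB ω)‖ ≤ 1 := by
  rw [norm_mul]
  exact mul_le_one₀ (Y.g_le _) (norm_nonneg _) (Y.g'_le _)

theorem ha_mh (i : Fin k) : Measurable fun ω => Y.f i (Y.ξ (Y.π i ω)) :=
  ((Y.mf i).comp (Y.mξ.mono (Y.B_le 0) le_rfl)).comp (Y.mπ i)

/-- (T) -/
theorem ha_T (ω : Ω₁)
    (htow : (Y.κw1.comap Y.ζ1 Y.mζ1) ∘ₘ (Y.κe1 (Y.η1 ω)) = Y.κe1 (Y.η1 ω))
    (horth7 : ∀ v : Ω₁ → ℂ, Integrable v (Y.κe1 (Y.η1 ω)) → Measurable[sl Y.B Y.π 0 univ] v →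
      ∫ ω', v ω' * (Y.g (Y.π Y.iB ω') * Y.g' (Y.π Y.iB ω') - Y.f Y.iB (Y.ξ (Y.π Y.iB ω')))
        ∂Y.κe1 (Y.η1 ω) = 0)
    (hgood : ∀ᵐ ω' ∂Y.κe1 (Y.η1 ω), Y.GoodAt ω ω') {v : Ω₁ → ℂ}
    (hv : MemLp v 2 (Y.κe1 (Y.η1 ω))) (hm : Measurable[sl Y.B Y.π 0 {Y.iB}ᶜ] v)
    (h0 : ∫ ω', v ω' * Y.f Y.iB (Y.ξ (Y.π Y.iB ω')) ∂Y.κe1 (Y.η1 ω) ≠ 0) :
    ∃ᶠ ω' in ae (Y.κe1 (Y.η1 ω)), Y.GoodAt ω ω' ∧ ∃ a : Fin k → UG (Y.B 0),
      Y.POne (Y.κe1 (Y.η1 ω)) a ∧ (∀ i, Ch Y.B (Y.κw (Y.ζ (Y.π i ω'))) (a i)) ∧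
      ∫ ω'', v ω'' * conj ((a Y.iB : Ω₀ → ℂ) (Y.π Y.iB ω'')) ∂Y.κe1 (Y.η1 ω) ≠ 0 := by
  have hm' : Measurable[sl Y.B Y.π 0 univ] v := hm.mono (Y.sl_mono 0 (subset_univ _)) le_rfl
  have hi : Integrable v (Y.κe1 (Y.η1 ω)) := hv.integrable one_le_two
  have i1 : Integrable (fun ω' => v ω' * (Y.g (Y.π Y.iB ω') * Y.g' (Y.π Y.iB ω')))
      (Y.κe1 (Y.η1 ω)) :=
    hi.mul_bdd Y.ha_mG.aestronglyMeasurable (Eventually.of_forall Y.ha_G_le)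
  have i2 : Integrable (fun ω' => v ω' * Y.f Y.iB (Y.ξ (Y.π Y.iB ω'))) (Y.κe1 (Y.η1 ω)) :=
    hi.mul_bdd (Y.ha_mh _).aestronglyMeasurable (Eventually.of_forall fun _ => Y.f_le _ _)
  have h1 := horth7 v hi hm'
  simp only [mul_sub] at h1
  rw [integral_sub i1 i2, sub_eq_zero, ha_tower htow i1] at h1
  have h2 : ∃ᶠ ω' in ae (Y.κe1 (Y.η1 ω)),
      ∫ ω'', v ω'' * (Y.g (Y.π Y.iB ω'') * Y.g' (Y.π Y.iB ω'')) ∂Y.κw1 (Y.ζ1 ω') ≠ 0 := by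
    intro h3
    refine h0 (h1 ▸ integral_eq_zero_of_ae ?_)
    filter_upwards [h3] with ω' h4
    exact not_not.1 h4
  refine (h2.and_eventually hgood).mono fun ω' ⟨h3, h4⟩ => ⟨h4, ?_⟩
  have hA := h4.2.2.2.1
  rw [h4.1] at hA
  obtain ⟨a, ha1, ha2, ha3⟩ := h4.2.1 v (hA.symm.memLp (Y.sl_le 0 _) hm' hv) hm h3
  refine ⟨a, POne.agree Y ha2 hA, ha1, ?_⟩
  have h5 : Measurable[sl Y.B Y.π 0 univ]
      fun ω'' => v ω'' * conj ((a Y.iB : Ω₀ → ℂ) (Y.π Y.iB ω'')) :=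
    hm'.mul (Y.ha_uni (a Y.iB) (mem_univ Y.iB)).star.1
  rwa [← hA.integral_eq (Y.sl_le 0 _) h5.stronglyMeasurable]

theorem atom_fibre (ω : Ω₁)
    (hπ : ∀ i, (Y.κe1 (Y.η1 ω)).map (Y.π i) = Y.κe (Y.η (Y.π i ω)))
    (htow : (Y.κw1.comap Y.ζ1 Y.mζ1) ∘ₘ (Y.κe1 (Y.η1 ω)) = Y.κe1 (Y.η1 ω))
    (horth7 : ∀ v : Ω₁ → ℂ, Integrable v (Y.κe1 (Y.η1 ω)) → Measurable[sl Y.B Y.π 0 univ] v →
      ∫ ω', v ω' * (Y.g (Y.π Y.iB ω') * Y.g' (Y.π Y.iB ω') - Y.f Y.iB (Y.ξ (Y.π Y.iB ω')))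
        ∂Y.κe1 (Y.η1 ω) = 0)
    (hgood : ∀ᵐ ω' ∂Y.κe1 (Y.η1 ω), Y.η1 ω' = Y.η1 ω ∧ Y.Out ω' ∧ (∀ i, Y.Gw (Y.π i ω')) ∧
      Agree (sl Y.B Y.π 0 univ) (Y.κw1 (Y.ζ1 ω')) (Y.κe1 (Y.η1 ω')) ∧
      ∀ (i j : Fin k) (A : Set (Fin k)), i ∉ A → j ≠ i → j ∉ A →
        ColInd (Y.κw1 (Y.ζ1 ω')) (sl Y.B Y.π 0) (sl Y.B Y.π 1) (sl Y.B Y.π 2) {i} A)
    (h0 : ∫ ω', ∏ i, Y.f i (Y.ξ (Y.π i ω')) ∂Y.κe1 (Y.η1 ω) ≠ 0) :
    ¬ ∀ᵐ ω' ∂Y.κe1 (Y.η1 ω), ¬ Y.Atom ω' := by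
  classical
  have hI : Y.XInd (Y.κe1 (Y.η1 ω)) := by
    obtain ⟨ω', h1, -, -, h2, h3⟩ := hgood.exists
    intro i j A hi hj hA
    rw [h1] at h2
    exact h2.indep (Y.sl_mono 0 (subset_univ _)) (Y.sl_mono 0 (subset_univ _))
      (indep_of_indep_of_le_right (indep_of_indep_of_le_left (h3 i j A hi hj hA)
        (le_sup_left.trans le_sup_left)) (le_sup_left.trans le_sup_left))
  have hT := fun v => Y.ha_T ω htow horth7 hgood (v := v)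
  have hE : ∀ i ∈ Finset.univ.erase Y.iB, i ∈ ({Y.iB}ᶜ : Set (Fin k)) := fun i hi =>
    (Finset.mem_erase.1 hi).1
  have hv : ∀ a : Fin k → UG (Y.B 0), Y.POne (Y.κe1 (Y.η1 ω)) a →
      (fun ω' => (a Y.iB : Ω₀ → ℂ) (Y.π Y.iB ω')) =ᵐ[Y.κe1 (Y.η1 ω)]
        star fun ω' => ∏ i ∈ Finset.univ.erase Y.iB, (a i : Ω₀ → ℂ) (Y.π i ω') := fun a ha => by
    filter_upwards [Y.ha_conj ha] with ω' h1
    rw [Pi.star_apply, ← h1, RCLike.star_def, Complex.conj_conj]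
  have hmf : ∀ i, Measurable[Y.B 0] fun ω' => Y.f i (Y.ξ ω') := fun i => (Y.mf i).comp Y.mξ
  obtain ⟨⟨a, ha⟩, h1, h2⟩ := exists_corr (Y.κe1 (Y.η1 ω)) (Y.sl_le 0 {Y.iB}ᶜ)
    (Pf := {a : Fin k → UG (Y.B 0) // Y.POne (Y.κe1 (Y.η1 ω)) a})
    (fun p ω' => (p.1 Y.iB : Ω₀ → ℂ) (Y.π Y.iB ω'))
    (fun p => (Y.ha_uni _ (mem_univ _)).mono (Y.sl_le 0 _))
    (fun p => (Y.ha_uni_prod p.1 _ hE).star.1.aestronglyMeasurable.congr (hv p.1 p.2).symm)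
    (fun p q => by
      by_cases h : ∫ ω', (p.1 Y.iB : Ω₀ → ℂ) (Y.π Y.iB ω') *
        conj ((q.1 Y.iB : Ω₀ → ℂ) (Y.π Y.iB ω')) ∂Y.κe1 (Y.η1 ω) = 0
      · exact Or.inl h
      · exact Or.inr (Y.ha_U hI (POne.div Y p.2 q.2) h Y.iB))
    (F := fun ω' => ∏ i ∈ Finset.univ.erase Y.iB, Y.f i (Y.ξ (Y.π i ω')))
    (h := fun ω' => Y.f Y.iB (Y.ξ (Y.π Y.iB ω')))
    (BM.of_le (c := 1) (Y.ha_meas_prod hmf _ hE) fun ω' => by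
      rw [norm_prod]
      exact Finset.prod_le_one (fun _ _ => norm_nonneg _) fun _ _ => Y.f_le _ _)
    (BM.of_le (Y.ha_mh _) fun _ => Y.f_le _ _)
    (fun v hv1 hv2 hv3 => by
      obtain ⟨ω', -, a, ha, -, ha3⟩ := (hT v hv1 hv2 hv3).exists
      exact ⟨⟨a, ha⟩, ha3⟩)
    (by simpa only [Finset.prod_erase_mul _ _ (Finset.mem_univ Y.iB)] using h0)
  have hlab : ∀ i, ∫ ω', (a i : Ω₀ → ℂ) ω' * Y.F i 0 ω' ∂Y.κe (Y.η (Y.π i ω)) ≠ 0 := by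
    intro i
    have h5 : Measurable fun ω' => (a i : Ω₀ → ℂ) ω' * Y.F i 0 ω' :=
      ((UG.uni (a i)).1.mul (Y.mF i 0)).mono (Y.B_le 0) le_rfl
    rw [← hπ i, integral_map (Y.mπ i).aemeasurable h5.aestronglyMeasurable]
    simp only [ha_F]
    by_cases hi : i = Y.iB
    · rw [hi]; exact h2
    · have h3 := Y.ha_prod hI (u := fun i ω' => (a i : Ω₀ → ℂ) ω' * Y.f i (Y.ξ ω'))
        (fun i => (UG.uni (a i)).1.mul (hmf i)) (Finset.univ.erase Y.iB) (Finset.notMem_erase _ _)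
      have h4 : ∏ i ∈ Finset.univ.erase Y.iB, ∫ ω', (a i : Ω₀ → ℂ) (Y.π i ω') *
          Y.f i (Y.ξ (Y.π i ω')) ∂Y.κe1 (Y.η1 ω) ≠ 0 := by
        rw [← h3]
        refine fun h5 => h1 (Eq.trans (integral_congr_ae ?_) h5)
        filter_upwards [Y.ha_conj ha] with ω' h6
        rw [h6, Finset.prod_mul_distrib, mul_comm]
      exact Finset.prod_ne_zero_iff.1 h4 i (Finset.mem_erase.2 ⟨hi, Finset.mem_univ i⟩)
  have hη : ∀ ω', Y.GoodAt ω ω' → ∀ i, Y.η (Y.π i ω') = Y.η (Y.π i ω) := fun ω' h i =>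
    congrFun h.1 i
  have hu := (Y.ha_uni_prod a _ hE).star
  have hZ : ∃ᶠ ω' in ae (Y.κe1 (Y.η1 ω)), Y.GoodAt ω ω' ∧
      ∀ i, Ch Y.B (Y.κw (Y.ζ (Y.π i ω'))) (a i) := by
    refine (hT _ (hu.bm.memLp (Y.sl_le 0 _) 2) hu.1 fun h3 => h2 (Eq.trans
      (integral_congr_ae ?_) h3)).mono fun ω' ⟨h3, a', ha', h4, h5⟩ => ⟨h3, fun i => ?_⟩
    · filter_upwards [hv a ha] with ω' h3
      rw [← h3]
    · have h6 := Y.ha_U hI (POne.div Y ha ha') (fun h6 => h5 (Eq.trans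
        (integral_congr_ae ?_) h6)) i
      · have h7 : Triv (Y.κe (Y.η (Y.π i ω'))) (a i / a' i : UG (Y.B 0)) := by
          rw [hη ω' h3 i, ← hπ i]
          exact (triv_map_iff (Y.mπ i) ((UG.uni (a i / a' i)).1.mono (Y.B_le 0) le_rfl)).2 h6
        exact Ch.of_triv (UG.uni (a i)) (UG.uni (a' i)) (h4 i)
          ((h3.2.2.1 i).2.symm.triv (UG.uni (a i / a' i)).1 h7)
      · filter_upwards [hv a ha] with ω' h3
        rw [← h3]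
        rfl
  have hwt : ∀ i, 0 < Y.wt (Y.η (Y.π i ω)) (a i) := by
    intro i
    rw [wt, ← hπ i, map_measureReal_apply (Y.mπ i) (Y.measurableSet_ch (UG.uni (a i)))]
    refine ENNReal.toReal_pos (fun h3 => hZ ?_) (measure_ne_top _ _)
    filter_upwards [measure_eq_zero_iff_ae_notMem.1 h3] with ω' h4 h5
    exact h4 (h5.2 i)
  refine hZ.mono fun ω' ⟨h3, h4⟩ => ⟨a, ?_, fun i => ⟨h4 i, ?_, ?_⟩⟩
  · have hA := h3.2.2.2.1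
    rw [h3.1] at hA
    exact POne.agree Y ha hA.symm
  · rw [hη ω' h3 i]; exact hwt i
  · rw [hη ω' h3 i]; exact hlab i

theorem exists_atoms : ¬ ∀ᵐ ω ∂Y.P1, ¬ Y.Atom ω := by
  intro h
  have hm : Measurable fun ω => ∏ i, Y.f i (Y.ξ (Y.π i ω)) :=
    Finset.measurable_prod _ fun i _ => Y.ha_mh i
  have hi : Integrable (fun ω => ∏ i, Y.f i (Y.ξ (Y.π i ω))) Y.P1 :=
    (BM.of_le (c := 1) hm fun ω' => by
      rw [norm_prod]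
      exact Finset.prod_le_one (fun _ _ => norm_nonneg _) fun _ _ => Y.f_le _ _).integrable le_rfl
  have h1 : ∀ᵐ ω ∂Y.P1, Y.Out ω ∧ (∀ i, Y.Gw (Y.π i ω)) ∧
      Agree (sl Y.B Y.π 0 univ) (Y.κw1 (Y.ζ1 ω)) (Y.κe1 (Y.η1 ω)) ∧
      ∀ (i j : Fin k) (A : Set (Fin k)), i ∉ A → j ≠ i → j ∉ A →
        ColInd (Y.κw1 (Y.ζ1 ω)) (sl Y.B Y.π 0) (sl Y.B Y.π 1) (sl Y.B Y.π 2) {i} A := by
    filter_upwards [Y.ae_out, Y.ae_π Y.ae_Gw, Y.ae_agree1, Y.ae_fib] with ω h1 h2 h3 h4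
    exact ⟨h1, h2, h3, h4.2⟩
  have h2 := kd_orth (P := Y.P1) Y.mη1 (Y.sl_le 0 univ) (Y.sl_cg 0 univ) Y.η1_le_sl
    (Y.ha_mG.sub (Y.ha_mh Y.iB)) (c := 1 + 1)
    (fun ω => (norm_sub_le _ _).trans (add_le_add (Y.ha_G_le ω) (Y.f_le _ _))) Y.a7
  refine Y.tau ?_
  rw [← integral_condExp (μ := Y.P1) Y.mη1.comap_le,
    ← integral_congr_ae (kd_integral Y.mη1 hi)]
  refine integral_eq_zero_of_ae ?_
  filter_upwards [ae_ae_kd Y.mη1 h, ae_ae_kd Y.mη1 h1, kd_proper (P := Y.P1) Y.mη1, h2,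
    kd_tower (P := Y.P1) Y.mη1 Y.mζ1 Y.η1_le_ζ1, Y.ae_map_π] with ω h3 h4 h5 h6 h7 h8
  by_contra h9
  exact Y.atom_fibre ω (fun i => (h8 i).2) h7 h6 (h5.and h4) h9 h3

end Sys

end Vale.Agent.P102
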