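import Vale.Agent.P102.SysBasic
import Vale.Agent.P102.FibFact

/-! P102, file HFib: the fibre lemma holds in almost every fibre of the big system.

PLAN. `ae_fib`: `kd_indep'` with `row1`, `col1` (finitely many `i, j, A`: `ae_all_iff`), `kd_CI`
with `clx, cly, clz`. `ae_agree1`: `kd_row` with `law1`. `exists_uni_comp`:
`Measurable.exists_eq_measurable_comp`, then replace `a` by `if ‖a ω‖ = 1 then a ω else 1`.
`ae_out`: `Fib.out` with `g ∘ π iB`, `g' ∘ π iB`; write the factors as `a i ∘ π i` etc.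
(`sl_singleton`, `exists_uni_comp`); `a i = b i * d i` holds a.e. for `ρ.map (π i) = κw (ζ (π i ω))`
(`ae_map_π`, `ae_map_iff`), `Ch.of_ae`. `exists_corr`: in `L²(Q)` let `V` be the closed span of the
`w p` with `∫ F * conj (w p) ≠ 0` and `v := F - P_V F`; `v` is orthogonal to every `w p` (for the
other `p` use `horth`: such `w p` is orthogonal to `F` and to all generators of `V`), and `v` has an
`A`-measurable version (`lpMeas` is closed). So `∫ v * h = 0`, hence `∫ P_V F * h ≠ 0`, hence the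
continuous functional `u ↦ ∫ u * h` does not vanish on all generators. -/

open MeasureTheory ProbabilityTheory Filter Topology Set
open scoped ComplexConjugate ENNReal InnerProductSpace

namespace Vale.Agent.P102

theorem hfib_inner {Ω : Type*} {m0 : MeasurableSpace Ω} {Q : Measure Ω} {u : Ω → ℂ}
    (hu : MemLp u 2 Q) (v : Lp ℂ 2 Q) : ⟪hu.toLp u, v⟫_ℂ = ∫ ω, v ω * conj (u ω) ∂Q := by
  rw [L2.inner_def]
  refine integral_congr_ae ?_
  filter_upwards [hu.coeFn_toLp] with ω e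
  rw [e, RCLike.inner_apply]

theorem hfib_inner' {Ω : Type*} {m0 : MeasurableSpace Ω} {Q : Measure Ω} {u v : Ω → ℂ}
    (hu : MemLp u 2 Q) (hv : MemLp v 2 Q) :
    ⟪hu.toLp u, hv.toLp v⟫_ℂ = ∫ ω, v ω * conj (u ω) ∂Q := by
  rw [hfib_inner]
  refine integral_congr_ae ?_
  filter_upwards [hv.coeFn_toLp] with ω e
  rw [e]

theorem hfib_orth {H : Type*} [NormedAddCommGroup H] [InnerProductSpace ℂ H] {G : Set H} {x : H}
    (h : ∀ g ∈ G, ⟪x, g⟫_ℂ = 0) : x ∈ ((Submodule.span ℂ G).topologicalClosure)ᗮ := by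
  rw [Submodule.orthogonal_closure, Submodule.mem_orthogonal']
  intro u hu
  induction hu using Submodule.span_induction with
  | mem g hg => exact h g hg
  | zero => exact inner_zero_right x
  | add a b _ _ h1 h2 => rw [inner_add_right, h1, h2, add_zero]
  | smul c a _ h1 => rw [inner_smul_right, h1, mul_zero]

namespace Sys

variable {k : ℕ} {X Ω₀ Ω₁ W E : Type} [mX : MeasurableSpace X] [m0 : MeasurableSpace Ω₀]
  [m1 : MeasurableSpace Ω₁] [mW : MeasurableSpace W] [mE : MeasurableSpace E]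
  [StandardBorelSpace X] [StandardBorelSpace Ω₀] [Nonempty Ω₀] [StandardBorelSpace Ω₁]
  [Nonempty Ω₁] [StandardBorelSpace W] [StandardBorelSpace E] (Y : Sys k X Ω₀ Ω₁ W E)

theorem ae_fib : ∀ᵐ ω ∂Y.P1,
    Fib (Y.κw1 (Y.ζ1 ω)) (sl Y.B Y.π 0) (sl Y.B Y.π 1) (sl Y.B Y.π 2) ∧
    ∀ (i j : Fin k) (A : Set (Fin k)), i ∉ A → j ≠ i → j ∉ A →
      ColInd (Y.κw1 (Y.ζ1 ω)) (sl Y.B Y.π 0) (sl Y.B Y.π 1) (sl Y.B Y.π 2) {i} A := by
  have cg : ∀ (j j' : Fin 3) (A : Set (Fin k)), CG (sl Y.B Y.π j A ⊔ sl Y.B Y.π j' A) :=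
    fun j j' A => MeasurableSpace.CountablyGenerated.sup (Y.sl_cg j A) (Y.sl_cg j' A)
  have cg3 : ∀ A : Set (Fin k), CG (sl Y.B Y.π 0 A ⊔ sl Y.B Y.π 1 A ⊔ sl Y.B Y.π 2 A) :=
    fun A => MeasurableSpace.CountablyGenerated.sup (cg 0 1 A) (Y.sl_cg 2 A)
  have row : ∀ j j' : Fin 3, j ≠ j' → ∀ᵐ ω ∂Y.P1,
      Indep (sl Y.B Y.π j univ) (sl Y.B Y.π j' univ) (Y.κw1 (Y.ζ1 ω)) := fun j j' h =>
    kd_indep' Y.mζ1 (Y.sl_cg j univ) (Y.sl_cg j' univ) (Y.row1 j j' h)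
  have hx : ∀ᵐ ω ∂Y.P1, ∀ A : Set (Fin k), A ≠ univ → CI (Y.κw1 (Y.ζ1 ω)) (sl Y.B Y.π 0 A)
      (sl Y.B Y.π 1 univ ⊔ sl Y.B Y.π 2 univ) (sl Y.B Y.π 1 A ⊔ sl Y.B Y.π 2 A) :=
    ae_all_iff.2 fun A => eventually_imp_distrib_left.2 fun hA =>
      kd_CI Y.mζ1 (Y.sl_cg 0 A) (cg 1 2 univ) (cg 1 2 A) (Y.clx A hA)
  have hy : ∀ᵐ ω ∂Y.P1, ∀ A : Set (Fin k), A ≠ univ → CI (Y.κw1 (Y.ζ1 ω)) (sl Y.B Y.π 1 A)
      (sl Y.B Y.π 0 univ ⊔ sl Y.B Y.π 2 univ) (sl Y.B Y.π 0 A ⊔ sl Y.B Y.π 2 A) :=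
    ae_all_iff.2 fun A => eventually_imp_distrib_left.2 fun hA =>
      kd_CI Y.mζ1 (Y.sl_cg 1 A) (cg 0 2 univ) (cg 0 2 A) (Y.cly A hA)
  have hz : ∀ᵐ ω ∂Y.P1, ∀ A : Set (Fin k), A ≠ univ → CI (Y.κw1 (Y.ζ1 ω)) (sl Y.B Y.π 2 A)
      (sl Y.B Y.π 0 univ ⊔ sl Y.B Y.π 1 univ) (sl Y.B Y.π 0 A ⊔ sl Y.B Y.π 1 A) :=
    ae_all_iff.2 fun A => eventually_imp_distrib_left.2 fun hA =>
      kd_CI Y.mζ1 (Y.sl_cg 2 A) (cg 0 1 univ) (cg 0 1 A) (Y.clz A hA)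
  have hc : ∀ᵐ ω ∂Y.P1, ∀ (i j : Fin k) (A : Set (Fin k)), i ∉ A → j ≠ i → j ∉ A →
      ColInd (Y.κw1 (Y.ζ1 ω)) (sl Y.B Y.π 0) (sl Y.B Y.π 1) (sl Y.B Y.π 2) {i} A :=
    ae_all_iff.2 fun i => ae_all_iff.2 fun j => ae_all_iff.2 fun A =>
      eventually_imp_distrib_left.2 fun h1 => eventually_imp_distrib_left.2 fun h2 =>
        eventually_imp_distrib_left.2 fun h3 =>
          kd_indep' Y.mζ1 (cg3 {i}) (cg3 A) (Y.col1 i j A h1 h2 h3)
  filter_upwards [row 0 1 (by decide), row 0 2 (by decide), row 1 2 (by decide), hx, hy, hz, hc]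
    with ω h1 h2 h3 h4 h5 h6 h7
  exact ⟨⟨Y.sl_le 0, Y.sl_le 1, Y.sl_le 2, Y.sl_union 0, Y.sl_union 1, Y.sl_union 2, h1, h2, h3,
    h4, h5, h6⟩, h7⟩

theorem ae_agree1 : ∀ᵐ ω ∂Y.P1, Agree (sl Y.B Y.π 0 univ) (Y.κw1 (Y.ζ1 ω)) (Y.κe1 (Y.η1 ω)) :=
  kd_row Y.mη1 Y.mζ1 Y.η1_le_ζ1 (Y.sl_cg 0 univ) Y.law1

theorem _root_.Vale.Agent.P102.exists_uni_comp {Ω Ω' : Type*} {m : MeasurableSpace Ω}
    {Θ : Ω' → Ω} {u : Ω' → ℂ} (hu : Uni (m.comap Θ) u) : ∃ a, Uni m a ∧ u = a ∘ Θ := by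
  obtain ⟨a, ha, e⟩ := hu.1.exists_eq_measurable_comp
  have h0 : MeasurableSet[m] {ω | ‖a ω‖ = 1} := ha.norm (measurableSet_singleton 1)
  classical
  refine ⟨fun ω => if ‖a ω‖ = 1 then a ω else 1,
    ⟨Measurable.ite h0 ha measurable_const, fun ω => ?_⟩, funext fun ω => ?_⟩
  · by_cases h : ‖a ω‖ = 1 <;> simp [h]
  · have h : ‖a (Θ ω)‖ = 1 := by
      have := hu.2 ω
      rwa [e] at this
    rw [Function.comp_apply, if_pos h, e, Function.comp_apply]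

theorem ae_out : ∀ᵐ ω ∂Y.P1, Y.Out ω := by
  filter_upwards [Y.ae_fib, Y.ae_map_π] with ω h1 h2 v hv hvm h0
  have hg : BM (Y.κw1 (Y.ζ1 ω)) (sl Y.B Y.π 1 univ) (Y.g ∘ Y.π Y.iB) :=
    BM.of_le (Y.mg.comp (Y.measurable_π_sl 1 (mem_univ Y.iB))) fun ω' => Y.g_le _
  have hg' : BM (Y.κw1 (Y.ζ1 ω)) (sl Y.B Y.π 2 {Y.iB}) (Y.g' ∘ Y.π Y.iB) :=
    BM.of_le (Y.mg'.comp (Y.measurable_π_sl 2 (mem_singleton Y.iB))) fun ω' => Y.g'_le _
  obtain ⟨a, b, d, h3, h4, h5⟩ := h1.1.out h1.2 Y.n0B Y.n20 Y.n2B hv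
    hvm.stronglyMeasurable.aestronglyMeasurable hg hg' h0
  have k1 : ∀ i, ∃ a', Uni (Y.B 0) a' ∧ a i = a' ∘ Y.π i := fun i =>
    exists_uni_comp (Y.sl_singleton 0 i ▸ (h3 i).1)
  have k2 : ∀ i, ∃ a', Uni (Y.B 1) a' ∧ b i = a' ∘ Y.π i := fun i =>
    exists_uni_comp (Y.sl_singleton 1 i ▸ (h3 i).2.1)
  have k3 : ∀ i, ∃ a', Uni (Y.B 2) a' ∧ d i = a' ∘ Y.π i := fun i =>
    exists_uni_comp (Y.sl_singleton 2 i ▸ (h3 i).2.2.1)
  choose a' ha' ea using k1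
  choose b' hb' eb using k2
  choose d' hd' ed using k3
  refine ⟨fun i => ⟨a' i, ha' i⟩, fun i => Ch.of_ae (hb' i) (hd' i) ?_, ?_, ?_⟩
  · rw [← (h2 i).1]
    refine (ae_map_iff (Y.mπ i).aemeasurable (measurableSet_eq_fun
      ((ha' i).1.mono (Y.B_le 0) le_rfl) (((hb' i).1.mono (Y.B_le 1) le_rfl).mul
        ((hd' i).1.mono (Y.B_le 2) le_rfl)))).2 ?_
    have h6 := (h3 i).2.2.2
    rw [ea, eb, ed] at h6
    exact h6
  · filter_upwards [h4] with ω' e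
    rw [Finset.prod_apply] at e
    simpa only [ea, Function.comp_apply, Pi.one_apply] using e
  · simpa only [ea, Function.comp_apply] using h5

theorem _root_.Vale.Agent.P102.exists_corr {Ω Pf : Type*} {A m0 : MeasurableSpace Ω}
    (Q : Measure Ω) [IsProbabilityMeasure Q] (hA : A ≤ m0) (w : Pf → Ω → ℂ)
    (hw : ∀ p, Uni m0 (w p)) (hwA : ∀ p, AEStronglyMeasurable[A] (w p) Q)
    (horth : ∀ p q, ∫ ω, w p ω * conj (w q ω) ∂Q = 0 ∨ Triv Q (w p * star (w q)))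
    {F h : Ω → ℂ} (hF : BM Q A F) (hh : BM Q m0 h)
    (H : ∀ v : Ω → ℂ, MemLp v 2 Q → Measurable[A] v → ∫ ω, v ω * h ω ∂Q ≠ 0 →
      ∃ p, ∫ ω, v ω * conj (w p ω) ∂Q ≠ 0)
    (h0 : ∫ ω, F ω * h ω ∂Q ≠ 0) :
    ∃ p, ∫ ω, F ω * conj (w p ω) ∂Q ≠ 0 ∧ ∫ ω, w p ω * h ω ∂Q ≠ 0 := by
  by_contra hn
  push Not at hn
  have mw : ∀ p, MemLp (w p) 2 Q := fun p => (hw p).bm.memLp le_rfl 2
  have mF : MemLp F 2 Q := hF.memLp hA 2
  have mh : MemLp (star h) 2 Q := hh.star.memLp le_rfl 2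
  obtain ⟨G, hG⟩ : ∃ G : Set (Lp ℂ 2 Q),
      G = {u | ∃ p, ∫ ω, F ω * conj (w p ω) ∂Q ≠ 0 ∧ u = (mw p).toLp (w p)} := ⟨_, rfl⟩
  obtain ⟨y, hy, v, hv, e⟩ := Submodule.exists_add_mem_mem_orthogonal
    (K := (Submodule.span ℂ G).topologicalClosure) (mF.toLp F)
  have ev : v = mF.toLp F - y := by rw [e, add_sub_cancel_left]
  have h1 : mh.toLp (star h) ∈ ((Submodule.span ℂ G).topologicalClosure)ᗮ := by
    refine hfib_orth fun g hg => ?_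
    rw [hG] at hg
    obtain ⟨p, hp, rfl⟩ := hg
    rw [hfib_inner', ← hn p hp]
    simp
  have h2 : (Submodule.span ℂ G).topologicalClosure ≤ lpMeas ℂ ℂ A 2 Q := by
    refine Submodule.topologicalClosure_minimal _ (Submodule.span_le.2 fun g hg => ?_)
      (isClosed_aestronglyMeasurable hA)
    rw [hG] at hg
    obtain ⟨p, -, rfl⟩ := hg
    exact mem_lpMeas_iff_aestronglyMeasurable.2 ((hwA p).congr (mw p).coeFn_toLp.symm)
  have h3 : v ∈ lpMeas ℂ ℂ A 2 Q := by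
    rw [ev]
    exact Submodule.sub_mem _
      (mem_lpMeas_iff_aestronglyMeasurable.2 (hF.1.congr mF.coeFn_toLp.symm)) (h2 hy)
  obtain ⟨v', hv', e'⟩ := mem_lpMeas_iff_aestronglyMeasurable.1 h3
  have h4 : ∀ {u : Ω → ℂ} (hu : MemLp u 2 Q),
      ∫ ω, v' ω * conj (u ω) ∂Q = ⟪hu.toLp u, v⟫_ℂ := fun {u} hu => by
    rw [hfib_inner]
    refine integral_congr_ae ?_
    filter_upwards [e'] with ω e2
    rw [e2]
  obtain ⟨p, hp⟩ := H v' ((Lp.memLp v).ae_eq e') hv'.measurable (by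
    have h5 := h4 mh
    rw [ev, inner_sub_right, Submodule.inner_left_of_mem_orthogonal hy h1, sub_zero,
      hfib_inner'] at h5
    simp only [Pi.star_apply, RCLike.star_def, Complex.conj_conj] at h5
    rwa [h5])
  rw [h4 (mw p)] at hp
  refine hp ?_
  by_cases hq : ∫ ω, F ω * conj (w p ω) ∂Q = 0
  · have h6 : (mw p).toLp (w p) ∈ ((Submodule.span ℂ G).topologicalClosure)ᗮ := by
      refine hfib_orth fun g hg => ?_
      rw [hG] at hg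
      obtain ⟨q, hq', rfl⟩ := hg
      rw [hfib_inner']
      refine (horth q p).resolve_right fun ⟨c, hc⟩ => hq' ?_
      have h7 : ∫ ω, F ω * conj (w q ω) ∂Q = conj c * ∫ ω, F ω * conj (w p ω) ∂Q := by
        rw [← integral_const_mul]
        refine integral_congr_ae ?_
        filter_upwards [hc] with ω e2
        have e3 := congrFun (hw p).star_mul_self ω
        simp only [Pi.mul_apply, Pi.star_apply, RCLike.star_def, Pi.one_apply] at e2 e3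
        rw [← e2, map_mul, Complex.conj_conj]
        linear_combination (-(F ω * conj (w q ω))) * e3
      rw [h7, hq, mul_zero]
    rw [ev, inner_sub_right, Submodule.inner_left_of_mem_orthogonal hy h6, sub_zero,
      hfib_inner', hq]
  · refine Submodule.inner_right_of_mem_orthogonal
      (Submodule.le_topologicalClosure _ (Submodule.subset_span ?_)) hv
    rw [hG]
    exact ⟨p, hq, rfl⟩

end Sys

end Vale.Agent.P102
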