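import Vale.Agent.P102.Basic

/-! P102, file Rect: a bound on rectangles gives a pointwise bound.

PLAN. The measurable boxes `Set.pi univ C` form a semiring generating `MeasurableSpace.pi`
(`generateFrom_pi`, `IsSetSemiring` for boxes: look for `IsSetSemiring.pi`; otherwise argue by
induction with the ring of finite disjoint unions). The bound `‖∫_{A ∩ R} G‖ ≤ c ν (A ∩ R)` passes
to finite disjoint unions, then to all measurable `R`
(`exists_measure_symmDiff_lt_of_generateFrom_isSetSemiring`, absolute continuity of the integral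
of the bounded function `G`). ALTERNATIVE without semirings: fix a unit `θ`; the finite measures
`ν₁ = (ν.restrict A).withDensity (M + re (θ G))` and `ν₂ = (M + c) • ν.restrict A` satisfy
`ν₁ ≤ ν₂` on boxes. Finally `ae_le_of_forall_setIntegral_le` for `re (θ G) ≤ c`, `θ` in a countable
dense set of unit vectors (or directly: test with `R = {re (θ G) > c + 1/n}`). -/

open MeasureTheory ProbabilityTheory Filter Topology Set
open scoped ComplexConjugate ENNReal InnerProductSpace

namespace Vale.Agent.P102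

/-- Unions of cells of a finite grid. -/
def rectC (ι W : Type*) [MeasurableSpace W] : Set (Set (ι → W)) :=
  {R | ∃ (K : Type) (_ : Fintype K) (π : W → K) (S : Set (ι → K)),
    (∀ k, MeasurableSet (π ⁻¹' {k})) ∧ R = (fun w i => π (w i)) ⁻¹' S}

theorem rect_op {ι W : Type*} [MeasurableSpace W] (p : Prop → Prop → Prop) {s t : Set (ι → W)}
    (hs : s ∈ rectC ι W) (ht : t ∈ rectC ι W) : {w | p (w ∈ s) (w ∈ t)} ∈ rectC ι W := by
  obtain ⟨K, _, π, S, h, rfl⟩ := hs
  obtain ⟨K', _, π', S', h', rfl⟩ := ht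
  refine ⟨K × K', inferInstance, fun x => (π x, π' x),
    {σ | p ((fun i => (σ i).1) ∈ S) ((fun i => (σ i).2) ∈ S')}, fun k => ?_, rfl⟩
  have e : (fun x => (π x, π' x)) ⁻¹' {k} = π ⁻¹' {k.1} ∩ π' ⁻¹' {k.2} := by
    ext x
    simp [Prod.ext_iff]
  rw [e]
  exact (h _).inter (h' _)

theorem rect_ring (ι W : Type*) [MeasurableSpace W] : IsSetRing (rectC ι W) where
  empty_mem := ⟨Unit, inferInstance, fun _ => (), ∅, fun _ => MeasurableSet.const _, rfl⟩
  union_mem _ _ hs ht := rect_op (fun a b => a ∨ b) hs ht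
  sdiff_mem _ _ hs ht := rect_op (fun a b => a ∧ ¬b) hs ht

theorem rect_meas {ι W : Type*} [Fintype ι] [MeasurableSpace W] {s : Set (ι → W)}
    (hs : s ∈ rectC ι W) : MeasurableSet s := by
  obtain ⟨K, _, π, S, h, rfl⟩ := hs
  let _ : MeasurableSpace K := ⊤
  have hπ : Measurable π := measurable_to_countable' h
  exact (measurable_pi_lambda _ fun i => hπ.comp (measurable_pi_apply i)) S.toFinite.measurableSet

theorem rect_gen (ι W : Type*) [Fintype ι] [MeasurableSpace W] :
    (MeasurableSpace.pi : MeasurableSpace (ι → W)) = MeasurableSpace.generateFrom (rectC ι W) := by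
  refine le_antisymm (iSup_le fun i => ?_) (MeasurableSpace.generateFrom_le fun _ => rect_meas)
  rintro _ ⟨B, hB, rfl⟩
  refine MeasurableSpace.measurableSet_generateFrom
    ⟨Prop, inferInstance, fun x => x ∈ B, {σ | σ i}, fun k => ?_, rfl⟩
  exact (measurable_mem.2 hB) trivial

theorem rect_real {ι W : Type*} [Fintype ι] [MeasurableSpace W] (ρ : Measure (ι → W))
    [IsFiniteMeasure ρ] {g : (ι → W) → ℝ} (hg : Measurable g) {M : ℝ} (hM : ∀ w, ‖g w‖ ≤ M)
    (h : ∀ C : ι → Set W, (∀ i, MeasurableSet (C i)) → 0 ≤ ∫ w in Set.pi univ C, g w ∂ρ) :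
    ∀ᵐ w ∂ρ, 0 ≤ g w := by
  classical
  have hi : Integrable g ρ := Integrable.of_bound hg.aestronglyMeasurable M (.of_forall hM)
  have h1 : ∀ t ∈ rectC ι W, 0 ≤ ∫ w in t, g w ∂ρ := by
    rintro _ ⟨K, _, π, S, hπ, rfl⟩
    have e : (fun (w : ι → W) i => π (w i)) ⁻¹' S =
        ⋃ σ ∈ S.toFinite.toFinset, Set.pi univ fun i => π ⁻¹' {σ i} := by
      ext w
      simp only [mem_preimage, Finite.mem_toFinset, mem_iUnion, Set.mem_pi, mem_univ,
        mem_singleton_iff, true_imp_iff, exists_prop]
      exact ⟨fun hw => ⟨_, hw, fun _ => rfl⟩, fun ⟨σ, h1, h2⟩ => funext h2 ▸ h1⟩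
    rw [e, integral_biUnion_finset _ (fun σ _ => MeasurableSet.univ_pi fun i => hπ _)
      (fun σ _ τ _ hne => Set.disjoint_left.2 fun w h1 h2 => hne (funext fun i =>
        (h1 i trivial).symm.trans (h2 i trivial))) fun _ _ => hi.integrableOn]
    exact Finset.sum_nonneg fun σ _ => h _ fun i => hπ _
  refine ae_nonneg_of_forall_setIntegral_nonneg hi fun s hs _ => ?_
  refine le_of_forall_pos_le_add fun ε hε => ?_
  obtain ⟨t, ht, h2⟩ := exists_measure_symmDiff_lt_of_generateFrom_isSetRing (μ := ρ)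
    (rect_ring ι W) ⟨{univ}, countable_singleton _, singleton_subset_iff.2
      ⟨Unit, inferInstance, fun _ => (), univ, fun _ => MeasurableSet.const _, rfl⟩, by simp⟩
    (rect_gen ι W) hs (ε := ENNReal.ofReal (ε / (|M| + 1))) (ENNReal.ofReal_pos.2 (by positivity))
  have ht' := rect_meas ht
  have h3 : ρ.real (symmDiff t s) ≤ ε / (|M| + 1) :=
    ENNReal.toReal_le_of_le_ofReal (by positivity) h2.le
  have h4 : ‖∫ w, (t.indicator g w - s.indicator g w) ∂ρ‖ ≤
      ∫ w, (symmDiff t s).indicator (fun _ => |M| + 1) w ∂ρ := by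
    refine norm_integral_le_of_norm_le ((integrable_const _).indicator (ht'.symmDiff hs))
      (.of_forall fun w => ?_)
    have h5 : ‖g w‖ ≤ |M| + 1 := (hM w).trans ((le_abs_self M).trans (by linarith))
    by_cases a : w ∈ t <;> by_cases b : w ∈ s <;>
      simp [a, b, Set.mem_symmDiff, Set.indicator] <;> exact h5
  rw [integral_sub (hi.indicator ht') (hi.indicator hs), integral_indicator ht',
    integral_indicator hs, integral_indicator (ht'.symmDiff hs), setIntegral_const, smul_eq_mul]
    at h4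
  rw [le_div_iff₀ (by positivity)] at h3
  have h6 := h1 t ht
  have h7 := (le_abs_self _).trans h4
  linarith

theorem ae_norm_le_of_boxes {ι W : Type*} [Fintype ι] [MeasurableSpace W] (ν : Measure (ι → W))
    [IsFiniteMeasure ν] {G : (ι → W) → ℂ} (hG : Measurable G) {M : ℝ} (hM : ∀ w, ‖G w‖ ≤ M)
    {A : Set (ι → W)} (hA : MeasurableSet A) {c : ℝ} (hc : 0 ≤ c)
    (h : ∀ C : ι → Set W, (∀ i, MeasurableSet (C i)) →
      ‖∫ w in A ∩ Set.pi univ C, G w ∂ν‖ ≤ c * ν.real (A ∩ Set.pi univ C)) :
    ∀ᵐ w ∂ν, w ∈ A → ‖G w‖ ≤ c := by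
  rw [← ae_restrict_iff' hA]
  obtain ⟨D, hD, hd⟩ := TopologicalSpace.exists_countable_dense ℂ
  have hi : Integrable G (ν.restrict A) :=
    Integrable.of_bound hG.aestronglyMeasurable M (.of_forall hM)
  have h1 : ∀ θ : ℂ, ∀ᵐ w ∂ν.restrict A, 0 ≤ c * ‖θ‖ - (θ * G w).re := fun θ => by
    refine rect_real _ (measurable_const.sub (Complex.measurable_re.comp (hG.const_mul θ)))
      (M := ‖c * ‖θ‖‖ + ‖θ‖ * M) (fun w => (norm_sub_le _ _).trans (add_le_add le_rfl
        ((Complex.abs_re_le_norm _).trans ?_))) fun C hC => ?_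
    · rw [norm_mul]
      exact mul_le_mul_of_nonneg_left (hM w) (norm_nonneg _)
    · have h2 := h C hC
      have h3 := MeasurableSet.univ_pi hC
      rw [inter_comm, ← Measure.restrict_restrict h3, ← measureReal_restrict_apply h3] at h2
      have h4 : ∫ w in Set.pi univ C, (θ * G w).re ∂ν.restrict A =
          (θ * ∫ w in Set.pi univ C, G w ∂ν.restrict A).re := by
        rw [← integral_const_mul]
        exact integral_re (hi.const_mul θ).integrableOn
      have h5 : Integrable (fun w => (θ * G w).re) (ν.restrict A) := (hi.const_mul θ).re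
      rw [integral_sub (integrable_const _) h5.integrableOn, setIntegral_const,
        smul_eq_mul, sub_nonneg, h4]
      refine (Complex.re_le_norm _).trans ?_
      rw [norm_mul]
      exact (mul_le_mul_of_nonneg_left h2 (norm_nonneg _)).trans_eq (by ring)
  filter_upwards [(ae_ball_iff hD).2 fun θ _ => h1 θ] with w hw
  have h2 : 0 ≤ c * ‖conj (G w)‖ - (conj (G w) * G w).re :=
    hd.induction (P := fun θ => 0 ≤ c * ‖θ‖ - (θ * G w).re) hw
      (isClosed_le continuous_const (by fun_prop)) _
  rw [Complex.norm_conj, Complex.conj_mul', ← Complex.ofReal_pow, Complex.ofReal_re] at h2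
  by_contra h3
  have h4 := lt_of_not_ge h3
  nlinarith

end Vale.Agent.P102
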