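import Vale.Agent.P102.HSharp
import Vale.Agent.P102.HAtom
import Vale.Agent.P102.Rect

/-! P102, file HRel: a relation between atoms at finite times.

PLAN. Let `φ j` be the dense family of `B 0` (`exists_dense_uni`). For `n : ℕ` and
`j : Fin k → ℕ` put `σ = ε = 1 / (n + 1)`, `η = 1 / ((n + 1) * (10 * k + 10))`, and let `Z n j` be
the set of `ω` with atoms `a i ∈ O σ (ε + 2 η) (η (π i ω)) i 0`, characters of `κw (ζ (π i ω))`,
within `η` of `φ (j i)`, and `∏ a i ∘ π i = 1` a.e. `Atom ω → ∃ n j, ω ∈ Z n j`, so some `Z n j`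
is non-null (`exists_atoms`, `ae_all_iff`). Take `Bs i` from `exists_sharp`. If the claim failed,
then (ultrafilter, `Ultrafilter.eventually_not`) `finite_bound` holds for `𝔭`-most times, and
`a5` (twice) with `le_of_tendsto_of_tendsto` gives the same bound with `π i`, `P1`. Let
`ν := P1.map ζ1`, `G w := ∫ ∏ φ (j i) (π i ω') ∂κw1 w`, `A := Set.pi univ Bs`; rewrite both sides
(`setIntegral_map`, `kd_integral`, `integral_mul_condExp`) and apply `ae_norm_le_of_boxes`,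
`ae_of_ae_map`: a.e. `ζ1 ω ∈ A → ‖G (ζ1 ω)‖ ≤ k η`. At a good point of `Z n j` we have
`ζ1 ω ∈ A` (third part of `Sharp`, `ae_π`) and `‖G - 1‖ ≤ k η` (`norm_integral_prod_sub_le`,
`ae_map_π`, `integral_map`), contradicting `2 k η < 1`. -/

open MeasureTheory ProbabilityTheory Filter Topology Set
open scoped ComplexConjugate ENNReal InnerProductSpace

namespace Vale.Agent.P102

namespace Sys

variable {k : ℕ} {X Ω₀ Ω₁ W E : Type} [mX : MeasurableSpace X] [m0 : MeasurableSpace Ω₀]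
  [m1 : MeasurableSpace Ω₁] [mW : MeasurableSpace W] [mE : MeasurableSpace E]
  [StandardBorelSpace X] [StandardBorelSpace Ω₀] [Nonempty Ω₀] [StandardBorelSpace Ω₁]
  [Nonempty Ω₁] [StandardBorelSpace W] [StandardBorelSpace E] (Y : Sys k X Ω₀ Ω₁ W E)

theorem HRel_prod_ind {ι V : Type*} [Fintype ι] (A : ι → Set V) (w : ι → V) :
    ∏ i, ind (A i) (w i) = ind (Set.pi univ A) w := by
  by_cases h : w ∈ Set.pi univ A
  · rw [ind, indicator_of_mem h]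
    exact Finset.prod_eq_one fun i _ => indicator_of_mem (h i (mem_univ i)) _
  · rw [ind, indicator_of_notMem h]
    simp only [Set.mem_pi, mem_univ, true_imp_iff, not_forall] at h
    obtain ⟨i, hi⟩ := h
    exact Finset.prod_eq_zero (Finset.mem_univ i) (indicator_of_notMem hi _)

theorem HRel_uni {φ : Fin k → Ω₀ → ℂ} (hφ : ∀ i, Uni (Y.B 0) (φ i)) (i : Fin k) :
    Uni m1 fun ω => φ i (Y.π i ω) :=
  ((hφ i).mono (Y.B_le 0)).comp (Y.mπ i)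

theorem HRel_uni_prod {φ : Fin k → Ω₀ → ℂ} (hφ : ∀ i, Uni (Y.B 0) (φ i)) :
    Uni m1 fun ω => ∏ i, φ i (Y.π i ω) := by
  have h := Uni.prod Finset.univ fun i _ => Y.HRel_uni hφ i
  have e : (∏ i, fun ω => φ i (Y.π i ω)) = fun ω => ∏ i, φ i (Y.π i ω) := by
    funext ω
    simp only [Finset.prod_apply]
  rwa [e] at h

theorem HRel_meas {φ : Fin k → Ω₀ → ℂ} (hφ : ∀ i, Uni (Y.B 0) (φ i)) :
    Measurable fun w => ∫ ω, ∏ i, φ i (Y.π i ω) ∂Y.κw1 w :=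
  ((Y.HRel_uni_prod hφ).1.stronglyMeasurable.integral_kernel (κ := Y.κw1)).measurable

theorem HRel_limit {φ : Fin k → Ω₀ → ℂ} (hφ : ∀ i, Uni (Y.B 0) (φ i)) {D : Fin k → Set W}
    (hD : ∀ i, MeasurableSet (D i)) {c : ℝ}
    (h : ∀ᶠ n in (Y.𝔭 : Filter ℕ),
      ‖∫ ω, ∏ i, (ind (D i) (Y.ζ (Y.S (Y.t n i) ω)) * φ i (Y.S (Y.t n i) ω)) ∂Y.P0‖ ≤
        c * ‖∫ ω, ∏ i, ind (D i) (Y.ζ (Y.S (Y.t n i) ω)) ∂Y.P0‖) :
    ‖∫ w in Set.pi univ D, ∫ ω, ∏ i, φ i (Y.π i ω) ∂Y.κw1 w ∂Y.P1.map Y.ζ1‖ ≤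
      c * (Y.P1.map Y.ζ1).real (Set.pi univ D) := by
  have hm : ∀ i, Measurable fun ω => ind (D i) (Y.ζ ω) := fun i =>
    (measurable_ind (hD i)).comp Y.mζ
  have h1 := Y.a5 (fun i ω => ind (D i) (Y.ζ ω) * φ i ω)
    (fun i => (hm i).mul ((hφ i).mono (Y.B_le 0)).1) fun i ω => by
      rw [norm_mul, (hφ i).2, mul_one]
      exact norm_ind_le _ _
  have h2 := Y.a5 (fun i ω => ind (D i) (Y.ζ ω)) hm fun i ω => norm_ind_le _ _
  have h3 := le_of_tendsto_of_tendsto h1.norm (h2.norm.const_mul c) h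
  have hP : MeasurableSet (Set.pi univ D) := MeasurableSet.univ_pi hD
  have hi : Measurable (ind (Set.pi univ D)) := measurable_ind hP
  have e1 : ∀ ω, ∏ i, ind (D i) (Y.ζ (Y.π i ω)) = ind (Set.pi univ D) (Y.ζ1 ω) := fun ω =>
    HRel_prod_ind D (Y.ζ1 ω)
  have hle : MeasurableSpace.pi.comap Y.ζ1 ≤ m1 := Y.mζ1.comap_le
  have hb : BM Y.P1 (MeasurableSpace.pi.comap Y.ζ1) fun ω => ind (Set.pi univ D) (Y.ζ1 ω) :=
    BM.of_le (hi.comp (comap_measurable Y.ζ1)) fun ω => norm_ind_le _ _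
  have hI : Integrable (fun ω => ∏ i, φ i (Y.π i ω)) Y.P1 :=
    (Y.HRel_uni_prod hφ).bm.integrable le_rfl
  have e2 : ∫ w in Set.pi univ D, ∫ ω, ∏ i, φ i (Y.π i ω) ∂Y.κw1 w ∂Y.P1.map Y.ζ1 =
      ∫ ω, ∏ i, (ind (D i) (Y.ζ (Y.π i ω)) * φ i (Y.π i ω)) ∂Y.P1 := by
    rw [← integral_ind_mul hP, integral_map Y.mζ1.aemeasurable
      (hi.fun_mul (Y.HRel_meas hφ)).aestronglyMeasurable]
    simp only [Finset.prod_mul_distrib, e1]
    rw [← integral_mul_condExp hle hb.1 (hb.mul_integrable hle hI) hI]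
    refine integral_congr_ae ?_
    filter_upwards [kd_integral (P := Y.P1) Y.mζ1 hI] with ω hω
    rw [← hω]
    rfl
  have e3 : (Y.P1.map Y.ζ1).real (Set.pi univ D) =
      ‖∫ ω, ∏ i, ind (D i) (Y.ζ (Y.π i ω)) ∂Y.P1‖ := by
    simp only [e1]
    rw [← integral_map Y.mζ1.aemeasurable hi.aestronglyMeasurable, integral_ind hP,
      Complex.norm_real, Real.norm_of_nonneg measureReal_nonneg]
  rw [e2, e3]
  exact h3

/-- The event used in the countable decomposition. -/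
def HRel_Z (σ ε η : ℝ) (φ : Fin k → Ω₀ → ℂ) (ω : Ω₁) : Prop :=
  ∃ a : Fin k → UG (Y.B 0), (∀ᵐ ω' ∂Y.κw1 (Y.ζ1 ω), ∏ i, (a i : Ω₀ → ℂ) (Y.π i ω') = 1) ∧
    ∀ i, a i ∈ Y.O σ (ε + 2 * η) (Y.η (Y.π i ω)) i 0 ∧ Ch Y.B (Y.κw (Y.ζ (Y.π i ω))) (a i) ∧
      ∫ ω', ‖(a i : Ω₀ → ℂ) ω' - φ i ω'‖ ∂Y.κw (Y.ζ (Y.π i ω)) < η

theorem HRel_main {σ ε η : ℝ} (hσ : 0 < σ) (hη0 : 0 ≤ η) (hη : η ≤ 1 / 10) (hk : 2 * (k * η) < 1)
    {φ : Fin k → Ω₀ → ℂ} (hφ : ∀ i, Uni (Y.B 0) (φ i))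
    (hno : ∀ᶠ n in (Y.𝔭 : Filter ℕ), ∀ᵐ ω ∂Y.P0, ¬ Rel (Y.K (Y.η ω)) (Y.O σ ε (Y.η ω)) (Y.t n)) :
    ∀ᵐ ω ∂Y.P1, ¬ Y.HRel_Z σ ε η φ ω := by
  choose Bs hBs using fun i => Y.exists_sharp ε hσ hη i (hφ i)
  have : IsProbabilityMeasure (Y.P1.map Y.ζ1) := Measure.isProbabilityMeasure_map Y.mζ1.aemeasurable
  have h1 := ae_norm_le_of_boxes (Y.P1.map Y.ζ1) (Y.HRel_meas hφ) (M := 1)
    (fun w => by
      have := norm_integral_le_of_norm_le_const (μ := Y.κw1 w) (C := 1)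
        (f := fun ω => ∏ i, φ i (Y.π i ω))
        (Eventually.of_forall fun ω => ((Y.HRel_uni_prod hφ).2 ω).le)
      simpa using this)
    (MeasurableSet.univ_pi fun i => (hBs i).1) (c := k * η) (by positivity) fun C hC => by
      rw [← Set.pi_inter_distrib]
      refine Y.HRel_limit hφ (fun i => (hBs i).1.inter (hC i)) ?_
      filter_upwards [hno] with n hn
      exact Y.finite_bound hφ hBs (Y.t n) hn C hC
  filter_upwards [ae_of_ae_map Y.mζ1.aemeasurable h1, Y.ae_π Y.ae_Gw, Y.ae_π Y.ae_Ge, Y.ae_map_π]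
    with ω h2 hw he hπ
  rintro ⟨a, ha1, ha⟩
  have h3 := h2 fun i _ => (hBs i).2.2 _ (hw i) (he i) _ (ha i).1 (ha i).2.1 (ha i).2.2
  have h4 := norm_integral_prod_sub_le (ρ := Y.κw1 (Y.ζ1 ω))
    (Y.HRel_uni fun i => UG.uni (a i)) (Y.HRel_uni hφ)
  have h5 : ∫ ω', ∏ i, (a i : Ω₀ → ℂ) (Y.π i ω') ∂Y.κw1 (Y.ζ1 ω) = 1 := by
    rw [integral_congr_ae ha1]
    simp
  have h6 : ∑ i, ∫ ω', ‖(a i : Ω₀ → ℂ) (Y.π i ω') - φ i (Y.π i ω')‖ ∂Y.κw1 (Y.ζ1 ω) ≤ k * η := by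
    have := Finset.sum_le_card_nsmul Finset.univ
      (fun i => ∫ ω', ‖(a i : Ω₀ → ℂ) (Y.π i ω') - φ i (Y.π i ω')‖ ∂Y.κw1 (Y.ζ1 ω)) η fun i _ => by
        have h7 := (ha i).2.2
        rw [← (hπ i).1, integral_map (Y.mπ i).aemeasurable
          (((UG.uni (a i)).mono (Y.B_le 0)).1.fun_sub
            ((hφ i).mono (Y.B_le 0)).1).norm.aestronglyMeasurable] at h7
        exact h7.le
    simpa using this
  rw [h5] at h4
  have h8 := norm_le_norm_sub_add (1 : ℂ) (∫ ω', ∏ i, φ i (Y.π i ω') ∂Y.κw1 (Y.ζ1 ω))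
  rw [norm_one] at h8
  linarith

theorem exists_rel : ∃ σ ε : ℝ, 0 < σ ∧ 0 < ε ∧ ∀ᶠ n in (Y.𝔭 : Filter ℕ),
    ¬ ∀ᵐ ω ∂Y.P0, ¬ Rel (Y.K (Y.η ω)) (Y.O σ ε (Y.η ω)) (Y.t n) := by
  by_contra hcon
  have hno : ∀ σ : ℝ, 0 < σ → ∀ᶠ n in (Y.𝔭 : Filter ℕ),
      ∀ᵐ ω ∂Y.P0, ¬ Rel (Y.K (Y.η ω)) (Y.O σ σ (Y.η ω)) (Y.t n) := fun σ hσ => by
    by_contra h
    exact hcon ⟨σ, σ, hσ, hσ, Ultrafilter.eventually_not.2 h⟩
  obtain ⟨φ, hφ, hd⟩ := exists_dense_uni (Y.B_le 0) (Y.B_cg 0)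
  have hk0 : (0 : ℝ) ≤ k := Nat.cast_nonneg k
  have key : ∀ᵐ ω ∂Y.P1, ∀ p : ℕ × (Fin k → ℕ), ¬ Y.HRel_Z (1 / (p.1 + 1)) (1 / (p.1 + 1))
      (1 / (p.1 + 1) * (1 / (10 * k + 10))) (fun i => φ (p.2 i)) ω := by
    refine ae_all_iff.2 fun p => ?_
    have h0 : (0 : ℝ) < 1 / (p.1 + 1) := by positivity
    have h1 : (1 : ℝ) / (p.1 + 1) ≤ 1 := by
      rw [div_le_one (by positivity)]
      linarith [(Nat.cast_nonneg p.1 : (0 : ℝ) ≤ p.1)]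
    have h2 : (1 : ℝ) / (p.1 + 1) * (1 / (10 * k + 10)) ≤ 1 / (10 * k + 10) :=
      mul_le_of_le_one_left (by positivity) h1
    refine Y.HRel_main h0 (by positivity) (h2.trans ?_) ?_ (fun i => hφ _) (hno _ h0)
    · exact one_div_le_one_div_of_le (by norm_num) (by linarith)
    · have h3 : (k : ℝ) * (1 / (10 * k + 10)) ≤ 1 / 10 := by
        rw [mul_one_div, div_le_div_iff₀ (by positivity) (by norm_num)]
        linarith
      linarith [mul_le_mul_of_nonneg_left h2 hk0]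
  refine Y.exists_atoms ?_
  filter_upwards [key] with ω hω
  rintro ⟨a, ha1, ha⟩
  have h1 : ∀ᶠ n : ℕ in atTop, ∀ i, (1 : ℝ) / (n + 1) < Y.wt (Y.η (Y.π i ω)) (a i) ∧
      (1 : ℝ) / (n + 1) <
        ‖∫ ω', (a i : Ω₀ → ℂ) ω' * Y.F i 0 ω' ∂Y.κe (Y.η (Y.π i ω))‖ / 2 :=
    eventually_all.2 fun i =>
      (tendsto_one_div_add_atTop_nhds_zero_nat.eventually_lt_const (ha i).2.1).and
        (tendsto_one_div_add_atTop_nhds_zero_nat.eventually_lt_const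
          (half_pos (norm_pos_iff.2 (ha i).2.2)))
  obtain ⟨n, hn⟩ := h1.exists
  choose j hj using fun i => hd (Y.κw (Y.ζ (Y.π i ω))) inferInstance _ (UG.uni (a i))
    (1 / (n + 1) * (1 / (10 * k + 10))) (by positivity)
  refine hω (n, j) ⟨a, ha1, fun i => ⟨⟨(hn i).1.le, ?_⟩, (ha i).1, hj i⟩⟩
  have h2 : (1 : ℝ) / (10 * k + 10) ≤ 1 / 10 :=
    one_div_le_one_div_of_le (by norm_num) (by linarith)
  have h3 : (0 : ℝ) < 1 / (n + 1) := by positivity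
  have h4 := mul_le_mul_of_nonneg_left h2 h3.le
  have h5 := (hn i).2
  simp only
  linarith

end Sys

end Vale.Agent.P102
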