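import Vale.Agent.P102.SysBasic

/-! P102, file HSharp: a measurable description of the event that an atom lies near `φ`, and the
estimate at a finite time.

PLAN of `exists_sharp`. Let `N ⊆ W × Ω₀` be the set of `exists_measurable_near` for the kernels
`κw.comap Prod.fst` and `κw.comap (ζ ∘ Prod.snd)`, and
`Bs := {w | σ ≤ (κe (r w)).real {ω'' | (w, ω'') ∈ N} ∧ ε + η ≤ ‖∫ φ * F i 0 ∂κe (r w)‖}`
(`Kernel.measurable_kernel_prodMk_left` for `κe.comap r`, `StronglyMeasurable.integral_kernel`).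
For good `ω` and `κe (η ω)`-a.e. `ω''` membership in `N` is `Near`. (⇒) the section is non-null;
a good point of it gives `a`; at any other good point of the section the witness `a''` is within
`2 η < 1` of `a`, so `Ch.triv_of_close`, `Agree.triv`, `Ch.of_triv`; `measure_mono_ae`. Labels:
`norm_integral_mul_sub_le`, `Agree.integral_eq`. (⇐) `{Ch a} ⊆` section a.e.
`finite_bound`: for a.e. `ω` with `ζ (S (t i) ω) ∈ Bs i` for all `i`, take the atoms `a i`; the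
`b i := pull (S (t i)) (a i)` lie in `O (η ω) i (t i)` (`pull_mem_O`, `ae_mor_S`, `F_S`) and are
characters of `ρ = κw (ζ ω)` (`Ch.comp`, `ae_map_S`); `Ch.prod`, `Ch.dich`; `Triv` would give `Rel`
(`Agree.triv`), so `∫ ∏ b i ∂ρ = 0` and `norm_integral_prod_sub_le` gives the bound `k η`. Then
integrate: the set `D = ⋂ (ζ ∘ S (t i))⁻¹ (Bs i ∩ C i)` is `comap ζ`-measurable (`S_ζ`), so
`∫ ind D * Φ = ∫ ind D * P0[Φ | comap ζ]` (`integral_mul_condExp`, `kd_integral`). -/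

open MeasureTheory ProbabilityTheory Filter Topology Set
open scoped ComplexConjugate ENNReal InnerProductSpace

namespace Vale.Agent.P102

namespace Sys

variable {k : ℕ} {X Ω₀ Ω₁ W E : Type} [mX : MeasurableSpace X] [m0 : MeasurableSpace Ω₀]
  [m1 : MeasurableSpace Ω₁] [mW : MeasurableSpace W] [mE : MeasurableSpace E]
  [StandardBorelSpace X] [StandardBorelSpace Ω₀] [Nonempty Ω₀] [StandardBorelSpace Ω₁]
  [Nonempty Ω₁] [StandardBorelSpace W] [StandardBorelSpace E] (Y : Sys k X Ω₀ Ω₁ W E)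

/-- The two properties of the measurable set `Bs`. -/
def Sharp (σ ε η : ℝ) (i : Fin k) (φ : Ω₀ → ℂ) (Bs : Set W) : Prop :=
  MeasurableSet Bs ∧
  (∀ ω, Y.Gw ω → Y.Ge (Y.η ω) → Y.ζ ω ∈ Bs → ∃ a ∈ Y.O σ ε (Y.η ω) i 0,
    Ch Y.B (Y.κw (Y.ζ ω)) a ∧ ∫ ω', ‖(a : Ω₀ → ℂ) ω' - φ ω'‖ ∂Y.κw (Y.ζ ω) < η) ∧
  ∀ ω, Y.Gw ω → Y.Ge (Y.η ω) → ∀ a ∈ Y.O σ (ε + 2 * η) (Y.η ω) i 0,
    Ch Y.B (Y.κw (Y.ζ ω)) a → ∫ ω', ‖(a : Ω₀ → ℂ) ω' - φ ω'‖ ∂Y.κw (Y.ζ ω) < η → Y.ζ ω ∈ Bs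

private theorem sharp_label {ω : Ω₀} (h : Y.Gw ω) (i : Fin k) {a φ : Ω₀ → ℂ} (ha : Uni (Y.B 0) a)
    (hφ : Uni (Y.B 0) φ) : ‖∫ ω', a ω' * Y.F i 0 ω' ∂Y.κe (Y.η ω) -
      ∫ ω', φ ω' * Y.F i 0 ω' ∂Y.κe (Y.η ω)‖ ≤ ∫ ω', ‖a ω' - φ ω'‖ ∂Y.κw (Y.ζ ω) := by
  rw [near_agree (Y.B_le 0) h.2 ha hφ]
  exact norm_integral_mul_sub_le (Y.B_le 0) ha hφ ((Y.mF i 0).mono (Y.B_le 0) le_rfl) (Y.F_le i 0)

theorem exists_sharp {σ η : ℝ} (ε : ℝ) (hσ : 0 < σ) (hη : η ≤ 1 / 10) (i : Fin k) {φ : Ω₀ → ℂ}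
    (hφ : Uni (Y.B 0) φ) : ∃ Bs, Y.Sharp σ ε η i φ Bs := by
  obtain ⟨N, hN, H⟩ := exists_measurable_near Y.B_le Y.B_cg (Y.κw.comap Prod.fst measurable_fst)
    (Y.κw.comap (Y.ζ ∘ Prod.snd) (Y.mζ.comp measurable_snd)) hφ hη
  have key : ∀ ω, Y.Gw ω → Y.Ge (Y.η ω) → ∀ᵐ ω' ∂Y.κe (Y.η ω),
      Agree (Y.B 0) (Y.κw (Y.ζ ω)) (Y.κw (Y.ζ ω')) ∧
      ((Y.ζ ω, ω') ∈ N ↔ Near Y.B (Y.κw (Y.ζ ω)) (Y.κw (Y.ζ ω')) φ η) := fun ω h1 h2 =>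
    h2.mono fun ω' h => ⟨h1.2.trans h.2.symm, H (Y.ζ ω, ω') h1.1 (h1.2.trans h.2.symm)⟩
  refine ⟨{w | σ ≤ (Y.κe (Y.r w)).real (Prod.mk w ⁻¹' N)} ∩
    {w | ε + η ≤ ‖∫ ω', φ ω' * Y.F i 0 ω' ∂Y.κe (Y.r w)‖}, ?_, fun ω h1 h2 h3 => ?_,
    fun ω h1 h2 a ha hc hd => ⟨ha.1.trans ?_, ?_⟩⟩
  · refine (measurableSet_le measurable_const ?_).inter (measurableSet_le measurable_const ?_)
    · exact (Kernel.measurable_kernel_prodMk_left (κ := Y.κe.comap Y.r Y.mr) hN).ennreal_toReal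
    · exact (((hφ.1.mul (Y.mF i 0)).mono (Y.B_le 0) le_rfl).stronglyMeasurable.integral_kernel
        (κ := Y.κe.comap Y.r Y.mr)).norm.measurable
  · have h4 : Y.κe (Y.η ω) (Prod.mk (Y.ζ ω) ⁻¹' N) ≠ 0 := fun e =>
      (hσ.trans_le h3.1).ne' ((measureReal_eq_zero_iff).2 e)
    obtain ⟨ω₁, h5, h6⟩ := Measure.exists_mem_of_measure_ne_zero_of_ae h4
      (ae_restrict_of_ae (key ω h1 h2))
    obtain ⟨a, ha, hc, -, hd⟩ := h6.2.1 h5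
    refine ⟨⟨a, ha⟩, ⟨h3.1.trans ?_, ?_⟩, hc, hd⟩
    · refine ENNReal.toReal_mono (measure_ne_top _ _) (measure_mono_ae ?_)
      filter_upwards [key ω h1 h2] with ω' h h'
      obtain ⟨a', ha', hc', hc'', hd'⟩ := h.2.1 h'
      have h7 := near_tri (ρ := Y.κw (Y.ζ ω)) (ha.mono (Y.B_le 0)) (hφ.mono (Y.B_le 0))
        (ha'.mono (Y.B_le 0))
      rw [near_symm φ] at h7
      exact Ch.of_triv ha ha' hc'' (h.1.triv (ha.mul ha'.star).1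
        (Ch.triv_of_close Y.B_le h1.1 ha ha' hc hc' (by linarith)))
    · have h7 := (norm_sub_norm_le _ _).trans ((norm_sub_rev _ _).trans_le (Y.sharp_label h1 i ha hφ))
      have h8 : ε + η ≤ ‖∫ ω', φ ω' * Y.F i 0 ω' ∂Y.κe (Y.η ω)‖ := h3.2
      change ε ≤ ‖∫ ω', a ω' * Y.F i 0 ω' ∂Y.κe (Y.η ω)‖
      linarith
  · refine ENNReal.toReal_mono (measure_ne_top _ _) (measure_mono_ae ?_)
    filter_upwards [key ω h1 h2] with ω' h h'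
    exact h.2.2 ⟨a, UG.uni a, hc, h', hd⟩
  · have h7 := (norm_sub_norm_le _ _).trans (Y.sharp_label h1 i (UG.uni a) hφ)
    have h8 := ha.2
    change ε + η ≤ ‖∫ ω', φ ω' * Y.F i 0 ω' ∂Y.κe (Y.η ω)‖
    linarith


private theorem sharp_fibre {σ ε η : ℝ} {φ : Fin k → Ω₀ → ℂ} (hφ : ∀ i, Uni (Y.B 0) (φ i))
    {Bs : Fin k → Set W} (hBs : ∀ i, Y.Sharp σ ε η i (φ i) (Bs i)) (t : Fin k → ℤ)
    (hno : ∀ᵐ ω ∂Y.P0, ¬ Rel (Y.K (Y.η ω)) (Y.O σ ε (Y.η ω)) t) :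
    ∀ᵐ ω ∂Y.P0, (∀ i, Y.ζ (Y.S (t i) ω) ∈ Bs i) →
      ‖∫ ω', ∏ i, φ i (Y.S (t i) ω') ∂Y.κw (Y.ζ ω)‖ ≤ k * η := by
  filter_upwards [hno, Y.ae_Gw, Y.ae_S Y.ae_Gw, Y.ae_S Y.ae_Ge, ae_all_iff.2 Y.ae_map_S,
    ae_all_iff.2 Y.ae_mor_S] with ω h1 h2 h3 h4 h5 h6 hω
  choose a ha hc hd using fun i => (hBs i).2.1 _ (h3 (t i)) (h4 (t i)) (hω i)
  have hb : ∀ i, Uni (Y.B 0) ((a i : Ω₀ → ℂ) ∘ Y.S (t i)) := fun i =>
    (UG.uni (a i)).comp (Y.S_B _ 0)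
  have hp := Uni.prod Finset.univ fun i _ => hb i
  have h7 := Ch.prod (ρ := Y.κw (Y.ζ ω)) Y.B_le Finset.univ (fun i _ => hb i) fun i _ =>
    Ch.comp Y.B_le (Y.mS _) (Y.S_B _) (UG.uni (a i)) ((h5 (t i)).1.symm ▸ hc i)
  have h8 := (Ch.dich Y.B_le h2.1 hp h7).resolve_right fun h => h1
    ⟨fun i => UG.pull (Y.S (t i)) (Y.S_B _ 0) (a i), fun i => Y.pull_mem_O (Y.mS _) (Y.S_B _)
      (h6 (t i)) (by rw [Y.F_S, zero_add]) (ha i), by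
        rw [K, mem_TG, SubmonoidClass.coe_finsetProd]
        exact h2.2.triv hp.1 h⟩
  have h9 := norm_integral_prod_sub_le (ρ := Y.κw (Y.ζ ω)) (fun i => (hb i).mono (Y.B_le 0))
    fun i => ((hφ i).comp (Y.S_B (t i) 0)).mono (Y.B_le 0)
  simp only [Finset.prod_apply] at h8
  rw [h8, zero_sub, norm_neg] at h9
  refine h9.trans ((Finset.sum_le_card_nsmul _ _ η fun i _ => ?_).trans_eq (by simp))
  have h10 := (hd i).le
  rwa [← (h5 (t i)).1, integral_map (f := fun ω' => ‖(a i : Ω₀ → ℂ) ω' - φ i ω'‖)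
    (Y.mS _).aemeasurable (((UG.uni (a i)).mono (Y.B_le 0)).1.sub
      ((hφ i).mono (Y.B_le 0)).1).norm.aestronglyMeasurable] at h10

theorem finite_bound {σ ε η : ℝ} {φ : Fin k → Ω₀ → ℂ} (hφ : ∀ i, Uni (Y.B 0) (φ i))
    {Bs : Fin k → Set W} (hBs : ∀ i, Y.Sharp σ ε η i (φ i) (Bs i)) (t : Fin k → ℤ)
    (hno : ∀ᵐ ω ∂Y.P0, ¬ Rel (Y.K (Y.η ω)) (Y.O σ ε (Y.η ω)) t) (C : Fin k → Set W)
    (hC : ∀ i, MeasurableSet (C i)) :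
    ‖∫ ω, ∏ i, (ind (Bs i ∩ C i) (Y.ζ (Y.S (t i) ω)) * φ i (Y.S (t i) ω)) ∂Y.P0‖ ≤
      k * η * ‖∫ ω, ∏ i, ind (Bs i ∩ C i) (Y.ζ (Y.S (t i) ω)) ∂Y.P0‖ := by
  set D : Set Ω₀ := ⋂ i, (Y.ζ ∘ Y.S (t i)) ⁻¹' (Bs i ∩ C i) with hD
  have h1 : MeasurableSet[mW.comap Y.ζ] D := MeasurableSet.iInter fun i =>
    Y.S_ζ (t i) _ ⟨_, (hBs i).1.inter (hC i), rfl⟩
  have h2 : MeasurableSet D := Y.mζ.comap_le _ h1
  have h3 : ∀ ω, ∏ i, ind (Bs i ∩ C i) (Y.ζ (Y.S (t i) ω)) = ind D ω := fun ω => by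
    by_cases h : ω ∈ D
    · rw [ind, indicator_of_mem h]
      exact Finset.prod_eq_one fun i _ => indicator_of_mem (s := Bs i ∩ C i) (mem_iInter.1 h i) _
    · obtain ⟨i, hi⟩ := not_forall.1 (mt mem_iInter.2 h)
      rw [ind, indicator_of_notMem h]
      exact Finset.prod_eq_zero (Finset.mem_univ i) (indicator_of_notMem (s := Bs i ∩ C i) hi _)
  have h4 : Integrable (fun ω => ∏ i, φ i (Y.S (t i) ω)) Y.P0 := by
    simpa only [Finset.prod_fn, Function.comp_apply] using ((Uni.prod Finset.univ fun i _ =>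
      (hφ i).comp (Y.S_B (t i) 0)).bm (μ := Y.P0)).integrable (Y.B_le 0)
  simp only [Finset.prod_mul_distrib, h3]
  rw [integral_ind h2, Complex.norm_real, Real.norm_of_nonneg measureReal_nonneg,
    integral_ind_mul h2, ← setIntegral_condExp Y.mζ.comap_le h4 h1,
    ← setIntegral_congr_ae h2 ((kd_integral Y.mζ h4).mono fun _ h _ => h)]
  refine norm_setIntegral_le_of_norm_le_const_ae' (measure_lt_top _ _) ?_
  filter_upwards [Y.sharp_fibre hφ hBs t hno] with ω h hω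
  exact h fun i => (mem_iInter.1 hω i).1


end Sys

end Vale.Agent.P102
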