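import Vale.Agent.P102.Closed

/-! P102, file InstCI: closedness and independence facts of the concrete cube.

PLAN. `clo`: `closed` with `V = univ`, `L = {κ}ᶜ`, `m = Function.update mk' p0 A.toFinset`
(`Mk m = Col A ∪ M` because `mk' p0 = ∅`). Richness: at `p0` choose the level just above
(`dense p0 a`, `a` least in `insert κ (I.erase p0)`), at other marked levels `l` (so `p0 < l`) just
below (`dense a l`, `a` largest in `insert p0 (I.filter (· < l))`). `clo0`: `V = {p0}ᶜ`,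
`L = {p0, κ}ᶜ`, `m = mk'`. `cl1`: `cond_left`, `mono`, `cyl_union`, `cyl_mono`.
`ind_rows`: `a3` with `L = {κ}ᶜ`, `t = κ` (so `Qr = univ`); the pairs of slots are
`({iB}, {i0}) ` (use `c' = i2`), `({iB}, {iB, i0}ᶜ)`, `({i0}, {i0, iB}ᶜ)`.
`row_aux` (abstract): let `r, r', r''` be the three slots (`slot j'' = (slot j ∪ slot j')ᶜ`),
`E = M ∩ Row`. Independence gives `CI r r' (E r ⊔ E r')`; `clo` with `A = ∅`, `G = slot j''` gives
`CI (E r'') (r ⊔ r') (E r ⊔ E r')`, so `CI r (E r'') (r' ⊔ (E r ⊔ E r'))`; `contr`, `cond_right`.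
`law1`: `clo` with `A = ∅`, `G = {iB}ᶜ`. `indξ`: `r3` with `L = Ioo p0 κ`, `La = ∅`. `indΘ`: `r3`
with `La = θ false '' Ioo p0 κ`, `L = La ∪ θ true '' Ioo p0 κ`,
`m l = if l ∈ θ true '' Ioo p0 κ then mk' l else ∅`; here `Qr La ∩ Mk m = ∅` by `θ_sep`; `th_θ`,
`th_of_not`, `σ_κ`. -/

open MeasureTheory ProbabilityTheory Filter Topology Set
open scoped ComplexConjugate ENNReal InnerProductSpace

namespace Vale.Agent.P102

namespace InstCI

section

variable {k : ℕ} {U : Type} [LinearOrder U] {iB : Fin k} (L : Lev k U iB)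

theorem above {l : U} (hl : l < L.κ) (I : Finset U) {c : Fin k} {S : Finset (Fin k)} (hc : c ∉ S)
    (hS : S.card + 2 ≤ k) :
    ∃ p, l < p ∧ p < L.κ ∧ L.σ p = c ∧ L.mk' p = S ∧ ∀ l' ∈ I, l < l' → p < l' := by
  let J := insert L.κ (I.filter (l < ·))
  have hJ : J.Nonempty := Finset.insert_nonempty _ _
  have h1 : l < J.min' hJ := by
    rcases Finset.mem_insert.1 (J.min'_mem hJ) with h | h
    · rwa [h]
    · exact (Finset.mem_filter.1 h).2
  obtain ⟨p, h2, h3, h4, h5⟩ := L.dense _ _ h1 c S hc hS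
  exact ⟨p, h2, h3.trans_le (L.le_κ _), h4, h5, fun l' h6 h7 => h3.trans_le
    (J.min'_le _ (Finset.mem_insert_of_mem (Finset.mem_filter.2 ⟨h6, h7⟩)))⟩

theorem below {l : U} (hl : L.p0 < l) (I : Finset U) {c : Fin k} {S : Finset (Fin k)} (hc : c ∉ S)
    (hS : S.card + 2 ≤ k) :
    ∃ p, L.p0 < p ∧ p < l ∧ L.σ p = c ∧ L.mk' p = S ∧ ∀ l' ∈ I, l' < l → l' < p := by
  let J := insert L.p0 (I.filter (· < l))
  have hJ : J.Nonempty := Finset.insert_nonempty _ _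
  have h1 : J.max' hJ < l := by
    rcases Finset.mem_insert.1 (J.max'_mem hJ) with h | h
    · rwa [h]
    · exact (Finset.mem_filter.1 h).2
  obtain ⟨p, h2, h3, h4, h5⟩ := L.dense _ _ h1 c S hc hS
  exact ⟨p, (L.p0_le _).trans_lt h2, h3, h4, h5, fun l' h6 h7 =>
    (J.le_max' _ (Finset.mem_insert_of_mem (Finset.mem_filter.2 ⟨h6, h7⟩))).trans_lt h2⟩

theorem mem_Ioo_iff {l : U} : l ∈ Ioo L.p0 L.κ ↔ l ≠ L.p0 ∧ l ≠ L.κ :=
  ⟨fun h => ⟨h.1.ne', h.2.ne⟩, fun h => ⟨(L.p0_le l).lt_of_ne' h.1, (L.le_κ l).lt_of_ne h.2⟩⟩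

theorem mem_Ioo_of {l : U} {c : Fin k} (h : c ∈ L.mk' l) : l ∈ Ioo L.p0 L.κ := by
  refine (mem_Ioo_iff L).2 ⟨?_, ?_⟩ <;> rintro rfl
  · simp [L.mk_p0] at h
  · simp [L.mk_κ] at h

theorem thin {T S : Finset (Fin k)} {c : Fin k} (hc : c ∈ T) (hS : S ⊆ T.erase c)
    (hT : T.card + 1 ≤ k) : c ∉ S ∧ S.card + 2 ≤ k := by
  have h1 := Finset.card_le_card hS
  have h2 := Finset.card_erase_add_one hc
  exact ⟨fun h => by simpa using hS h, by omega⟩

theorem rich {m : U → Finset (Fin k)} (h1 : ∀ l, l ≠ L.p0 → m l = L.mk' l)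
    (h2 : (m L.p0).card + 1 ≤ k) (V : Set U) {W : Set U} (hW : Ioo L.p0 L.κ ⊆ W) :
    Rich L.σ V W m := by
  intro l c hc S hS I _
  have hl : l < L.κ := by
    refine (L.le_κ l).lt_of_ne ?_
    rintro rfl
    simp [h1 _ L.p0_lt.ne', L.mk_κ] at hc
  have h3 : (m l).card + 1 ≤ k := by
    by_cases h : l = L.p0
    · rwa [h]
    · have := L.card_le l
      rw [h1 l h]
      omega
  obtain ⟨h4, h5⟩ := thin hc hS h3
  obtain ⟨p, a1, a2, a3, a4, a5⟩ := above L hl I h4 h5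
  have a6 := (L.p0_le l).trans_lt a1
  refine ⟨p, hW ⟨a6, a2⟩, fun h => (a5 p h a1).false, a1.ne', a3, (h1 p a6.ne').trans a4,
    fun l' h6 h7 => ⟨fun h => ?_, fun h => h.trans a1⟩⟩
  exact lt_of_le_of_ne (not_lt.1 fun h8 => (a5 l' h6 h8).not_gt h) h7

theorem th_mem_Qr (b : Bool) {s : Pt L.σ} (hs : s ∈ L.Row {iB}) :
    L.th b s ∈ Qr L.σ (L.θ b '' Ioo L.p0 L.κ) := by
  intro l hl
  by_cases h : ∃ l0, L.θ b l0 = l
  · obtain ⟨l0, rfl⟩ := h
    rw [L.th_θ, L.θ_σ, Lev.pos]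
    by_cases h1 : l0 = L.p0
    · rw [h1, Pt.upd_self]
    · have h2 : l0 = L.κ := by
        by_contra h2
        exact hl ⟨l0, (mem_Ioo_iff L).2 ⟨h1, h2⟩, rfl⟩
      rw [Pt.upd_ne _ _ h1, h2, L.σ_κ]
      exact hs
  · exact L.th_of_not b s h

end

variable {A X : Type} [MeasurableSpace X] {P : Measure (A → X)} [IsProbabilityMeasure P]
  {R R' C C' E E' : Set A}

omit [IsProbabilityMeasure P] in
theorem le2 (h : R ⊆ C ∪ E) : cyl X R ≤ cyl X C ⊔ cyl X E := cyl_union (X := X) C E ▸ cyl_mono h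

theorem adj (h : CI P (cyl X R) (cyl X C) (cyl X E)) (h1 : E ⊆ E') (h2 : E' ⊆ R ∪ E)
    (hR : R' ⊆ R ∪ E') (hC : C' ⊆ C ∪ E') : CI P (cyl X R') (cyl X C') (cyl X E') :=
  (h.cond_left (cyl_mono h1) (le2 h2)).mono (le2 hR) (le2 hC)

theorem ind_of (h : CI P (cyl X R) (cyl X C) (cyl X E)) (h1 : E ⊆ ∅) (hR : R' ⊆ R)
    (hC : C' ⊆ C) : Indep (cyl X R') (cyl X C') P := by
  rw [subset_empty_iff.1 h1, cyl_empty] at h
  exact indep_of_indep_of_le_right (indep_of_indep_of_le_left h.indep (cyl_mono hR)) (cyl_mono hC)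

theorem row_aux (h1 : Indep (cyl X R) (cyl X R') P) (h2 : CI P (cyl X C) (cyl X C') (cyl X E))
    (h3 : E ⊆ R ∪ R') (h4 : R ∪ R' ⊆ C') (h5 : E ⊆ E') (h6 : E' ⊆ C ∪ E) :
    CI P (cyl X R) (cyl X R') (cyl X E') := by
  have a1 : CI P (cyl X R) (cyl X R') (cyl X E) :=
    ((CI.of_indep (cyl_le _) (cyl_le _) h1).cond_left (D' := cyl X (E ∩ R)) bot_le
      (le_sup_of_le_left (cyl_mono inter_subset_right))).cond_right (cyl_mono inter_subset_left)
      (le2 fun s hs => (h3 hs).elim (fun h => .inr ⟨hs, h⟩) .inl)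
  have a2 : CI P (cyl X R) (cyl X C) (cyl X (R' ∪ E)) :=
    adj h2.symm subset_union_right (union_subset_union_left _ (subset_union_right.trans h4))
      (subset_union_of_subset_left (subset_union_left.trans h4) _) subset_union_left
  rw [cyl_union] at a2
  have a3 := a1.contr a2
  rw [← cyl_union] at a3
  exact (adj a3.symm h5 (h6.trans (union_subset_union_left _ subset_union_right))
    (subset_union_of_subset_left subset_union_left _) subset_union_left).symm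

end InstCI

open InstCI

namespace Dyn

variable {k : ℕ} {X : Type} [TopologicalSpace X] [PolishSpace X] [CompactSpace X]
  [MeasurableSpace X] [BorelSpace X] (D : Dyn k X)

variable {U : Type} [LinearOrder U] [Countable U] {i0 iB i2 : Fin k} (L : Lev k U iB)

theorem clo {A : Set (Fin k)} (hA : A ≠ univ) (G : Set (Fin k)) :
    CI (D.PP L.σ) (cyl X (L.Row G ∩ (L.Col A ∪ L.M))) (cyl X (L.Row Gᶜ))
      (cyl X (L.Row Gᶜ ∩ (L.Col A ∪ L.M))) := by
  classical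
  have h := D.closed (σ := L.σ) (V := univ) (L := {L.κ}ᶜ)
    (m := Function.update L.mk' L.p0 A.toFinset) (R := L.Row G) (R' := L.Row Gᶜ)
    (fun l hl e => by simp [mem_singleton_iff.1 e, L.p0_lt.ne', L.mk_κ] at hl)
    (rich L (fun l hl => Function.update_of_ne hl _ _) (by
      have := Finset.card_lt_card (Finset.ssubset_univ_iff.2 (mt Set.toFinset_eq_univ.1 hA))
      rw [Finset.card_univ, Fintype.card_fin] at this
      rw [Function.update_self]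
      omega) _ fun l hl => hl.2.ne)
    (fun s s' h hs => by simpa [Lev.Row, At, ← h L.κ (by simp)] using hs)
    (fun s s' h hs => by simpa [Lev.Row, At, ← h L.κ (by simp)] using hs)
    (fun s _ l hl => absurd (mem_univ l) hl) fun s _ l hl => absurd (mem_univ l) hl
  have e : Mk L.σ (Function.update L.mk' L.p0 A.toFinset) = L.Col A ∪ L.M := by
    ext s
    constructor
    · rintro ⟨l, hl⟩
      by_cases h : l = L.p0
      · subst h
        exact .inl (by simpa [Lev.Col, At] using hl)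
      · exact .inr ⟨l, by rwa [Function.update_of_ne h] at hl⟩
    · rintro (h | ⟨l, hl⟩)
      · exact ⟨L.p0, by simpa [Lev.Col, At] using h⟩
      · exact ⟨l, by rwa [Function.update_of_ne (mem_Ioo_of L hl).1.ne']⟩
  rwa [e] at h

theorem clo0 (G : Set (Fin k)) :
    CI (D.PP L.σ) (cyl X (L.Q0 ∩ L.Row G ∩ L.M)) (cyl X (L.Q0 ∩ L.Row Gᶜ))
      (cyl X (L.Q0 ∩ L.Row Gᶜ ∩ L.M)) := by
  have hI : ∀ G, Inv L.σ (Ioo L.p0 L.κ) (L.Q0 ∩ L.Row G) := fun G s s' h hs => by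
    simpa [Lev.Row, Lev.Q0, At, ← h L.κ (by simp), ← h L.p0 (by simp)] using hs
  exact D.closed (V := univ) (fun l ⟨_, hl⟩ => mem_Ioo_of L hl)
    (rich L (fun _ _ => rfl) (by have := L.card_le L.p0; omega) _ Subset.rfl) (hI G) (hI Gᶜ)
    (fun s _ l hl => absurd (mem_univ l) hl) fun s _ l hl => absurd (mem_univ l) hl

theorem cl1 {A : Set (Fin k)} (hA : A ≠ univ) (G : Set (Fin k)) :
    CI (D.PP L.σ) (cyl X (L.Col A ∩ L.Row G)) (cyl X (L.Row Gᶜ))
      (cyl X ((L.Col A ∩ L.Row Gᶜ) ∪ L.M)) := by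
  refine adj (D.clo L hA G) ?_ ?_ ?_ ?_ <;> intro s <;>
    simp only [mem_inter_iff, mem_union, Lev.Row, At, mem_ofPred_eq, mem_compl_iff] <;> tauto

theorem ind_rows (hM : D.Mix) (n0B : i0 ≠ iB) (n20 : i2 ≠ i0) (n2B : i2 ≠ iB) {j j' : Fin 3}
    (h : j ≠ j') : Indep (cyl X (L.Row (slot i0 iB j))) (cyl X (L.Row (slot i0 iB j')))
      (D.PP L.σ) := by
  have key : ∀ {c c' : Fin k} {G : Set (Fin k)}, c ≠ c' → G ⊆ {c, c'}ᶜ →
      Indep (cyl X (L.Row {c})) (cyl X (L.Row G)) (D.PP L.σ) := by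
    intro c c' G hc hG
    have h1 := D.a3 (σ := L.σ) hM (L := {L.κ}ᶜ) (t := L.κ) (fun l hl => (L.le_κ l).lt_of_ne hl) hc
    have h2 : ∀ s, s ∈ Qr L.σ (insert L.κ {L.κ}ᶜ) := fun s l hl => by simp [em] at hl
    exact indep_of_indep_of_le_right (indep_of_indep_of_le_left h1
      (cyl_mono fun s hs => ⟨h2 s, hs⟩)) (cyl_mono fun s hs => ⟨h2 s, hG hs⟩)
  have h01 := key (G := {i0}) n2B.symm (by simp [n0B, n20.symm])
  have h02 := key n0B.symm Subset.rfl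
  have h12 := key (G := {iB, i0}ᶜ) n0B (by rw [pair_comm])
  fin_cases j <;> fin_cases j' <;>
    first | exact absurd rfl h | assumption | exact Indep.symm (by assumption)

theorem row1 (hM : D.Mix) (n0B : i0 ≠ iB) (n20 : i2 ≠ i0) (n2B : i2 ≠ iB) {j j' : Fin 3}
    (h : j ≠ j') : CI (D.PP L.σ) (cyl X (L.Row (slot i0 iB j))) (cyl X (L.Row (slot i0 iB j')))
      (cyl X L.M) := by
  refine row_aux (D.ind_rows L hM n0B n20 n2B h)
    (D.clo L (A := ∅) (@empty_ne_univ _ ⟨iB⟩) (slot i0 iB j ∪ slot i0 iB j')ᶜ) ?_ ?_ ?_ ?_ <;>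
    intro s <;> simp only [mem_inter_iff, mem_union, Lev.Row, Lev.Col, At, mem_ofPred_eq,
      mem_compl_iff, mem_empty_iff_false] <;> tauto

theorem row0 (hM : D.Mix) (n0B : i0 ≠ iB) (n20 : i2 ≠ i0) (n2B : i2 ≠ iB) {j j' : Fin 3}
    (h : j ≠ j') : CI (D.PP L.σ) (cyl X (L.Q0 ∩ L.Row (slot i0 iB j)))
      (cyl X (L.Q0 ∩ L.Row (slot i0 iB j'))) (cyl X (L.Q0 ∩ L.M ∩ L.Row univ)) := by
  refine row_aux (indep_of_indep_of_le_right (indep_of_indep_of_le_left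
    (D.ind_rows L hM n0B n20 n2B h) (cyl_mono inter_subset_right)) (cyl_mono inter_subset_right))
    (D.clo0 L (slot i0 iB j ∪ slot i0 iB j')ᶜ) ?_ ?_ ?_ ?_ <;>
    intro s <;> simp only [mem_inter_iff, mem_union, Lev.Row, At, mem_ofPred_eq,
      mem_compl_iff, mem_univ] <;> tauto

theorem law1 : CI (D.PP L.σ) (cyl X (L.Row {iB})) (cyl X L.M) (cyl X (L.M ∩ L.Row {iB})) := by
  refine (adj (D.clo L (A := ∅) (@empty_ne_univ _ ⟨iB⟩) {iB}ᶜ) ?_ ?_ ?_ ?_).symm <;>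
    intro s <;> simp only [mem_inter_iff, mem_union, Lev.Row, Lev.Col, At, mem_ofPred_eq,
      mem_compl_iff, mem_empty_iff_false] <;> tauto

theorem law0 : CI (D.PP L.σ) (cyl X (L.Q0 ∩ L.Row {iB})) (cyl X (L.Q0 ∩ L.M ∩ L.Row univ))
    (cyl X (L.Q0 ∩ L.M ∩ L.Row {iB})) := by
  refine (adj (D.clo0 L {iB}ᶜ) ?_ ?_ ?_ ?_).symm <;>
    intro s <;> simp only [mem_inter_iff, mem_union, Lev.Row, At, mem_ofPred_eq,
      mem_compl_iff, mem_univ] <;> tauto

theorem indξ (hM : D.Mix) :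
    Indep (cyl X {Pt.base L.σ}) (cyl X (L.Q0 ∩ L.M ∩ L.Row {iB})) (D.PP L.σ) := by
  refine ind_of (D.r3 hM (L := Ioo L.p0 L.κ) (La := ∅) L.σ_notMem L.card_le ?_ (empty_subset _)
    (fun l hl => hl.elim)) ?_ ?_ ?_
  · intro l hl c hc S hS I _
    obtain ⟨h1, h2⟩ := thin hc hS (by have := L.card_le l; omega)
    obtain ⟨p, a1, a2, a3⟩ := below L hl.1 I h1 h2
    exact ⟨p, ⟨a1, a2.trans hl.2⟩, a2, a3⟩
  · rintro s ⟨h1, l, h2⟩
    exact L.σ_notMem l (h1 l id ▸ h2)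
  · rintro _ rfl l _
    rfl
  · rintro s ⟨⟨h1, h2⟩, h3⟩
    refine ⟨fun l hl => ?_, h2⟩
    rw [mem_Ioo_iff, not_and_or, not_not, not_not] at hl
    rcases hl with rfl | rfl
    · exact h1
    · exact L.σ_κ.symm ▸ h3

theorem indΘ (hM : D.Mix) :
    Indep (cyl X (L.th false '' (L.Q0 ∩ L.M ∩ L.Row {iB})))
      (cyl X (L.th true '' (L.Q0 ∩ L.M ∩ L.Row {iB}))) (D.PP L.σ) := by
  classical
  have hk := L.card_le L.p0
  have sep : ∀ l ∈ L.θ false '' Ioo L.p0 L.κ, ∀ l' ∈ L.θ true '' Ioo L.p0 L.κ, l < l' := by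
    rintro _ ⟨x, hx, rfl⟩ _ ⟨y, hy, rfl⟩
    exact L.θ_sep _ _ hx.2 hy.1
  refine ind_of (D.r3 hM (L := L.θ false '' Ioo L.p0 L.κ ∪ L.θ true '' Ioo L.p0 L.κ)
    (La := L.θ false '' Ioo L.p0 L.κ)
    (m := fun l => if l ∈ L.θ true '' Ioo L.p0 L.κ then L.mk' l else ∅) ?_ ?_ ?_ subset_union_left
    fun l hl l' hl' h => hl'.elim id fun h' => absurd (sep l hl l' h') h.not_gt) ?_ ?_ ?_
  · intro l
    split_ifs
    exacts [L.σ_notMem l, Finset.notMem_empty _]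
  · intro l
    split_ifs
    exacts [L.card_le l, by simp only [Finset.card_empty]; omega]
  · intro l _ c hc S hS I hI
    dsimp only at hc hS
    split_ifs at hc hS with h
    · obtain ⟨x, hx, rfl⟩ := h
      obtain ⟨h1, h2⟩ := thin hc hS (by have := L.card_le (L.θ true x); omega)
      obtain ⟨p, a1, a2, a3, a4, a5⟩ :=
        below L hx.1 (I.preimage _ (L.θ_mono true).injective.injOn) h1 h2
      have hp : L.θ true p ∈ L.θ true '' Ioo L.p0 L.κ := ⟨p, ⟨a1, a2.trans hx.2⟩, rfl⟩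
      refine ⟨_, .inr hp, L.θ_mono _ a2, (L.θ_σ _ _).trans a3, ?_, fun l' h3 h4 => ?_⟩
      · simp only [if_pos hp, L.θ_mk, a4]
      · rcases hI h3 with h5 | ⟨y, -, rfl⟩
        · exact sep _ h5 _ hp
        · exact L.θ_mono _ (a5 y (Finset.mem_preimage.2 h3) ((L.θ_mono _).lt_iff_lt.1 h4))
    · simp at hc
  · rintro s ⟨h1, l, h2⟩
    dsimp only at h2
    split_ifs at h2 with h
    · exact L.σ_notMem l (h1 l (fun h' => (sep l h' l h).false) ▸ h2)
    · simp at h2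
  · rintro _ ⟨s, hs, rfl⟩
    exact th_mem_Qr L false hs.2
  · rintro _ ⟨s, ⟨⟨-, l, hl⟩, hs⟩, rfl⟩
    have h1 := mem_Ioo_of L hl
    refine ⟨fun l' h => th_mem_Qr L true hs l' fun h' => h (.inr h'), L.θ true l, ?_⟩
    simp only [if_pos (mem_image_of_mem (L.θ true) h1), L.th_θ, L.θ_mk, Lev.pos]
    rwa [Pt.upd_ne _ _ h1.1.ne']

end Dyn

end Vale.Agent.P102
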