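import Vale.Agent.P102.InstCI

/-! P102, file InstSat: the saturation facts of the concrete cube.

PLAN. `exists_compress`: WLOG `p0, κ ∈ I` (prove the statement for `I ∪ {p0, κ}`); induction on the
number of levels of `I` outside the range of `θ b` (e.g. `Finset.induction_on` on a finset `J`
disjoint from the range, for `I₀ ∪ J` with `I₀ ⊆ range`, `p0, κ ∈ I₀`). For a new level `l` let
`a` be the largest and `a'` the smallest element of the old set below / above `l` (`Finset.max'`,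
`min'`); their images are `θ b x < θ b x'`; `dense x x'` with the colour of `l` gives the image.
`th_pres`: `ext_fin`, `Measure.map_map`, `spread` with `I =` levels `≠ p0` where some point moves
(and `θ b`). `satΘ`: `saturation`; `I ∋ p0, κ` contains all levels where a point of `S` moves,
`θ'` from `exists_compress`, and `ψ s` is the point with `ψ s (θ' l) = s l` for `l ∈ I` and `σ`
elsewhere. A point `s'` lies in `range (th b)` iff it is in `Q0` and moves only at levels in the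
range of `θ b` (`mem_range_th`); marks and rows are preserved (`θ_mk`, `θ_κ`). `satπ`, `satcol`:
`saturation` with `move` for `p = p0` and `p'` just above `p0` (`dense p0 a`, `a` the least element
of `insert κ (I.erase p0)`) of colour `(i, ∅)`, resp. `(i, A.toFinset)`; for `satcol` use
`R₁ = M`, `R₂ = Col A ∪ M`, then `CI.mono`. -/

open MeasureTheory ProbabilityTheory Filter Topology Set
open scoped ComplexConjugate ENNReal InnerProductSpace

namespace Vale.Agent.P102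

namespace InstSat

variable {k : ℕ} {U : Type} [LinearOrder U] {iB : Fin k} (L : Lev k U iB)

theorem compress (b : Bool) (I J : Finset U) (hI : ∀ l ∈ I, l ∈ range (L.θ b)) (hp : L.p0 ∈ I)
    (hκ : L.κ ∈ I) (hJ : ∀ l ∈ J, l ∉ range (L.θ b)) :
    ∃ θ' : U → U, StrictMonoOn θ' (I ∪ J : Finset U) ∧ (∀ l ∈ range (L.θ b), θ' l = l) ∧
      ∀ l ∈ I ∪ J, θ' l ∈ range (L.θ b) ∧ L.σ (θ' l) = L.σ l ∧ L.mk' (θ' l) = L.mk' l := by
  induction J using Finset.induction_on with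
  | empty =>
    exact ⟨id, strictMonoOn_id, fun _ _ => rfl, fun l hl => ⟨hI l (by simpa using hl), rfl, rfl⟩⟩
  | insert l J hl ih =>
    obtain ⟨g, h1, h2, h3⟩ := ih fun u hu => hJ u (Finset.mem_insert_of_mem hu)
    have hl' := hJ l (Finset.mem_insert_self _ _)
    have hK : ∀ u ∈ I ∪ J, u ≠ l := by
      rintro u hu rfl
      exact (Finset.mem_union.1 hu).elim (fun h => hl' (hI _ h)) hl
    have n1 : ((I ∪ J).filter (· < l)).Nonempty := ⟨L.p0, Finset.mem_filter.2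
      ⟨Finset.mem_union_left _ hp, (L.p0_le l).lt_of_ne (hK _ (Finset.mem_union_left _ hp))⟩⟩
    have n2 : ((I ∪ J).filter (l < ·)).Nonempty := ⟨L.κ, Finset.mem_filter.2
      ⟨Finset.mem_union_left _ hκ, (L.le_κ l).lt_of_ne' (hK _ (Finset.mem_union_left _ hκ))⟩⟩
    obtain ⟨a1, a2⟩ := Finset.mem_filter.1 (Finset.max'_mem _ n1)
    obtain ⟨b1, b2⟩ := Finset.mem_filter.1 (Finset.min'_mem _ n2)
    obtain ⟨x, hx⟩ := (h3 _ a1).1
    obtain ⟨x', hx'⟩ := (h3 _ b1).1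
    have hxx : x < x' := (L.θ_mono b).lt_iff_lt.1 (by rw [hx, hx']; exact h1 a1 b1 (a2.trans b2))
    obtain ⟨y, y1, y2, y3, y4⟩ := L.dense x x' hxx _ _ (L.σ_notMem l) (L.card_le l)
    rw [Finset.union_insert]
    refine ⟨Function.update g l (L.θ b y), fun u hu v hv huv => ?_, fun u hu => ?_, fun u hu => ?_⟩
    · rcases Finset.mem_insert.1 hu with e | hu' <;> rcases Finset.mem_insert.1 hv with e' | hv'
      · exact absurd (e.trans e'.symm) huv.ne
      · subst e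
        rw [Function.update_self, Function.update_of_ne (hK v hv')]
        exact (L.θ_mono b y2).trans_le (hx' ▸ h1.monotoneOn b1 hv'
          (Finset.min'_le _ _ (Finset.mem_filter.2 ⟨hv', huv⟩)))
      · subst e'
        rw [Function.update_self, Function.update_of_ne (hK u hu')]
        exact lt_of_le_of_lt (hx ▸ h1.monotoneOn hu' a1
          (Finset.le_max' _ _ (Finset.mem_filter.2 ⟨hu', huv⟩))) (L.θ_mono b y1)
      · rw [Function.update_of_ne (hK u hu'), Function.update_of_ne (hK v hv')]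
        exact h1 hu' hv' huv
    · rw [Function.update_of_ne fun h : u = l => hl' (h ▸ hu)]
      exact h2 u hu
    · rcases Finset.mem_insert.1 hu with rfl | hu
      · rw [Function.update_self, L.θ_σ, L.θ_mk]
        exact ⟨⟨y, rfl⟩, y3, y4⟩
      · rw [Function.update_of_ne (hK u hu)]
        exact h3 u hu

theorem pull (b : Bool) {s : Pt L.σ} (h1 : s ∈ L.Q0) (h2 : s ∈ Qr L.σ (range (L.θ b))) :
    ∃ s0 : Pt L.σ, L.th b s0 = s ∧ ∀ l, s0.1 l = s.1 (L.θ b l) := by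
  obtain ⟨s0, h0⟩ : ∃ s0 : Pt L.σ, ∀ l, s0.1 l = s.1 (L.θ b l) :=
    ⟨⟨fun l => s.1 (L.θ b l), (s.2.preimage (L.θ_mono b).injective.injOn).subset
      fun l hl => by simpa [L.θ_σ] using hl⟩, fun _ => rfl⟩
  refine ⟨s0, Pt.ext' fun l => ?_, h0⟩
  by_cases h : ∃ l0, L.θ b l0 = l
  · obtain ⟨l0, rfl⟩ := h
    rw [L.th_θ, Lev.pos]
    by_cases h3 : l0 = L.p0
    · rw [h3, Pt.upd_self, L.θ_p0]
      exact h1.symm
    · rw [Pt.upd_ne _ _ h3, h0]
  · rw [L.th_of_not b _ h, h2 l h]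

omit [LinearOrder U] in
theorem supp {σ : U → Fin k} {A : Type} [Finite A] (s : A → Pt σ) (J : Finset U) :
    ∃ I : Finset U, J ⊆ I ∧ ∀ l ∉ I, ∀ a, (s a).1 l = σ l := by
  have h := (Set.finite_iUnion fun a => (s a).2).union J.finite_toSet
  refine ⟨h.toFinset, fun l hl => h.mem_toFinset.2 (.inr hl), fun l hl a => ?_⟩
  by_contra h1
  exact hl (h.mem_toFinset.2 (.inl (mem_iUnion.2 ⟨a, h1⟩)))

omit [LinearOrder U] in
theorem push {σ : U → Fin k} (I : Finset U) {g : U → U} (hg : InjOn g I) :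
    ∃ ψ : Pt σ → Pt σ, ∀ s, (∀ l ∈ I, (ψ s).1 (g l) = s.1 l) ∧
      ∀ l, (∀ l' ∈ I, g l' ≠ l) → (ψ s).1 l = σ l := by
  have h : ∀ (s : Pt σ) l, (∀ l' ∈ I, g l' ≠ l) →
      Function.extend (fun l : I => g l) (fun l => s.1 l) σ l = σ l := fun s l hl =>
    Function.extend_apply' _ _ _ fun ⟨l', e⟩ => hl l' l'.2 e
  refine ⟨fun s => ⟨Function.extend (fun l : I => g l) (fun l => s.1 l) σ,
    (I.finite_toSet.image g).subset fun l hl => ?_⟩, fun s => ⟨fun l hl => ?_, h s⟩⟩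
  · by_contra h1
    exact hl (h s l fun l' h2 e => h1 ⟨l', h2, e⟩)
  · exact (Set.injOn_iff_injective.1 hg).extend_apply (fun l => s.1 l) σ ⟨l, hl⟩

variable {X : Type} [TopologicalSpace X] [PolishSpace X] [CompactSpace X]
  [MeasurableSpace X] [BorelSpace X] (D : Dyn k X) [Countable U]

theorem sat_move {i : Fin k} {T : Finset (Fin k)} (hi : i ∉ T) (hT : T.card + 2 ≤ k)
    {R₁ R₂ : Set (Pt L.σ)} (h12 : R₁ ⊆ R₂)
    (h : ∀ p, L.p0 < p → p < L.κ → L.mk' p = T → ∀ s ∈ R₂, s.1 p = L.σ p →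
      (s.upd p (s.1 L.p0)).upd L.p0 i ∈ R₁) :
    CI (D.PP L.σ) (cyl X (L.Col {i})) (cyl X R₂) (cyl X R₁) := by
  refine saturation _ h12 fun S _ => ?_
  obtain ⟨I, h1, h2⟩ := supp (fun a : S => a.1) {L.p0}
  obtain ⟨p, a1, a2, a3, a4, a5⟩ := InstCI.above L L.p0_lt I hi hT
  have hp : p ∉ I := fun h => (a5 p h a1).false
  refine ⟨fun s => (s.upd p (s.1 L.p0)).upd L.p0 i,
    D.move (fun a : S => a.1) I h2 (h1 (by simp)) hp (fun l hl hl' => ?_) i,
    fun s hs hs' => ?_, fun s hs hs' => h p a1 a2 a4 s hs' (h2 p hp ⟨s, hs⟩)⟩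
  · exact iff_of_false (a5 l hl ((L.p0_le l).lt_of_ne' hl')).not_gt (L.p0_le l).not_gt
  · have e : s.1 L.p0 = i := hs'
    simp only
    rw [s.upd_eq_self ((h2 p hp ⟨s, hs⟩).trans (a3.trans e.symm)), s.upd_eq_self e]

omit [Countable U] in
theorem move_M {s : Pt L.σ} (hs : s ∈ L.M) {p : U} (hp : s.1 p = L.σ p) (c i : Fin k) :
    (s.upd p c).upd L.p0 i ∈ L.M := by
  obtain ⟨l, hl⟩ := hs
  refine ⟨l, ?_⟩
  rwa [Pt.upd_ne _ _ (InstCI.mem_Ioo_of L hl).1.ne', Pt.upd_ne]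
  rintro rfl
  exact L.σ_notMem l (hp ▸ hl)

end InstSat

open InstSat

namespace Dyn

variable {k : ℕ} {X : Type} [TopologicalSpace X] [PolishSpace X] [CompactSpace X]
  [MeasurableSpace X] [BorelSpace X] (D : Dyn k X)

variable {U : Type} [LinearOrder U] [Countable U] {iB : Fin k} (L : Lev k U iB)

omit D in
theorem _root_.Vale.Agent.P102.Lev.exists_compress {k : ℕ} {U : Type} [LinearOrder U] {iB : Fin k}
    (L : Lev k U iB) (b : Bool) (I : Finset U) :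
    ∃ θ' : U → U, StrictMonoOn θ' I ∧ (∀ l ∈ I, l ∈ range (L.θ b) → θ' l = l) ∧
      ∀ l ∈ I, θ' l ∈ range (L.θ b) ∧ L.σ (θ' l) = L.σ l ∧ L.mk' (θ' l) = L.mk' l := by
  classical
  obtain ⟨g, h1, h2, h3⟩ := compress L b
    (insert L.p0 (insert L.κ (I.filter (· ∈ range (L.θ b))))) (I.filter (· ∉ range (L.θ b)))
    (by
      simp only [Finset.forall_mem_insert, Finset.mem_filter]
      exact ⟨⟨_, L.θ_p0 b⟩, ⟨_, L.θ_κ b⟩, fun _ h => h.2⟩)
    (by simp) (by simp) fun l hl => (Finset.mem_filter.1 hl).2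
  have h4 : I ⊆ insert L.p0 (insert L.κ (I.filter (· ∈ range (L.θ b)))) ∪
      I.filter (· ∉ range (L.θ b)) := fun l hl => by
    simp only [Finset.mem_union, Finset.mem_insert, Finset.mem_filter]
    tauto
  exact ⟨g, h1.mono h4, fun l _ => h2 l, fun l hl => h3 l (h4 hl)⟩

omit D in
theorem _root_.Vale.Agent.P102.Lev.mem_range_th {k : ℕ} {U : Type} [LinearOrder U] {iB : Fin k}
    (L : Lev k U iB) (b : Bool) (s : Pt L.σ) :
    s ∈ range (L.th b) ↔ s ∈ L.Q0 ∧ s ∈ Qr L.σ (range (L.θ b)) := by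
  refine ⟨?_, fun h => (pull L b h.1 h.2).imp fun _ h => h.1⟩
  rintro ⟨s, rfl⟩
  refine ⟨?_, fun l hl => L.th_of_not b s hl⟩
  have h := L.th_θ b s L.p0
  rwa [L.θ_p0, Lev.pos, Pt.upd_self] at h

omit D in
theorem _root_.Vale.Agent.P102.Lev.th_image_subset {k : ℕ} {U : Type} [LinearOrder U] {iB : Fin k}
    (L : Lev k U iB) (b : Bool) (G : Set (Fin k)) :
    L.th b '' (L.Q0 ∩ L.Row G) ⊆ L.Q0 ∩ L.Row G ∧
      L.th b '' (L.Q0 ∩ L.M ∩ L.Row G) ⊆ L.Q0 ∩ L.M ∩ L.Row G := by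
  have h1 : L.th b '' (L.Q0 ∩ L.Row G) ⊆ L.Q0 ∩ L.Row G := by
    rintro _ ⟨s, hs, rfl⟩
    refine ⟨((L.mem_range_th b _).1 ⟨s, rfl⟩).1, ?_⟩
    have h := L.th_θ b s L.κ
    rw [L.θ_κ, Lev.pos, Pt.upd_ne _ _ L.p0_lt.ne'] at h
    change (L.th b s).1 L.κ ∈ G
    exact h ▸ hs.2
  refine ⟨h1, ?_⟩
  rintro _ ⟨s, ⟨⟨h2, l, hl⟩, h3⟩, rfl⟩
  have h4 := h1 ⟨s, ⟨h2, h3⟩, rfl⟩
  refine ⟨⟨h4.1, L.θ b l, ?_⟩, h4.2⟩
  rwa [L.th_θ, L.θ_mk, Lev.pos, Pt.upd_ne _ _ (InstCI.mem_Ioo_of L hl).1.ne']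

theorem th_pres (b : Bool) :
    (D.PP L.σ).map (pre (L.th b)) = (D.PP L.σ).map (pre (L.pos (L.σ L.p0))) := by
  have := Measure.isProbabilityMeasure_map (μ := D.PP L.σ) (measurable_pre (L.th b)).aemeasurable
  have := Measure.isProbabilityMeasure_map (μ := D.PP L.σ)
    (measurable_pre (L.pos (L.σ L.p0))).aemeasurable
  refine ext_fin fun S => ?_
  rw [Measure.map_map (measurable_pre _) (measurable_pre _),
    Measure.map_map (measurable_pre _) (measurable_pre _)]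
  obtain ⟨I, -, h⟩ := supp (fun a : S => L.pos (L.σ L.p0) a) ∅
  refine D.spread (fun a : S => L.pos (L.σ L.p0) a) (fun a : S => L.th b a) I (L.θ b)
    ((L.θ_mono b).strictMonoOn _) (fun l _ a => L.th_θ b a l)
    (fun l hl a a' => (h l hl a).trans (h l hl a').symm) fun l hl a a' => ?_
  by_cases h1 : ∃ l0, L.θ b l0 = l
  · obtain ⟨l0, rfl⟩ := h1
    have h2 : l0 ∉ I := fun h2 => hl l0 h2 rfl
    rw [L.th_θ, L.th_θ, h l0 h2 a, h l0 h2 a']
  · rw [L.th_of_not b _ h1, L.th_of_not b _ h1]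

theorem satΘ (b : Bool) (G : Set (Fin k)) :
    CI (D.PP L.σ) (cyl X (range (L.th b))) (cyl X (L.Q0 ∩ L.M ∩ L.Row G))
      (cyl X (L.th b '' (L.Q0 ∩ L.M ∩ L.Row G))) := by
  refine saturation _ (L.th_image_subset b G).2 fun S _ => ?_
  obtain ⟨I, h1, h2⟩ := supp (fun a : S => a.1) {L.p0, L.κ}
  obtain ⟨g, g1, g2, g3⟩ := L.exists_compress b I
  obtain ⟨ψ, hψ⟩ := push (σ := L.σ) I g1.injOn
  refine ⟨ψ, D.spread (fun a : S => a.1) (fun a : S => ψ a) I g g1 (fun l hl a => (hψ a).1 l hl)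
    (fun l hl a a' => (h2 l hl a).trans (h2 l hl a').symm)
    fun l hl a a' => ((hψ a).2 l hl).trans ((hψ a').2 l hl).symm, fun s hs hs' => ?_,
    fun s hs hs' => ?_⟩
  · have h3 := ((L.mem_range_th b s).1 hs').2
    refine Pt.ext' fun l => ?_
    by_cases h : ∀ l' ∈ I, g l' ≠ l
    · rw [(hψ s).2 l h]
      by_cases h4 : l ∈ I
      · exact (h3 l fun h5 => h l h4 (g2 l h4 h5)).symm
      · exact (h2 l h4 ⟨s, hs⟩).symm
    · push Not at h
      obtain ⟨l, hl, rfl⟩ := h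
      rw [(hψ s).1 l hl]
      by_cases h4 : l ∈ range (L.θ b)
      · rw [g2 l hl h4]
      · have h5 : g l ∉ I := fun h5 =>
          h4 (g1.injOn h5 hl (g2 _ h5 (g3 l hl).1) ▸ (g3 l hl).1)
        rw [h3 l h4, h2 _ h5 ⟨s, hs⟩, (g3 l hl).2.1]
  · obtain ⟨⟨h3, l, hl⟩, h4⟩ := hs'
    have hp : L.p0 ∈ I := h1 (by simp)
    have hκ : L.κ ∈ I := h1 (by simp)
    have e1 := (hψ s).1 _ hp
    have e2 := (hψ s).1 _ hκ
    rw [g2 _ hp ⟨_, L.θ_p0 b⟩] at e1
    rw [g2 _ hκ ⟨_, L.θ_κ b⟩] at e2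
    obtain ⟨s0, h5, h6⟩ := pull L b (s := ψ s) (e1.trans h3)
      fun u hu => (hψ s).2 u fun u' h e => hu (e ▸ (g3 u' h).1)
    have hI : l ∈ I := by
      by_contra h
      exact L.σ_notMem l (h2 l h ⟨s, hs⟩ ▸ hl)
    obtain ⟨⟨x, hx⟩, -, h7⟩ := g3 l hI
    refine ⟨s0, ⟨⟨?_, x, ?_⟩, ?_⟩, h5⟩
    · exact (h6 _).trans ((L.θ_p0 b).symm ▸ e1.trans h3)
    · rwa [h6, ← L.θ_mk b, hx, h7, (hψ s).1 l hI]
    · change s0.1 L.κ ∈ G
      rwa [h6, L.θ_κ, e2]

theorem satπ (i : Fin k) (G : Set (Fin k)) :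
    CI (D.PP L.σ) (cyl X (L.Col {i})) (cyl X (L.M ∩ L.Row G))
      (cyl X (L.Col {i} ∩ L.M ∩ L.Row G)) := by
  refine sat_move L D (Finset.notMem_empty i) (L.mk_p0 ▸ L.card_le L.p0)
    (fun s hs => ⟨hs.1.2, hs.2⟩) fun p _ h2 _ s hs hp =>
      ⟨⟨Pt.upd_self _ _ _, move_M L hs.1 hp _ _⟩, ?_⟩
  change ((s.upd p _).upd L.p0 i).1 L.κ ∈ G
  rw [Pt.upd_ne _ _ L.p0_lt.ne', Pt.upd_ne _ _ h2.ne']
  exact hs.2

theorem satcol {i j : Fin k} {A : Set (Fin k)} (hi : i ∉ A) (hji : j ≠ i) (hj : j ∉ A) :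
    CI (D.PP L.σ) (cyl X (L.Col {i})) (cyl X (L.Col A)) (cyl X L.M) := by
  classical
  have h1 : A.toFinset.card + 2 ≤ k := by
    have h2 : i ∉ A.toFinset := by simpa using hi
    have h3 : j ∉ insert i A.toFinset := by simp [hji, hj]
    have h4 := Finset.card_le_univ (insert j (insert i A.toFinset))
    rwa [Finset.card_insert_of_notMem h3, Finset.card_insert_of_notMem h2, Fintype.card_fin] at h4
  refine (sat_move L D (R₂ := L.Col A ∪ L.M) (by simpa using hi) h1 subset_union_right ?_).mono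
    le_sup_left (le_sup_of_le_left (cyl_mono subset_union_left))
  rintro p h2 _ h3 s (hs | hs) hp
  · refine ⟨p, ?_⟩
    rw [Pt.upd_ne _ _ h2.ne', Pt.upd_self, h3, Set.mem_toFinset]
    exact hs
  · exact move_M L hs hp _ _

end Dyn

end Vale.Agent.P102
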