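import Vale.Agent.P102.SysMain
import Vale.Agent.P102.InstSat
import Vale.Agent.P102.InstCI
import Vale.Agent.P102.Cube3

/-! P102, file Inst: the cube process gives a `Sys`, which is impossible. -/

open MeasureTheory ProbabilityTheory Filter Topology Set
open scoped ComplexConjugate ENNReal InnerProductSpace

namespace Vale.Agent.P102

section Aux

variable {A A' X : Type} [MeasurableSpace X]

/-- Restriction to a set of coordinates. -/
def res (X : Type) (R : Set A) : (A → X) → R → X := pre fun a : R => (a : A)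

theorem measurable_res (R : Set A) : Measurable (res X R) := measurable_pre _

theorem comap_res_pre (R : Set A) (θ : A → A') :
    (MeasurableSpace.pi : MeasurableSpace (R → X)).comap (res X R ∘ pre θ) = cyl X (θ '' R) := by
  have : res X R ∘ pre θ = pre fun a : R => θ a := rfl
  rw [this, comap_pre_pi]
  congr 1
  ext b; simp

theorem comap_res (R : Set A) :
    (MeasurableSpace.pi : MeasurableSpace (R → X)).comap (res X R) = cyl X R := by
  have := comap_res_pre (X := X) R id
  rwa [image_id] at this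

theorem comap_res_fam {ι : Type} (R : Set A) (θ : ι → A → A') :
    (MeasurableSpace.pi : MeasurableSpace (ι → R → X)).comap
      (fun ω i => res X R (pre (θ i) ω)) = cyl X (⋃ i, θ i '' R) := by
  rw [cyl_iUnion, MeasurableSpace.pi, MeasurableSpace.comap_iSup]
  refine iSup_congr fun i => ?_
  rw [MeasurableSpace.comap_comp, ← comap_res_pre]
  rfl

theorem measurable_cyl_pre {R : Set A} {R' : Set A'} {θ : A' → A} (h : θ '' R' ⊆ R) :
    Measurable[cyl X R, cyl X R'] (pre θ) := by
  rw [measurable_iff_comap_le, comap_pre]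
  exact cyl_mono h

theorem measurable_cyl_eval {R : Set A} {a : A} (h : a ∈ R) :
    Measurable[cyl X R] fun ω : A → X => ω a := measurable_cylinderEvent_apply (X := fun _ => X) h

theorem measurable_cyl_map {T : X → X} (hT : Measurable T) (R : Set A) :
    Measurable[cyl X R, cyl X R] fun (ω : A → X) a => T (ω a) :=
  measurable_cylinderEvents_iff.2 fun _ ha => hT.comp (measurable_cyl_eval ha)

theorem CI.of_pre {P : Measure (A → X)} [IsProbabilityMeasure P] {θ : A → A} {R₁ R₂ R₃ : Set A}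
    (h1 : θ '' R₁ = R₁) (h2 : θ '' R₂ = R₂) (h3 : θ '' R₃ = R₃)
    (h : CI P (cyl X R₁) (cyl X R₂) (cyl X R₃)) :
    CI (P.map (pre θ)) (cyl X R₁) (cyl X R₂) (cyl X R₃) := by
  refine CI.of_comap (measurable_pre θ) (cyl_le _) (cyl_le _) (cyl_le _) ?_
  rwa [comap_pre, comap_pre, comap_pre, h1, h2, h3]

theorem indep_of_pre {P : Measure (A → X)} [IsProbabilityMeasure P] {θ : A → A} {R₁ R₂ : Set A}
    (h1 : θ '' R₁ = R₁) (h2 : θ '' R₂ = R₂) (h : Indep (cyl X R₁) (cyl X R₂) P) :
    Indep (cyl X R₁) (cyl X R₂) (P.map (pre θ)) := by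
  have : IsProbabilityMeasure (P.map (pre θ)) :=
    Measure.isProbabilityMeasure_map (measurable_pre θ).aemeasurable
  have h' := CI.of_indep (cyl_le _) (cyl_le _) h
  rw [← cyl_empty] at h'
  have := CI.of_pre h1 h2 (image_empty θ) h'
  rw [cyl_empty] at this
  exact this.indep

end Aux

namespace Lev

variable {k : ℕ} {U : Type} [LinearOrder U] {iB : Fin k} (L : Lev k U iB)

theorem κ_ne : L.κ ≠ L.p0 := L.p0_lt.ne'

theorem pos_p0 (i : Fin k) (s : Pt L.σ) : (L.pos i s).1 L.p0 = i := Pt.upd_self _ _ _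

theorem pos_ne (i : Fin k) (s : Pt L.σ) {l : U} (h : l ≠ L.p0) : (L.pos i s).1 l = s.1 l :=
  Pt.upd_ne _ _ h

theorem pos_pos (i j : Fin k) (s : Pt L.σ) : L.pos i (L.pos j s) = L.pos i s :=
  Pt.ext' fun l => by
    by_cases h : l = L.p0
    · subst h; rw [pos_p0, pos_p0]
    · rw [L.pos_ne _ _ h, L.pos_ne _ _ h, L.pos_ne _ _ h]

theorem pos_of_mem {i : Fin k} {s : Pt L.σ} (h : s.1 L.p0 = i) : L.pos i s = s :=
  Pt.upd_eq_self _ h

theorem pos_mem_M (i : Fin k) (s : Pt L.σ) : L.pos i s ∈ L.M ↔ s ∈ L.M := by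
  refine exists_congr fun l => ?_
  by_cases h : l = L.p0
  · subst h; simp [L.mk_p0]
  · rw [L.pos_ne _ _ h]

theorem pos_mem_Row (i : Fin k) (s : Pt L.σ) (G : Set (Fin k)) :
    L.pos i s ∈ L.Row G ↔ s ∈ L.Row G := by
  simp only [Row, At, mem_ofPred_eq, L.pos_ne _ _ L.κ_ne]

theorem image_pos (i : Fin k) {R : Set (Pt L.σ)} (hR : ∀ j s, L.pos j s ∈ R ↔ s ∈ R) :
    L.pos i '' (L.Q0 ∩ R) = L.Col {i} ∩ R := by
  ext s
  constructor
  · rintro ⟨s, ⟨-, h⟩, rfl⟩
    exact ⟨L.pos_p0 i s, (hR _ _).2 h⟩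
  · rintro ⟨h1, h2⟩
    exact ⟨L.pos (L.σ L.p0) s, ⟨L.pos_p0 _ s, (hR _ _).2 h2⟩, by
      rw [pos_pos, L.pos_of_mem h1]⟩

theorem image_pos0 {R : Set (Pt L.σ)} (hR : R ⊆ L.Q0) : L.pos (L.σ L.p0) '' R = R := by
  exact (image_congr (g := id) fun s hs => L.pos_of_mem (hR hs)).trans (image_id R)

theorem range_pos (i : Fin k) : range (L.pos i) = L.Col {i} := by
  ext s
  exact ⟨by rintro ⟨s, rfl⟩; exact L.pos_p0 i s, fun h => ⟨s, L.pos_of_mem h⟩⟩

theorem range_th_subset (b : Bool) : range (L.th b) ⊆ L.Q0 := fun s hs =>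
  ((L.mem_range_th b s).1 hs).1

theorem pos_th (b : Bool) (s : Pt L.σ) : L.pos (L.σ L.p0) (L.th b s) = L.th b s :=
  L.pos_of_mem (L.range_th_subset b ⟨s, rfl⟩)

theorem th_base (b : Bool) : L.th b (Pt.base L.σ) = Pt.base L.σ :=
  Pt.ext' fun l => by
    by_cases h : ∃ l0, L.θ b l0 = l
    · obtain ⟨l0, rfl⟩ := h
      have e : L.pos (L.σ L.p0) (Pt.base L.σ) = Pt.base L.σ := L.pos_of_mem rfl
      rw [th_θ, e, Pt.base_val, Pt.base_val, L.θ_σ]
    · rw [L.th_of_not b _ h, Pt.base_val]

/-- Marked points of the small system in the rows `G`. -/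
def E (G : Set (Fin k)) : Set (Pt L.σ) := L.Q0 ∩ L.M ∩ L.Row G

theorem E_subset (G : Set (Fin k)) : L.E G ⊆ L.Q0 := fun _ h => h.1.1

theorem image_pos_E (i : Fin k) (G : Set (Fin k)) :
    L.pos i '' L.E G = L.Col {i} ∩ L.M ∩ L.Row G := by
  rw [E, inter_assoc, inter_assoc, L.image_pos i]
  intro j s
  rw [mem_inter_iff, mem_inter_iff, pos_mem_M, pos_mem_Row]

theorem iUnion_pos_E (G : Set (Fin k)) : ⋃ i, L.pos i '' L.E G = L.M ∩ L.Row G := by
  ext s
  simp only [image_pos_E, mem_iUnion]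
  exact ⟨fun ⟨_, h⟩ => ⟨h.1.2, h.2⟩, fun h => ⟨s.1 L.p0, ⟨rfl, h.1⟩, h.2⟩⟩

theorem Row_univ : L.Row univ = univ := eq_univ_of_forall fun _ => trivial

theorem Col_univ : L.Col univ = univ := eq_univ_of_forall fun _ => trivial

theorem sl_eq {X : Type} [MeasurableSpace X] (G : Fin 3 → Set (Fin k)) (j : Fin 3)
    (A : Set (Fin k)) :
    sl (fun j => cyl X (L.Q0 ∩ L.Row (G j))) (fun i => pre (L.pos i)) j A =
      cyl X (L.Col A ∩ L.Row (G j)) := by
  have : L.Col A ∩ L.Row (G j) = ⋃ i, ⋃ (_ : i ∈ A), L.Col {i} ∩ L.Row (G j) := by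
    ext s
    simp only [mem_iUnion]
    exact ⟨fun h => ⟨s.1 L.p0, h.1, rfl, h.2⟩, fun ⟨i, hi, h⟩ =>
      ⟨show s.1 L.p0 ∈ A from (show s.1 L.p0 = i from h.1) ▸ hi, h.2⟩⟩
  rw [this, cyl_iUnion, sl]
  refine iSup_congr fun i => ?_
  rw [cyl_iUnion]
  refine iSup_congr fun _ => ?_
  rw [comap_pre, L.image_pos i fun j s => L.pos_mem_Row j s _]

theorem Row_union (G G' : Set (Fin k)) : L.Row (G ∪ G') = L.Row G ∪ L.Row G' := rfl

theorem cyl_two {X : Type} [MeasurableSpace X] {G G' G'' : Set (Fin k)} (h : G' ∪ G'' = Gᶜ)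
    (A : Set (Fin k)) : cyl X (L.Col A ∩ L.Row G') ⊔ cyl X (L.Col A ∩ L.Row G'') =
      cyl X (L.Col A ∩ L.Row Gᶜ) := by
  rw [← cyl_union, ← inter_union_distrib_left, ← Row_union, h]

end Lev

theorem slot_12 {k : ℕ} {i0 iB : Fin k} (h : i0 ≠ iB) :
    slot i0 iB 1 ∪ slot i0 iB 2 = (slot i0 iB 0)ᶜ := by
  ext i; simp [slot]; by_cases e : i = i0 <;> simp [e, h]

theorem slot_02 {k : ℕ} {i0 iB : Fin k} (h : i0 ≠ iB) :
    slot i0 iB 0 ∪ slot i0 iB 2 = (slot i0 iB 1)ᶜ := by
  ext i; simp [slot]; by_cases e : i = iB <;> simp [e, h.symm]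

theorem slot_01 {k : ℕ} (i0 iB : Fin k) : slot i0 iB 0 ∪ slot i0 iB 1 = (slot i0 iB 2)ᶜ := by
  ext i; simp [slot]; tauto

namespace Dyn

variable {k : ℕ} {X : Type} [TopologicalSpace X] [PolishSpace X] [CompactSpace X]
  [MeasurableSpace X] [BorelSpace X] (D : Dyn k X) {U : Type} [LinearOrder U] [Countable U]
  {i0 iB i2 : Fin k} (L : Lev k U iB)

theorem cl_slot {G G' G'' : Set (Fin k)} (h : G' ∪ G'' = Gᶜ) {A : Set (Fin k)} (hA : A ≠ univ) :
    CI (D.PP L.σ) (cyl X (L.Col A ∩ L.Row G))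
      (cyl X (L.Col univ ∩ L.Row G') ⊔ cyl X (L.Col univ ∩ L.Row G''))
      ((cyl X (L.Col A ∩ L.Row G') ⊔ cyl X (L.Col A ∩ L.Row G'')) ⊔ cyl X (L.M ∩ L.Row univ)) := by
  rw [L.cyl_two h, L.cyl_two h, L.Col_univ, univ_inter, L.Row_univ, inter_univ, ← cyl_union]
  exact D.cl1 L hA G

theorem impossible [Nonempty X] (n0B : i0 ≠ iB) (n20 : i2 ≠ i0) (n2B : i2 ≠ iB) (hM : D.Mix)
    (hg : ∀ g : ℤ, ∀ᶠ n in (D.𝔭 : Filter ℕ), Gaps g (D.t n))
    (hmix : ∀ φ ψ : X → ℂ, Measurable φ → Measurable ψ → (∀ x, ‖φ x‖ ≤ 1) → (∀ x, ‖ψ x‖ ≤ 1) →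
      Tendsto (fun n : ℤ => ∫ x, φ (D.T n x) * ψ x ∂(D.μ : Measure X)) atTop
        (𝓝 ((∫ x, φ x ∂(D.μ : Measure X)) * ∫ x, ψ x ∂(D.μ : Measure X))))
    {f : Fin k → X → ℂ} (hf : ∀ r, r ≠ iB → Continuous (f r)) (hf1 : ∀ r x, ‖f r x‖ ≤ 1)
    (hh : Measurable (f iB)) (hf0 : ∫ x, f i0 x ∂(D.μ : Measure X) = 0)
    (hν : D.ν[fun y => ∏ r ∈ Finset.univ.erase iB, f r (y r) - f iB (y iB) | cyl X {iB}]
      =ᵐ[D.ν] 0)
    (hτ : ∫ y, ∏ i, f i (y i) ∂D.ν ≠ 0) (L : Lev k U iB) : False := by
  classical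
  have mf : ∀ i, Measurable (f i) := fun i => by
    by_cases h : i = iB
    · rw [h]; exact hh
    · exact (hf i h).measurable
  have hEe : L.E {iB} ⊆ L.E univ := fun s hs => ⟨hs.1, trivial⟩
  set b0 : Pt L.σ := Pt.base L.σ with hb0
  have hP0 : IsProbabilityMeasure ((D.PP L.σ).map (pre (L.pos (L.σ L.p0)))) :=
    Measure.isProbabilityMeasure_map (measurable_pre _).aemeasurable
  have hb0Q : b0 ∈ L.Q0 := rfl
  have hupd : ∀ r, b0.upd L.κ r ∈ L.Q0 ∩ L.Row {r} := fun r =>
    ⟨(Pt.upd_ne _ _ L.κ_ne.symm : (b0.upd L.κ r).1 L.p0 = b0.1 L.p0), Pt.upd_self _ _ _⟩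
  have hres : ∀ (R : Set (Pt L.σ)) (d : ℤ),
      (MeasurableSpace.pi : MeasurableSpace (R → X)).comap (res X R ∘ D.Sh (Pt L.σ) d) ≤
        MeasurableSpace.pi.comap (res X R) := fun R d => by
    rw [← MeasurableSpace.comap_comp, comap_res]
    exact (measurable_cyl_map (D.cont d).measurable R).comap_le
  have hQ : ∀ G, L.pos (L.σ L.p0) '' (L.Q0 ∩ L.Row G) = L.Q0 ∩ L.Row G := fun G =>
    L.image_pos0 inter_subset_left
  have hE : ∀ G, L.pos (L.σ L.p0) '' L.E G = L.E G := fun G => L.image_pos0 (L.E_subset G)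
  have hth : ∀ b (R : Set (Pt L.σ)), L.pos (L.σ L.p0) '' (L.th b '' R) = L.th b '' R :=
    fun b R => L.image_pos0 ((image_subset_range _ _).trans (L.range_th_subset b))
  have hcol : ∀ A : Set (Fin k), cyl X (L.Col A ∩ L.Row (slot i0 iB 0)) ⊔
      cyl X (L.Col A ∩ L.Row (slot i0 iB 1)) ⊔ cyl X (L.Col A ∩ L.Row (slot i0 iB 2)) ≤
      cyl X (L.Col A) := fun A =>
    sup_le (sup_le (cyl_mono inter_subset_left) (cyl_mono inter_subset_left))
      (cyl_mono inter_subset_left)
  let Y : Sys k X (Pt L.σ → X) (Pt L.σ → X) (L.E univ → X) (L.E {iB} → X) :=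
    { μ := D.μ
      T := D.T
      f := f
      i0 := i0
      iB := iB
      i2 := i2
      P0 := (D.PP L.σ).map (pre (L.pos (L.σ L.p0)))
      P1 := D.PP L.σ
      B := fun j => cyl X (L.Q0 ∩ L.Row (slot i0 iB j))
      ξ := fun ω => ω b0
      ζ := res X (L.E univ)
      r := pre (inclusion hEe)
      S := D.Sh (Pt L.σ)
      Θ := fun b => pre (L.th b)
      π := fun i => pre (L.pos i)
      g := fun ω => f i0 (ω (b0.upd L.κ i0))
      g' := fun ω => ∏ r ∈ (Finset.univ.erase iB).erase i0, f r (ω (b0.upd L.κ r))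
      𝔭 := D.𝔭
      t := D.t
      probμ := inferInstance
      prob0 := hP0
      prob1 := inferInstance
      mT := fun d => (D.cont d).measurable
      T_zero := D.T_zero
      T_add := D.T_add
      T_pres := D.pres
      mix := hmix
      mf := mf
      f_le := hf1
      f_mean := hf0
      n0B := n0B
      n20 := n20
      n2B := n2B
      B_le := fun _ => cyl_le _
      B_cg := fun _ => cg_cyl _
      mξ := measurable_cyl_eval ⟨hb0Q, L.σ_κ⟩
      mζ := measurable_res _
      mr := measurable_pre _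
      η_le := (comap_res (L.E {iB})).le.trans (cyl_mono fun s hs => ⟨hs.1.1, hs.2⟩)
      mS := D.measurable_Sh _
      S_B := fun d _ => measurable_cyl_map (D.cont d).measurable _
      S_zero := fun ω => funext fun a => D.T_zero _
      S_add := fun a b ω => funext fun s => D.T_add _ _ _
      S_pres := fun d => by
        rw [Measure.map_map (D.measurable_Sh _ d) (measurable_pre _)]
        conv_rhs => rw [← D.PP_Sh (σ := L.σ) d]
        rw [Measure.map_map (measurable_pre _) (D.measurable_Sh _ d)]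
        rfl
      S_ξ := fun _ _ => rfl
      S_ζ := hres _
      S_η := hres (L.E {iB})
      mΘ := fun _ => measurable_pre _
      Θ_B := fun b j => measurable_cyl_pre (L.th_image_subset b _).1
      Θ_pres := fun b => by
        rw [Measure.map_map (measurable_pre _) (measurable_pre _), ← D.th_pres L b]
        congr 1
        funext ω s
        exact congrArg ω (L.pos_th b s)
      Θ_ξ := fun b ω => congrArg ω (L.th_base b)
      Θ_ζ := fun b => by
        rw [comap_res_pre, comap_res]; exact cyl_mono (L.th_image_subset b _).2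
      Θ_η := fun b => ((comap_res_pre (L.E {iB}) (L.th b)).le.trans
        (cyl_mono (L.th_image_subset b _).2)).trans (comap_res (L.E {iB})).ge
      Θ_ciw := fun b => by
        rw [comap_pre_pi, comap_res_pre, comap_res]
        exact CI.of_pre (L.image_pos0 (L.range_th_subset b)) (hE _) (hth _ _) (D.satΘ L b _)
      Θ_cie := fun b => by
        change CI _ _ (MeasurableSpace.pi.comap (res X (L.E {iB})))
          (MeasurableSpace.pi.comap (res X (L.E {iB}) ∘ pre (L.th b)))
        rw [comap_pre_pi, comap_res_pre, comap_res]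
        exact CI.of_pre (L.image_pos0 (L.range_th_subset b)) (hE _) (hth _ _) (D.satΘ L b _)
      ind_ξ := by
        change Indep _ (MeasurableSpace.pi.comap (res X (L.E {iB}))) _
        rw [comap_res, ← cyl_singleton]
        exact indep_of_pre (L.image_pos0 (singleton_subset_iff.2 hb0Q)) (hE _) (D.indξ L hM)
      law_ξ := by
        rw [Measure.map_map (measurable_pi_apply _) (measurable_pre _)]
        exact D.PP_eval _
      ind_Θ := by
        change Indep (MeasurableSpace.pi.comap (res X (L.E {iB}) ∘ pre (L.th false)))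
          (MeasurableSpace.pi.comap (res X (L.E {iB}) ∘ pre (L.th true))) _
        rw [comap_res_pre, comap_res_pre]
        exact indep_of_pre (hth _ _) (hth _ _) (D.indΘ L hM)
      row0 := fun j j' h => by
        rw [comap_res]
        exact CI.of_pre (hQ _) (hQ _) (hE _) (D.row0 L hM n0B n20 n2B h)
      law0 := by
        change CI _ _ _ (MeasurableSpace.pi.comap (res X (L.E {iB})))
        rw [comap_res, comap_res]
        exact CI.of_pre (hQ _) (hE _) (hE _) (D.law0 L)
      mπ := fun _ => measurable_pre _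
      π_pres := fun i => D.pos_pres L.p0 i _
      π_ciw := fun i => by
        rw [comap_pre_pi, comap_res_pre, comap_res_fam, L.range_pos, L.iUnion_pos_E, L.image_pos_E]
        exact D.satπ L i _
      π_cie := fun i => by
        change CI _ _ (MeasurableSpace.pi.comap fun ω i => res X (L.E {iB}) (pre (L.pos i) ω))
          (MeasurableSpace.pi.comap (res X (L.E {iB}) ∘ pre (L.pos i)))
        rw [comap_pre_pi, comap_res_pre, comap_res_fam, L.range_pos, L.iUnion_pos_E, L.image_pos_E]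
        exact D.satπ L i _
      row1 := fun j j' h => by
        rw [L.sl_eq, L.sl_eq, comap_res_fam, L.iUnion_pos_E, L.Col_univ, univ_inter, univ_inter,
          L.Row_univ, inter_univ]
        exact D.row1 L hM n0B n20 n2B h
      col1 := fun i j A hi hji hj => by
        simp only [L.sl_eq]
        rw [comap_res_fam, L.iUnion_pos_E, L.Row_univ, inter_univ]
        exact (D.satcol L hi hji hj).mono ((hcol _).trans le_sup_left) ((hcol _).trans le_sup_left)
      clx := fun A hA => by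
        simp only [L.sl_eq]
        rw [comap_res_fam, L.iUnion_pos_E]
        exact D.cl_slot L (slot_12 n0B) hA
      cly := fun A hA => by
        simp only [L.sl_eq]
        rw [comap_res_fam, L.iUnion_pos_E]
        exact D.cl_slot L (slot_02 n0B) hA
      clz := fun A hA => by
        simp only [L.sl_eq]
        rw [comap_res_fam, L.iUnion_pos_E]
        exact D.cl_slot L (slot_01 i0 iB) hA
      law1 := by
        change CI _ _ _
          (MeasurableSpace.pi.comap fun ω i => res X (L.E {iB}) (pre (L.pos i) ω))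
        rw [L.sl_eq, comap_res_fam, comap_res_fam, L.iUnion_pos_E, L.iUnion_pos_E, L.Col_univ,
          univ_inter, L.Row_univ, inter_univ]
        exact D.law1 L
      mg := (mf i0).comp (measurable_cyl_eval (hupd i0))
      mg' := Finset.measurable_prod _ fun r hr => (mf r).comp (measurable_cyl_eval
        ⟨(hupd r).1, by
          have h1 : (b0.upd L.κ r).1 L.κ = r := (hupd r).2
          simp only [Finset.mem_erase] at hr
          simp [Lev.Row, At, slot, h1, hr.1, hr.2.1]⟩)
      g_le := fun ω => hf1 _ _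
      g'_le := fun ω => by
        rw [norm_prod]
        exact Finset.prod_le_one (fun _ _ => norm_nonneg _) fun _ _ => hf1 _ _
      a7 := by
        have h := D.a7 hf hf1 hh hν L.le_κ (L.pos iB b0)
        have e1 : ∀ r, L.pos iB (b0.upd L.κ r) = (L.pos iB b0).upd L.κ r := fun r =>
          Pt.ext' fun l => by
            by_cases h1 : l = L.κ
            · subst h1; rw [L.pos_ne _ _ L.κ_ne, Pt.upd_self, Pt.upd_self]
            · rw [Pt.upd_ne _ _ h1]
              by_cases h2 : l = L.p0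
              · subst h2; rw [L.pos_p0, L.pos_p0]
              · rw [L.pos_ne _ _ h2, L.pos_ne _ _ h2, Pt.upd_ne _ _ h1]
        have e2 : (L.pos iB b0).upd L.κ iB = L.pos iB b0 :=
          Pt.upd_eq_self _ (by rw [L.pos_ne _ _ L.κ_ne]; exact L.σ_κ)
        rw [L.sl_eq, L.Col_univ, univ_inter]
        simp only [pre, e1]
        rw [e2] at h
        simp only [← Finset.mul_prod_erase (Finset.univ.erase iB) _
          (show i0 ∈ Finset.univ.erase iB by simp [n0B])] at h
        exact h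
      tau := by
        rw [← D.law_line b0 L.p0, integral_map (measurable_pre _).aemeasurable
          (f := fun y : Fin k → X => ∏ i, f i (y i)) (Finset.measurable_prod _ fun i _ =>
            (mf i).comp (measurable_pi_apply i)).aestronglyMeasurable] at hτ
        exact hτ
      gaps := hg
      a5 := D.a5 L.p0_le }
  exact Y.false

end Dyn

end Vale.Agent.P102
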