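import Vale.Agent.P102.Prod

/-! P102, file Ker1: disintegration along a measurable map `η`.

PLAN. `kd P η = condDistrib id η P`; `compProd_map_condDistrib` gives
`P.map η ⊗ₘ kd P η = P.map (fun ω => (η ω, ω))`. `kd_integral`:
`condExp_ae_eq_integral_condDistrib_id`. `ae_ae_kd`: enlarge the null set to a measurable one
(`exists_measurable_superset_of_null`), `Measure.ae_ae_of_ae_compProd` / `ae_compProd_iff`,
`ae_of_ae_map`. `kd_proper`: the set `{(e, ω) | η ω = e}` is measurable (`measurableSet_eq_fun`).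
`ae_map_of_ae`: for `P.map η`-a.e. `e`, `kd e`-a.e. `ω` has `p (η ω)` (via a measurable null
superset) and `η ω = e`; `kd e` is a probability measure, so `p e`.
`ae_agree_of_forall`: the finite intersections of a countable generating family form a countable
pi-system (`generatePiSystem`, or `MeasurableSpace.countableGeneratingSet` with
`countable_generateSetAlgebra`); `ae_ball_iff`, then `ext_of_generate_finite` for the trimmed
measures (or `MeasurableSpace.induction_on_inter`). `kd_map`, `kd_row`, `kd_tower`, `kd_indep`: for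
each measurable `s` compare `kd_integral (ind s)` with `CI.eq`, `condExp_comp_map`, the tower
property, `condExp_indep`; then `ae_agree_of_forall` (with `m = m0` or `A`). For `kd_tower` use
`kd_integral` for the bounded measurable function `ω' ↦ (kd P ζ (ζ ω')).real s`. -/

open MeasureTheory ProbabilityTheory Filter Topology Set
open scoped ComplexConjugate ENNReal InnerProductSpace

namespace Vale.Agent.P102

variable {Ω E W : Type*} {A : MeasurableSpace Ω} [m0 : MeasurableSpace Ω] [StandardBorelSpace Ω]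
  [Nonempty Ω] [mE : MeasurableSpace E] [mW : MeasurableSpace W] {P : Measure Ω}
  [IsProbabilityMeasure P] {η : Ω → E} {ζ : Ω → W}

theorem kd_integral (hη : Measurable η) {f : Ω → ℂ} (hf : Integrable f P) :
    (fun ω => ∫ ω', f ω' ∂kd P η (η ω)) =ᵐ[P] P[f | mE.comap η] := by
  exact (condExp_ae_eq_integral_condDistrib_id hη hf).symm


theorem ae_map_ae_kd (hη : Measurable η) {p : Ω → Prop} (h : ∀ᵐ ω ∂P, p ω) :
    ∀ᵐ e ∂P.map η, ∀ᵐ ω' ∂kd P η e, p ω' := by
  have h1 : kd P η ∘ₘ (P.map η) = P := by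
    have := condDistrib_comp_map (μ := P) (X := η) (Y := id) hη.aemeasurable aemeasurable_id
    rwa [Measure.map_id] at this
  apply Measure.ae_ae_of_ae_comp
  rw [h1]
  exact h

theorem ae_map_kd_proper [StandardBorelSpace E] (hη : Measurable η) :
    ∀ᵐ e ∂P.map η, ∀ᵐ ω' ∂kd P η e, η ω' = e := by
  have h1 : (P.map η) ⊗ₘ kd P η = P.map fun a => (η a, a) :=
    compProd_map_condDistrib (μ := P) (X := η) (Y := id) aemeasurable_id
  have h2 : ∀ᵐ x ∂((P.map η) ⊗ₘ kd P η), η x.2 = x.1 := by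
    rw [h1]
    exact (ae_map_iff (hη.prodMk measurable_id).aemeasurable
      (measurableSet_eq_fun (hη.comp measurable_snd) measurable_fst)).2
      (Eventually.of_forall fun _ => rfl)
  exact Measure.ae_ae_of_ae_compProd h2

theorem ae_ae_kd (hη : Measurable η) {p : Ω → Prop} (h : ∀ᵐ ω ∂P, p ω) :
    ∀ᵐ ω ∂P, ∀ᵐ ω' ∂kd P η (η ω), p ω' := by
  exact ae_of_ae_map hη.aemeasurable (ae_map_ae_kd hη h)


theorem kd_proper [StandardBorelSpace E] (hη : Measurable η) :
    ∀ᵐ ω ∂P, ∀ᵐ ω' ∂kd P η (η ω), η ω' = η ω := by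
  exact ae_of_ae_map hη.aemeasurable (ae_map_kd_proper hη)


/-- No measurability of `p` is needed. -/
theorem ae_map_of_ae [StandardBorelSpace E] (hη : Measurable η) {p : E → Prop}
    (h : ∀ᵐ ω ∂P, p (η ω)) : ∀ᵐ e ∂P.map η, p e := by
  filter_upwards [ae_map_ae_kd hη h, ae_map_kd_proper (P := P) hη] with e h1 h2
  obtain ⟨ω, h3, h4⟩ := (h1.and h2).exists
  rwa [h4] at h3


theorem exists_countable_pi_aux {Y : Type*} {m : MeasurableSpace Y} (h : CG m) :
    ∃ p : Set (Set Y), p.Countable ∧ IsPiSystem p ∧ univ ∈ p ∧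
      m = MeasurableSpace.generateFrom p := by
  obtain ⟨b, hb, hm⟩ := h.isCountablyGenerated
  refine ⟨generateSetAlgebra b, countable_generateSetAlgebra hb, ?_,
    isSetAlgebra_generateSetAlgebra.univ_mem, ?_⟩
  · intro s hs t ht _
    exact isSetAlgebra_generateSetAlgebra.inter_mem hs ht
  · rw [generateFrom_generateSetAlgebra_eq]; exact hm

theorem ae_agree_of_forall {V Y : Type*} {mV : MeasurableSpace V} {ν : Measure V}
    {m mY : MeasurableSpace Y} (hm : m ≤ mY) (hcg : CG m) {ρ ρ' : V → Measure Y}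
    [∀ v, IsProbabilityMeasure (ρ v)] [∀ v, IsProbabilityMeasure (ρ' v)]
    (h : ∀ s, MeasurableSet[m] s → ∀ᵐ v ∂ν, ρ v s = ρ' v s) : ∀ᵐ v ∂ν, Agree m (ρ v) (ρ' v) := by
  obtain ⟨p, hp, hpi, -, hgen⟩ := exists_countable_pi_aux hcg
  have h1 : ∀ᵐ v ∂ν, ∀ s ∈ p, ρ v s = ρ' v s :=
    (ae_ball_iff hp).2 fun s hs => h s (by
      rw [hgen]; exact MeasurableSpace.measurableSet_generateFrom hs)
  filter_upwards [h1] with v hv
  have h2 : (ρ v).trim hm = (ρ' v).trim hm := by
    refine ext_of_generate_finite p hgen hpi (fun s hs => ?_) ?_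
    · have hs' : MeasurableSet[m] s := by
        rw [hgen]; exact MeasurableSpace.measurableSet_generateFrom hs
      rw [trim_measurableSet_eq hm hs', trim_measurableSet_eq hm hs', hv s hs]
    · rw [trim_measurableSet_eq hm MeasurableSet.univ, trim_measurableSet_eq hm MeasurableSet.univ,
        measure_univ, measure_univ]
  intro s hs
  rw [← trim_measurableSet_eq hm hs, ← trim_measurableSet_eq hm hs, h2]


theorem kd_ind (hη : Measurable η) {s : Set Ω} (hs : MeasurableSet s) :
    (fun ω => (((kd P η (η ω)).real s : ℝ) : ℂ)) =ᵐ[P] P[ind s | mE.comap η] := by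
  have h := kd_integral (P := P) hη ((BM.ind (μ := P) hs).integrable le_rfl)
  filter_upwards [h] with ω hω
  rw [← hω, integral_ind hs]

theorem eq_of_real_eq {Y Y' : Type*} {mY : MeasurableSpace Y} {mY' : MeasurableSpace Y'}
    {ρ : Measure Y} {ρ' : Measure Y'} [IsFiniteMeasure ρ] [IsFiniteMeasure ρ'] {s : Set Y}
    {t : Set Y'} (h : ((ρ.real s : ℝ) : ℂ) = ((ρ'.real t : ℝ) : ℂ)) : ρ s = ρ' t := by
  have h1 : ρ.real s = ρ'.real t := by exact_mod_cast h
  exact (ENNReal.toReal_eq_toReal_iff' (measure_ne_top _ _) (measure_ne_top _ _)).1 h1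

theorem Agree.eq {Y : Type*} {mY : MeasurableSpace Y} {ρ ρ' : Measure Y} (h : Agree mY ρ ρ') :
    ρ = ρ' := Measure.ext h

/-- Morphisms map fibres to fibres. -/
theorem kd_map {Ω' E' : Type*} [mΩ' : MeasurableSpace Ω'] [StandardBorelSpace Ω'] [Nonempty Ω']
    [mE' : MeasurableSpace E'] {P' : Measure Ω'} [IsProbabilityMeasure P'] {η' : Ω' → E'}
    {Θ : Ω' → Ω} (hΘ : Measurable Θ) (hP : P'.map Θ = P) (hη : Measurable η) (hη' : Measurable η')
    (hle : mE.comap (η ∘ Θ) ≤ mE'.comap η')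
    (hci : CI P' (m0.comap Θ) (mE'.comap η') (mE.comap (η ∘ Θ))) :
    ∀ᵐ ω ∂P', (kd P' η' (η' ω)).map Θ = kd P η (η (Θ ω)) := by
  subst hP
  have : ∀ ω, IsProbabilityMeasure ((kd P' η' (η' ω)).map Θ) := fun ω =>
    Measure.isProbabilityMeasure_map hΘ.aemeasurable
  have key := ae_agree_of_forall (ν := P') (ρ := fun ω => (kd P' η' (η' ω)).map Θ)
    (ρ' := fun ω => kd (P'.map Θ) η (η (Θ ω))) le_rfl inferInstance (fun s hs => ?_)
  · filter_upwards [key] with ω hω using hω.eq
  have h1 := kd_ind (P := P') hη' (hΘ hs)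
  have h2 := hci.eq (Θ ⁻¹' s) ⟨s, hs, rfl⟩
  rw [sup_eq_left.2 hle] at h2
  have h3 := condExp_comp_map (P := P') (m := mE.comap η) (f := ind s) hΘ hη.comap_le
    ((BM.ind (μ := P'.map Θ) hs).integrable le_rfl)
  rw [MeasurableSpace.comap_comp, ← ind_preimage] at h3
  have h4 := ae_of_ae_map hΘ.aemeasurable (kd_ind (P := P'.map Θ) hη hs)
  filter_upwards [h1, h2, h3, h4] with ω e1 e2 e3 e4
  rw [Measure.map_apply hΘ hs]
  apply eq_of_real_eq
  rw [e1, e2, e3]
  exact e4.symm


theorem kd_row (hη : Measurable η) (hζ : Measurable ζ) (hle : mE.comap η ≤ mW.comap ζ)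
    (hcg : CG A) (hci : CI P A (mW.comap ζ) (mE.comap η)) :
    ∀ᵐ ω ∂P, Agree A (kd P ζ (ζ ω)) (kd P η (η ω)) := by
  refine ae_agree_of_forall hci.leA hcg (fun s hs => ?_)
  have hs' : MeasurableSet s := hci.leA s hs
  have h2 := hci.eq s hs
  rw [sup_eq_left.2 hle] at h2
  filter_upwards [kd_ind (P := P) hζ hs', kd_ind (P := P) hη hs', h2] with ω e1 e2 e3
  apply eq_of_real_eq
  rw [e1, e2, e3]


theorem kd_tower (hη : Measurable η) (hζ : Measurable ζ) (hle : mE.comap η ≤ mW.comap ζ) :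
    ∀ᵐ ω ∂P, ((kd P ζ).comap ζ hζ) ∘ₘ (kd P η (η ω)) = kd P η (η ω) := by
  have key := ae_agree_of_forall (ν := P)
    (ρ := fun ω => ((kd P ζ).comap ζ hζ) ∘ₘ (kd P η (η ω)))
    (ρ' := fun ω => kd P η (η ω)) le_rfl inferInstance (fun s hs => ?_)
  · filter_upwards [key] with ω hω using hω.eq
  have hm : Measurable fun ω' => kd P ζ (ζ ω') s := ((kd P ζ).measurable_coe hs).comp hζ
  have h1 := kd_ind (P := P) hζ hs
  have hint : Integrable (fun ω => (((kd P ζ (ζ ω)).real s : ℝ) : ℂ)) P :=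
    integrable_condExp.congr h1.symm
  have h2 := kd_integral (P := P) hη hint
  have h3 := condExp_congr_ae (m := mE.comap η) h1
  have h4 := condExp_condExp_of_le (μ := P) (f := ind s) hle hζ.comap_le
  filter_upwards [h2, h3, h4, kd_ind (P := P) hη hs] with ω e2 e3 e4 e5
  apply eq_of_real_eq
  rw [e5, ← e4, ← e3, ← e2, integral_complex_ofReal]
  congr 1
  simp only [measureReal_def]
  rw [Measure.bind_apply hs (Kernel.aemeasurable _), integral_toReal hm.aemeasurable
    (Eventually.of_forall fun _ => measure_lt_top _ _)]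
  simp only [Kernel.comap_apply]


theorem kd_indep {X : Type*} [mX : MeasurableSpace X] [MeasurableSpace.CountablyGenerated X]
    {ξ : Ω → X} (hξ : Measurable ξ) (hη : Measurable η)
    (hi : Indep (mX.comap ξ) (mE.comap η) P) : ∀ᵐ ω ∂P, (kd P η (η ω)).map ξ = P.map ξ := by
  have : ∀ ω, IsProbabilityMeasure ((kd P η (η ω)).map ξ) := fun ω =>
    Measure.isProbabilityMeasure_map hξ.aemeasurable
  have : IsProbabilityMeasure (P.map ξ) := Measure.isProbabilityMeasure_map hξ.aemeasurable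
  have key := ae_agree_of_forall (ν := P) (ρ := fun ω => (kd P η (η ω)).map ξ)
    (ρ' := fun _ => P.map ξ) le_rfl inferInstance (fun s hs => ?_)
  · filter_upwards [key] with ω hω using hω.eq
  have h1 := kd_ind (P := P) hη (hξ hs)
  have h2 := condExp_indep (μ := P) (f := ind (ξ ⁻¹' s)) hξ.comap_le hη.comap_le hi
    (BM.ind (μ := P) (m := mX.comap ξ) ⟨s, hs, rfl⟩).1
  filter_upwards [h1, h2] with ω e1 e2
  rw [Measure.map_apply hξ hs, Measure.map_apply hξ hs]
  apply eq_of_real_eq
  rw [e1, e2, integral_ind (hξ hs)]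


end Vale.Agent.P102
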