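import Vale.Agent.P102.Gap
import Vale.Agent.P102.Dense

/-! P102, file Near: measurability of the events `Ch` and `Near` along kernels.

PLAN. Let `φ j, c j, w j` be the dense families (`exists_dense_uni`) of `B 0, B 1, B 2`, and
`AC ρ a δ := ∃ j j', ∫ ‖a - c j * w j'‖ ∂ρ < δ`. Then `Ch B ρ a ↔ ∀ n, AC ρ a (1 / (n + 1))`, and
`v ↦ ∫ ‖..‖ ∂κ v` is measurable (`StronglyMeasurable.integral_kernel`).
`exists_measurable_near`: `N := {v | ∃ q : ℚ, q < η ∧ ∀ n, ∃ j, ∫ ‖φ j - φ‖ ∂κ v < q ∧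
AC (κ v) (φ j) (1 / (n + 1)) ∧ AC (κ' v) (φ j) (1 / (n + 1))}`. From `Near` to `N`: approximate
`a` by `φ j` (`Agree.integral_eq` moves the distance to `κ' v`). From `N` to `Near` is
`exists_char_of_approx`: `a n * conj (a n')` is within `δ = 1/(n+1) + 1/(n'+1)` of a product
`c w` and `‖∫ a n * conj (a n')‖ ≥ 1 - 2 q ≥ 4/5`, so `gap` gives `1 - ‖∫ ..‖ ≤ 5 δ` for
`δ ≤ 1/10`; `exists_phase`. Along a fast subsequence choose phases recursively to get a sequence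
`b n = θ n * a (k n)` with `∑ ∫ ‖b (n+1) - b n‖ < ∞`; it converges a.e.; the limit `b`
(`limUnder`, made unimodular by `exists_uni`) is an `L¹` limit. The phases `θ n` have a convergent
subsequence with limit `θ`, and `a := conj θ * b` has `∫ ‖a - φ‖ ≤ q`. (Alternative without
recursion: `Lp ℂ 1 ρ` is complete; the sets `closure {θ • a n' | n' ≥ n}` ... or use
`cauchySeq_of_le_geometric`.) -/

open MeasureTheory ProbabilityTheory Filter Topology Set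
open scoped ComplexConjugate ENNReal InnerProductSpace

namespace Vale.Agent.P102

variable {Ω V : Type*} {m0 : MeasurableSpace Ω} {B : Fin 3 → MeasurableSpace Ω}
  {mV : MeasurableSpace V}

theorem near_int {ρ : Measure Ω} [IsProbabilityMeasure ρ] {f g : Ω → ℂ} (hf : Uni m0 f)
    (hg : Uni m0 g) : Integrable (fun ω => ‖f ω - g ω‖) ρ :=
  (((hf.bm (μ := ρ)).integrable le_rfl).sub ((hg.bm (μ := ρ)).integrable le_rfl)).norm

theorem near_nonneg {ρ : Measure Ω} (f g : Ω → ℂ) : 0 ≤ ∫ ω, ‖f ω - g ω‖ ∂ρ :=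
  integral_nonneg fun _ => norm_nonneg _

theorem near_symm {ρ : Measure Ω} (f g : Ω → ℂ) :
    ∫ ω, ‖f ω - g ω‖ ∂ρ = ∫ ω, ‖g ω - f ω‖ ∂ρ := by
  simp only [norm_sub_rev (f _)]

theorem near_tri {ρ : Measure Ω} [IsProbabilityMeasure ρ] {f g h : Ω → ℂ} (hf : Uni m0 f)
    (hg : Uni m0 g) (hh : Uni m0 h) :
    ∫ ω, ‖f ω - h ω‖ ∂ρ ≤ ∫ ω, ‖f ω - g ω‖ ∂ρ + ∫ ω, ‖g ω - h ω‖ ∂ρ := by
  rw [← integral_add (near_int hf hg) (near_int hg hh)]
  exact integral_mono (near_int hf hh) ((near_int hf hg).add (near_int hg hh))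
    fun ω => norm_sub_le_norm_sub_add_norm_sub _ _ _

theorem near_mul {ρ : Measure Ω} [IsProbabilityMeasure ρ] {f g f' g' : Ω → ℂ} (hf : Uni m0 f)
    (hg : Uni m0 g) (hf' : Uni m0 f') (hg' : Uni m0 g') :
    ∫ ω, ‖f ω * f' ω - g ω * g' ω‖ ∂ρ ≤ ∫ ω, ‖f ω - g ω‖ ∂ρ + ∫ ω, ‖f' ω - g' ω‖ ∂ρ := by
  rw [← integral_add (near_int hf hg) (near_int hf' hg')]
  refine integral_mono (near_int (hf.mul hf') (hg.mul hg'))
    ((near_int hf hg).add (near_int hf' hg')) fun ω => ?_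
  have e : f ω * f' ω - g ω * g' ω = (f ω - g ω) * f' ω + g ω * (f' ω - g' ω) := by ring
  show ‖f ω * f' ω - g ω * g' ω‖ ≤ ‖f ω - g ω‖ + ‖f' ω - g' ω‖
  rw [e]
  refine (norm_add_le _ _).trans ?_
  rw [norm_mul, norm_mul, hf'.2 ω, hg.2 ω, mul_one, one_mul]

theorem near_star {ρ : Measure Ω} (f g : Ω → ℂ) :
    ∫ ω, ‖star (f ω) - star (g ω)‖ ∂ρ = ∫ ω, ‖f ω - g ω‖ ∂ρ := by
  simp only [← star_sub, norm_star]

theorem near_integral_sub {ρ : Measure Ω} [IsProbabilityMeasure ρ] {f g : Ω → ℂ} (hf : Uni m0 f)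
    (hg : Uni m0 g) : ‖∫ ω, f ω ∂ρ - ∫ ω, g ω ∂ρ‖ ≤ ∫ ω, ‖f ω - g ω‖ ∂ρ := by
  rw [← integral_sub ((hf.bm (μ := ρ)).integrable le_rfl) ((hg.bm (μ := ρ)).integrable le_rfl)]
  exact norm_integral_le_integral_norm _

theorem near_const {m : MeasurableSpace Ω} {θ : ℂ} (hθ : ‖θ‖ = 1) : Uni m fun _ : Ω => θ :=
  ⟨measurable_const, fun _ => hθ⟩

theorem near_meas (κ : Kernel V Ω) {f g : Ω → ℂ} (hf : Uni m0 f) (hg : Uni m0 g) :
    Measurable fun v => ∫ ω, ‖f ω - g ω‖ ∂(κ v) :=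
  ((hf.1.sub hg.1).norm.stronglyMeasurable.integral_kernel (κ := κ)).measurable

theorem near_agree {m : MeasurableSpace Ω} {m0 : MeasurableSpace Ω} (hm : m ≤ m0)
    {ρ ρ' : Measure Ω} (hA : Agree m ρ ρ') {f g : Ω → ℂ} (hf : Uni m f) (hg : Uni m g) :
    ∫ ω, ‖f ω - g ω‖ ∂ρ = ∫ ω, ‖f ω - g ω‖ ∂ρ' :=
  hA.integral_eq hm (F := fun ω => ‖f ω - g ω‖)
    (by let _ := m; exact (hf.1.sub hg.1).norm.stronglyMeasurable)

/-- An `L¹`-Cauchy sequence of unimodular functions has a unimodular limit. -/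
theorem near_limit {m : MeasurableSpace Ω} {m0 : MeasurableSpace Ω} (hm : m ≤ m0)
    {ρ : Measure Ω} [IsProbabilityMeasure ρ] (a : ℕ → Ω → ℂ) (ha : ∀ n, Uni m (a n))
    (h : ∀ ε : ℝ, 0 < ε → ∃ N, ∀ n, N ≤ n → ∫ ω, ‖a n ω - a N ω‖ ∂ρ < ε) :
    ∃ b, Uni m b ∧ Tendsto (fun n => ∫ ω, ‖a n ω - b ω‖ ∂ρ) atTop (𝓝 0) := by
  have hint : ∀ n, Integrable (a n) ρ := fun n => ((ha n).bm (μ := ρ)).integrable hm
  set A : ℕ → Lp ℂ 1 ρ := fun n => (hint n).toL1 (a n) with hAdef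
  have hA : ∀ n, (A n : Ω → ℂ) =ᵐ[ρ] a n := fun n => (hint n).coeFn_toL1
  have hdist : ∀ n (F : Lp ℂ 1 ρ), dist (A n) F = ∫ ω, ‖a n ω - F ω‖ ∂ρ := by
    intro n F
    rw [L1.dist_eq_integral_dist]
    refine integral_congr_ae ?_
    filter_upwards [hA n] with ω h1
    rw [h1, dist_eq_norm]
  have hC : CauchySeq A := by
    rw [Metric.cauchySeq_iff']
    intro ε hε
    obtain ⟨N, hN⟩ := h ε hε
    refine ⟨N, fun n hn => ?_⟩
    rw [hdist]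
    refine lt_of_eq_of_lt (integral_congr_ae ?_) (hN n hn)
    filter_upwards [hA N] with ω h1
    rw [h1]
  obtain ⟨F, hF⟩ := cauchySeq_tendsto_of_complete hC
  have hFm : AEStronglyMeasurable[m] (F : Ω → ℂ) ρ := by
    refine (isClosed_aestronglyMeasurable (F := ℂ) (p := 1) (μ := ρ) hm).mem_of_tendsto hF
      (Eventually.of_forall fun n => ?_)
    exact ((ha n).bm (μ := ρ)).1.congr (hA n).symm
  have hT : Tendsto (fun n => ∫ ω, ‖a n ω - F ω‖ ∂ρ) atTop (𝓝 0) := by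
    have := tendsto_iff_dist_tendsto_zero.1 hF
    simpa only [hdist] using this
  have hFi : Integrable (F : Ω → ℂ) ρ := L1.integrable_coeFn F
  have hI : Integrable (fun ω => |‖F ω‖ - 1|) ρ := (hFi.norm.sub (integrable_const 1)).abs
  have h0 : ∫ ω, |‖F ω‖ - 1| ∂ρ = 0 := by
    refine le_antisymm (ge_of_tendsto' hT fun n => ?_) (integral_nonneg fun ω => abs_nonneg _)
    refine integral_mono hI ((hint n).sub hFi).norm fun ω => ?_
    show |‖F ω‖ - 1| ≤ ‖a n ω - F ω‖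
    rw [← (ha n).2 ω, norm_sub_rev]
    exact abs_norm_sub_norm_le _ _
  have h1 : ∀ᵐ ω ∂ρ, ‖F ω‖ = 1 := by
    have := (integral_eq_zero_iff_of_nonneg (fun ω => abs_nonneg _) hI).1 h0
    filter_upwards [this] with ω hω
    exact sub_eq_zero.1 (abs_eq_zero.1 hω)
  obtain ⟨b, hb, hbF⟩ := exists_uni hFm h1
  refine ⟨b, hb, hT.congr fun n => integral_congr_ae ?_⟩
  filter_upwards [hbF] with ω hω
  rw [hω]

/-- Two approximate characters close to the same function are nearly proportional. -/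
theorem near_phase (hB : ∀ j, B j ≤ m0) {ρ : Measure Ω} [IsProbabilityMeasure ρ]
    (hG : Good B ρ) {φ a a' : Ω → ℂ} (hφ : Uni (B 0) φ) (ha : Uni (B 0) a) (ha' : Uni (B 0) a')
    (h1 : ∫ ω, ‖a ω - φ ω‖ ∂ρ ≤ 1 / 10) (h1' : ∫ ω, ‖a' ω - φ ω‖ ∂ρ ≤ 1 / 10) {δ : ℝ}
    (hδ : δ ≤ 1 / 20)
    (h2 : ∃ c w, Uni (B 1) c ∧ Uni (B 2) w ∧ ∫ ω, ‖a ω - c ω * w ω‖ ∂ρ ≤ δ)
    (h2' : ∃ c w, Uni (B 1) c ∧ Uni (B 2) w ∧ ∫ ω, ‖a' ω - c ω * w ω‖ ∂ρ ≤ δ) :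
    ∃ θ : ℂ, ‖θ‖ = 1 ∧ ∫ ω, ‖a ω - θ * a' ω‖ ∂ρ ≤ √(8 * δ) := by
  obtain ⟨c, w, hc, hw, hcw⟩ := h2
  obtain ⟨c', w', hc', hw', hcw'⟩ := h2'
  have hδ0 : 0 ≤ δ := (near_nonneg _ _).trans hcw
  have hu : Uni (B 0) (a * star a') := ha.mul ha'.star
  have hd : ∫ ω, ‖(a * star a') ω - (c * star c') ω * (w * star w') ω‖ ∂ρ ≤ 2 * δ := by
    have e := near_mul (ρ := ρ) (ha.mono (hB 0)) ((hc.mono (hB 1)).mul (hw.mono (hB 2)))
      (ha'.star.mono (hB 0)) ((hc'.mono (hB 1)).mul (hw'.mono (hB 2))).star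
    have e2 := near_star (ρ := ρ) a' (c' * w')
    simp only [Pi.mul_apply, Pi.star_apply] at e e2 ⊢
    have e3 : ∀ ω, c ω * star (c' ω) * (w ω * star (w' ω)) = c ω * w ω * star (c' ω * w' ω) := by
      intro ω; rw [star_mul]; ring
    simp only [e3]
    linarith
  have hg := gap (hB 0) (hB 1) (hB 2) hG.1 hG.2.1 hG.2.2 hu (hc.mul hc'.star) (hw.mul hw'.star) hd
  have hle : ‖∫ ω, (a * star a') ω ∂ρ‖ ≤ 1 := by
    refine (norm_integral_le_integral_norm _).trans ?_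
    simp only [hu.2]
    simp
  have hge : 4 / 5 ≤ ‖∫ ω, (a * star a') ω ∂ρ‖ := by
    have e := near_integral_sub (ρ := ρ) (hu.mono (hB 0)) (Uni.one m0)
    have e2 := near_mul (ρ := ρ) (ha.mono (hB 0)) (hφ.mono (hB 0)) (ha'.star.mono (hB 0))
      (hφ.star.mono (hB 0))
    have e3 := near_star (ρ := ρ) a' φ
    have e4 : ∀ ω, φ ω * star (φ ω) = 1 := fun ω => by
      have := congrFun hφ.star_mul_self ω
      simp only [Pi.mul_apply, Pi.star_apply, Pi.one_apply] at this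
      rw [mul_comm]; exact this
    simp only [Pi.mul_apply, Pi.star_apply, Pi.one_apply, e4] at e e2 ⊢
    have e5 : ∫ _ : Ω, (1 : ℂ) ∂ρ = 1 := by simp
    rw [e5] at e
    have e6 := norm_sub_norm_le (1 : ℂ) (∫ ω, a ω * star (a' ω) ∂ρ)
    rw [norm_sub_rev, norm_one] at e6
    linarith
  have hmain : 1 - 4 * δ ≤ ‖∫ ω, (a * star a') ω ∂ρ‖ := by
    set x := ‖∫ ω, (a * star a') ω ∂ρ‖
    have e1 : 1 ≤ (x - 2 * δ) * (1 + x) := by nlinarith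
    have e2 : (x - 2 * δ) * (1 - x ^ 2) = (x - 2 * δ) * (1 + x) * (1 - x) := by ring
    nlinarith
  obtain ⟨θ, hθ, hθ'⟩ := exists_phase (hB 0) hu hmain
  refine ⟨θ, hθ, ?_⟩
  have e : ∀ ω, ‖a ω - θ * a' ω‖ = ‖(a * star a') ω - θ‖ := by
    intro ω
    have h3 := congrFun ha'.star_mul_self ω
    simp only [Pi.mul_apply, Pi.star_apply, Pi.one_apply] at h3 ⊢
    have h4 : a ω - θ * a' ω = (a ω * star (a' ω) - θ) * a' ω := by
      rw [sub_mul, mul_assoc, h3, mul_one]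
    rw [h4, norm_mul, ha'.2 ω, mul_one]
  simp only [e]
  refine hθ'.trans (le_of_eq ?_)
  congr 1; ring

/-- The phase is controlled by the correlation with `φ`. -/
theorem near_fix {ρ : Measure Ω} [IsProbabilityMeasure ρ] {φ a a' : Ω → ℂ} (hφ : Uni m0 φ)
    (ha : Uni m0 a) (ha' : Uni m0 a') (h1' : ∫ ω, ‖a' ω - φ ω‖ ∂ρ ≤ 1 / 10) {θ : ℂ}
    (hθ : ‖θ‖ = 1) :
    ∫ ω, ‖a ω - a' ω‖ ∂ρ ≤ 3 * ∫ ω, ‖a ω - θ * a' ω‖ ∂ρ +
      2 * ‖∫ ω, a ω * star (φ ω) ∂ρ - ∫ ω, a' ω * star (φ ω) ∂ρ‖ := by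
  have hθa : Uni m0 fun ω => θ * a' ω := (near_const hθ).mul ha'
  have t1 := near_tri (ρ := ρ) ha hθa ha'
  have t2 : ∫ ω, ‖θ * a' ω - a' ω‖ ∂ρ = ‖θ - 1‖ := by
    have e : ∀ ω, ‖θ * a' ω - a' ω‖ = ‖θ - 1‖ := fun ω => by
      rw [← sub_one_mul, norm_mul, ha'.2 ω, mul_one]
    simp only [e]
    simp
  have e4 : ∀ ω, φ ω * star (φ ω) = 1 := fun ω => by
    have := congrFun hφ.star_mul_self ω
    simp only [Pi.mul_apply, Pi.star_apply, Pi.one_apply] at this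
    rw [mul_comm]; exact this
  set z := ∫ ω, a ω * star (φ ω) ∂ρ with hz
  set z' := ∫ ω, a' ω * star (φ ω) ∂ρ with hz'
  have t3 : 9 / 10 ≤ ‖z'‖ := by
    have e := near_integral_sub (ρ := ρ) (ha'.mul hφ.star) (Uni.one m0)
    have e2 := near_mul (ρ := ρ) ha' hφ hφ.star hφ.star
    simp only [Pi.mul_apply, Pi.star_apply, Pi.one_apply, e4, sub_self, norm_zero,
      integral_zero] at e e2
    have e5 : ∫ _ : Ω, (1 : ℂ) ∂ρ = 1 := by simp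
    rw [e5] at e
    have e6 := norm_sub_norm_le (1 : ℂ) z'
    rw [norm_sub_rev, norm_one] at e6
    linarith
  have t4 : ‖z - θ * z'‖ ≤ ∫ ω, ‖a ω - θ * a' ω‖ ∂ρ := by
    have e := near_integral_sub (ρ := ρ) (ha.mul hφ.star) (hθa.mul hφ.star)
    have e2 := near_mul (ρ := ρ) ha hθa hφ.star hφ.star
    simp only [Pi.mul_apply, Pi.star_apply, sub_self, norm_zero, integral_zero] at e e2
    have e3 : ∫ ω, θ * a' ω * star (φ ω) ∂ρ = θ * z' := by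
      rw [hz', ← integral_const_mul]
      simp only [mul_assoc]
    rw [e3] at e
    linarith
  have t5 : ‖θ - 1‖ * ‖z'‖ ≤ ‖z - θ * z'‖ + ‖z - z'‖ := by
    rw [← norm_mul]
    have e : (θ - 1) * z' = -(z - θ * z') + (z - z') := by ring
    rw [e]
    refine (norm_add_le _ _).trans ?_
    rw [norm_neg]
  have t6 := norm_nonneg (θ - 1)
  have t7 := norm_nonneg (z - z')
  have t8 := near_nonneg (ρ := ρ) a fun ω => θ * a' ω
  nlinarith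

theorem near_ch (hB : ∀ j, B j ≤ m0) {ρ : Measure Ω} [IsProbabilityMeasure ρ] {b : Ω → ℂ}
    (hb : Uni (B 0) b) (a : ℕ → Ω → ℂ) (ha : ∀ n, Uni (B 0) (a n)) {k : ℕ → ℕ}
    (hk : StrictMono k)
    (hT : Tendsto (fun n => ∫ ω, ‖a (k n) ω - b ω‖ ∂ρ) atTop (𝓝 0))
    (h2 : ∀ n, ∃ c w, Uni (B 1) c ∧ Uni (B 2) w ∧ ∫ ω, ‖a n ω - c ω * w ω‖ ∂ρ < 1 / (n + 1)) :
    Ch B ρ b := by
  intro ε hε
  have hT2 : Tendsto (fun n => 1 / ((k n : ℝ) + 1)) atTop (𝓝 0) :=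
    tendsto_one_div_add_atTop_nhds_zero_nat.comp hk.tendsto_atTop
  have hT3 := hT.add hT2
  rw [add_zero] at hT3
  obtain ⟨n, hn⟩ := (hT3.eventually (gt_mem_nhds hε)).exists
  obtain ⟨c, w, hc, hw, hcw⟩ := h2 (k n)
  refine ⟨c, w, hc, hw, ?_⟩
  have t := near_tri (ρ := ρ) (hb.mono (hB 0)) ((ha (k n)).mono (hB 0))
    ((hc.mono (hB 1)).mul (hw.mono (hB 2)))
  rw [near_symm b (a (k n))] at t
  simp only [Pi.mul_apply] at t
  linarith

theorem near_measAC (hB : ∀ j, B j ≤ m0) (hcg : ∀ j, CG (B j)) (κ : Kernel V Ω)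
    [IsMarkovKernel κ] {a : Ω → ℂ} (ha : Uni (B 0) a) (δ : ℝ) :
    MeasurableSet {v | ∃ c w, Uni (B 1) c ∧ Uni (B 2) w ∧
      ∫ ω, ‖a ω - c ω * w ω‖ ∂(κ v) < δ} := by
  obtain ⟨c, hc, hcd⟩ := exists_dense_uni (hB 1) (hcg 1)
  obtain ⟨w, hw, hwd⟩ := exists_dense_uni (hB 2) (hcg 2)
  have e : {v | ∃ c w, Uni (B 1) c ∧ Uni (B 2) w ∧ ∫ ω, ‖a ω - c ω * w ω‖ ∂(κ v) < δ} =
      ⋃ j, ⋃ j', {v | ∫ ω, ‖a ω - c j ω * w j' ω‖ ∂(κ v) < δ} := by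
    ext v
    simp only [mem_ofPred_eq, mem_iUnion]
    constructor
    · rintro ⟨c', w', hc', hw', h⟩
      set ε := (δ - ∫ ω, ‖a ω - c' ω * w' ω‖ ∂(κ v)) / 2 with hε
      have hε0 : 0 < ε := by rw [hε]; linarith
      obtain ⟨j, hj⟩ := hcd (κ v) inferInstance c' hc' ε hε0
      obtain ⟨j', hj'⟩ := hwd (κ v) inferInstance w' hw' ε hε0
      refine ⟨j, j', ?_⟩
      have t := near_tri (ρ := κ v) (ha.mono (hB 0)) ((hc'.mono (hB 1)).mul (hw'.mono (hB 2)))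
        (((hc j).mono (hB 1)).mul ((hw j').mono (hB 2)))
      have t2 := near_mul (ρ := κ v) (hc'.mono (hB 1)) ((hc j).mono (hB 1)) (hw'.mono (hB 2))
        ((hw j').mono (hB 2))
      simp only [Pi.mul_apply] at t
      linarith
    · rintro ⟨j, j', h⟩
      exact ⟨c j, w j', hc j, hw j', h⟩
  rw [e]
  refine MeasurableSet.iUnion fun j => MeasurableSet.iUnion fun j' => ?_
  exact measurableSet_lt (near_meas κ (ha.mono (hB 0))
    (((hc j).mono (hB 1)).mul ((hw j').mono (hB 2)))) measurable_const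

theorem exists_char_of_approx (hB : ∀ j, B j ≤ m0) {ρ ρ' : Measure Ω} [IsProbabilityMeasure ρ]
    [IsProbabilityMeasure ρ'] (hG : Good B ρ) (hA : Agree (B 0) ρ ρ') {φ : Ω → ℂ}
    (hφ : Uni (B 0) φ) {q : ℝ} (hq : q ≤ 1 / 10) (a : ℕ → Ω → ℂ) (ha : ∀ n, Uni (B 0) (a n))
    (h1 : ∀ n, ∫ ω, ‖a n ω - φ ω‖ ∂ρ ≤ q)
    (h2 : ∀ n, ∃ c w, Uni (B 1) c ∧ Uni (B 2) w ∧ ∫ ω, ‖a n ω - c ω * w ω‖ ∂ρ < 1 / (n + 1))
    (h3 : ∀ n, ∃ c w, Uni (B 1) c ∧ Uni (B 2) w ∧ ∫ ω, ‖a n ω - c ω * w ω‖ ∂ρ' < 1 / (n + 1)) :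
    ∃ b, Uni (B 0) b ∧ Ch B ρ b ∧ Ch B ρ' b ∧ ∫ ω, ‖b ω - φ ω‖ ∂ρ ≤ q := by
  have hzb : ∀ n, ∫ ω, a n ω * star (φ ω) ∂ρ ∈ Metric.closedBall (0 : ℂ) 1 := by
    intro n
    rw [mem_closedBall_zero_iff]
    refine (norm_integral_le_integral_norm _).trans ?_
    simp only [norm_mul, norm_star, (ha n).2, hφ.2]
    simp
  obtain ⟨z, -, k, hk, hz⟩ := (isCompact_closedBall (0 : ℂ) 1).tendsto_subseq hzb
  have hC : ∀ ε : ℝ, 0 < ε → ∃ N, ∀ n, N ≤ n → ∫ ω, ‖a (k n) ω - a (k N) ω‖ ∂ρ < ε := by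
    intro ε hε
    have hT2 : Tendsto (fun n => 1 / ((k n : ℝ) + 1)) atTop (𝓝 0) :=
      tendsto_one_div_add_atTop_nhds_zero_nat.comp hk.tendsto_atTop
    have hT3 : Tendsto (fun n => √(8 * (1 / ((k n : ℝ) + 1)))) atTop (𝓝 0) := by
      have := (hT2.const_mul 8).sqrt
      simpa only [mul_zero, Real.sqrt_zero] using this
    obtain ⟨N1, hN1⟩ := Metric.cauchySeq_iff.1 hz.cauchySeq (ε / 4) (by positivity)
    obtain ⟨N, hN, hN2, hN3⟩ := ((eventually_ge_atTop N1).and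
      ((hT2.eventually (gt_mem_nhds (show (0 : ℝ) < 1 / 20 by norm_num))).and
      (hT3.eventually (gt_mem_nhds (show (0 : ℝ) < ε / 6 by positivity))))).exists
    refine ⟨N, fun n hn => ?_⟩
    have hmono : 1 / ((k n : ℝ) + 1) ≤ 1 / ((k N : ℝ) + 1) := by
      have : (k N : ℝ) ≤ k n := by exact_mod_cast hk.monotone hn
      exact one_div_le_one_div_of_le (by positivity) (by linarith)
    obtain ⟨θ, hθ, hθ'⟩ := near_phase hB hG hφ (ha (k n)) (ha (k N)) ((h1 _).trans hq)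
      ((h1 _).trans hq) hN2.le
      (by obtain ⟨c, w, hc, hw, h⟩ := h2 (k n); exact ⟨c, w, hc, hw, h.le.trans hmono⟩)
      (by obtain ⟨c, w, hc, hw, h⟩ := h2 (k N); exact ⟨c, w, hc, hw, h.le⟩)
    have t := near_fix (ρ := ρ) (hφ.mono (hB 0)) ((ha (k n)).mono (hB 0)) ((ha (k N)).mono (hB 0))
      ((h1 _).trans hq) hθ
    have t2 := hN1 n (hN.trans hn) N hN
    rw [dist_eq_norm] at t2
    simp only [Function.comp_apply] at t2
    linarith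
  obtain ⟨b, hb, hT⟩ := near_limit (hB 0) (fun n => a (k n)) (fun n => ha _) hC
  refine ⟨b, hb, near_ch hB hb a ha hk hT h2, near_ch hB hb a ha hk ?_ h3, ?_⟩
  · exact hT.congr fun n => near_agree (hB 0) hA (ha _) hb
  · have hT2 := hT.add_const q
    rw [zero_add] at hT2
    refine ge_of_tendsto' hT2 fun n => ?_
    have t := near_tri (ρ := ρ) (hb.mono (hB 0)) ((ha (k n)).mono (hB 0)) (hφ.mono (hB 0))
    rw [near_symm b (a (k n))] at t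
    linarith [h1 (k n)]

theorem measurableSet_Ch (hB : ∀ j, B j ≤ m0) (hcg : ∀ j, CG (B j)) (κ : Kernel V Ω)
    [IsMarkovKernel κ] {a : Ω → ℂ} (ha : Uni (B 0) a) : MeasurableSet {v | Ch B (κ v) a} := by
  have e : {v | Ch B (κ v) a} = ⋂ n : ℕ, {v | ∃ c w, Uni (B 1) c ∧ Uni (B 2) w ∧
      ∫ ω, ‖a ω - c ω * w ω‖ ∂(κ v) < 1 / ((n : ℝ) + 1)} := by
    ext v
    simp only [mem_ofPred_eq, mem_iInter]
    constructor
    · intro h n
      exact h _ (by positivity)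
    · intro h ε hε
      obtain ⟨n, hn⟩ := exists_nat_one_div_lt hε
      obtain ⟨c, w, hc, hw, h'⟩ := h n
      exact ⟨c, w, hc, hw, h'.trans hn⟩
  rw [e]
  exact MeasurableSet.iInter fun n => near_measAC hB hcg κ ha _

theorem exists_measurable_near (hB : ∀ j, B j ≤ m0) (hcg : ∀ j, CG (B j)) (κ κ' : Kernel V Ω)
    [IsMarkovKernel κ] [IsMarkovKernel κ'] {φ : Ω → ℂ} (hφ : Uni (B 0) φ) {η : ℝ}
    (hη : η ≤ 1 / 10) :
    ∃ N : Set V, MeasurableSet N ∧ ∀ v, Good B (κ v) → Agree (B 0) (κ v) (κ' v) →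
      (v ∈ N ↔ Near B (κ v) (κ' v) φ η) := by
  obtain ⟨ψ, hψ, hψd⟩ := exists_dense_uni (hB 0) (hcg 0)
  refine ⟨⋃ q : ℚ, {_v | (q : ℝ) < η} ∩ ⋂ n : ℕ, ⋃ j : ℕ,
    {v | ∫ ω, ‖ψ j ω - φ ω‖ ∂(κ v) < q} ∩
    ({v | ∃ c w, Uni (B 1) c ∧ Uni (B 2) w ∧
      ∫ ω, ‖ψ j ω - c ω * w ω‖ ∂(κ v) < 1 / ((n : ℝ) + 1)} ∩
    {v | ∃ c w, Uni (B 1) c ∧ Uni (B 2) w ∧
      ∫ ω, ‖ψ j ω - c ω * w ω‖ ∂(κ' v) < 1 / ((n : ℝ) + 1)}), ?_, ?_⟩
  · refine MeasurableSet.iUnion fun q => (MeasurableSet.const _).inter ?_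
    refine MeasurableSet.iInter fun n => MeasurableSet.iUnion fun j => MeasurableSet.inter ?_ ?_
    · exact measurableSet_lt (near_meas κ ((hψ j).mono (hB 0)) (hφ.mono (hB 0))) measurable_const
    · exact (near_measAC hB hcg κ (hψ j) _).inter (near_measAC hB hcg κ' (hψ j) _)
  · intro v hG hA
    simp only [mem_iUnion, mem_inter_iff, mem_iInter, mem_ofPred_eq]
    constructor
    · rintro ⟨q, hq, h⟩
      choose j hj1 hj2 hj3 using h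
      obtain ⟨b, hb, h1, h2, h3⟩ := exists_char_of_approx hB hG hA hφ (hq.le.trans hη)
        (fun n => ψ (j n)) (fun n => hψ _) (fun n => (hj1 n).le) hj2 hj3
      exact ⟨b, hb, h1, h2, h3.trans_lt hq⟩
    · rintro ⟨a, ha, h1, h2, h3⟩
      obtain ⟨q, hq1, hq2⟩ := exists_rat_btwn h3
      refine ⟨q, hq2, fun n => ?_⟩
      have hn : (0 : ℝ) < 1 / ((n : ℝ) + 1) / 2 := by positivity
      obtain ⟨j, hj⟩ := hψd (κ v) inferInstance a ha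
        (min (q - ∫ ω, ‖a ω - φ ω‖ ∂(κ v)) (1 / ((n : ℝ) + 1) / 2)) (lt_min (by linarith) hn)
      rw [near_symm, lt_min_iff] at hj
      have hj' := near_agree (hB 0) hA (hψ j) ha
      refine ⟨j, ?_, ?_, ?_⟩
      · have t := near_tri (ρ := κ v) ((hψ j).mono (hB 0)) (ha.mono (hB 0)) (hφ.mono (hB 0))
        linarith [hj.1]
      · obtain ⟨c, w, hc, hw, h⟩ := h1 _ hn
        refine ⟨c, w, hc, hw, ?_⟩
        have t := near_tri (ρ := κ v) ((hψ j).mono (hB 0)) (ha.mono (hB 0))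
          ((hc.mono (hB 1)).mul (hw.mono (hB 2)))
        simp only [Pi.mul_apply] at t
        linarith [hj.2]
      · obtain ⟨c, w, hc, hw, h⟩ := h2 _ hn
        refine ⟨c, w, hc, hw, ?_⟩
        have t := near_tri (ρ := κ' v) ((hψ j).mono (hB 0)) (ha.mono (hB 0))
          ((hc.mono (hB 1)).mul (hw.mono (hB 2)))
        simp only [Pi.mul_apply] at t
        linarith [hj.2]

end Vale.Agent.P102
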