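import Vale.Agent.P102.Basic

/-! P102, file Sys: the abstract interface between the cube process and the structure theory. -/

open MeasureTheory ProbabilityTheory Filter Topology Set
open scoped ComplexConjugate ENNReal InnerProductSpace

namespace Vale.Agent.P102

/-- Slot `j` in the positions `S` of the big system. -/
@[instance_reducible] def sl {k : ℕ} {Ω₀ Ω₁ : Type} (B : Fin 3 → MeasurableSpace Ω₀)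
    (π : Fin k → Ω₁ → Ω₀) (j : Fin 3) (S : Set (Fin k)) : MeasurableSpace Ω₁ :=
  ⨆ i ∈ S, (B j).comap (π i)

structure Sys (k : ℕ) (X Ω₀ Ω₁ W E : Type) [mX : MeasurableSpace X] [m0 : MeasurableSpace Ω₀]
    [m1 : MeasurableSpace Ω₁] [mW : MeasurableSpace W] [mE : MeasurableSpace E] where
  μ : Measure X
  T : ℤ → X → X
  f : Fin k → X → ℂ
  i0 : Fin k
  iB : Fin k
  i2 : Fin k
  P0 : Measure Ω₀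
  P1 : Measure Ω₁
  B : Fin 3 → MeasurableSpace Ω₀
  ξ : Ω₀ → X
  ζ : Ω₀ → W
  r : W → E
  S : ℤ → Ω₀ → Ω₀
  Θ : Bool → Ω₀ → Ω₀
  π : Fin k → Ω₁ → Ω₀
  g : Ω₀ → ℂ
  g' : Ω₀ → ℂ
  𝔭 : Ultrafilter ℕ
  t : ℕ → Fin k → ℤ
  probμ : IsProbabilityMeasure μ
  prob0 : IsProbabilityMeasure P0
  prob1 : IsProbabilityMeasure P1
  mT : ∀ d, Measurable (T d)
  T_zero : ∀ x, T 0 x = x
  T_add : ∀ a b x, T (a + b) x = T a (T b x)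
  T_pres : ∀ d, μ.map (T d) = μ
  mix : ∀ φ ψ : X → ℂ, Measurable φ → Measurable ψ → (∀ x, ‖φ x‖ ≤ 1) → (∀ x, ‖ψ x‖ ≤ 1) →
    Tendsto (fun n : ℤ => ∫ x, φ (T n x) * ψ x ∂μ) atTop (𝓝 ((∫ x, φ x ∂μ) * ∫ x, ψ x ∂μ))
  mf : ∀ i, Measurable (f i)
  f_le : ∀ i x, ‖f i x‖ ≤ 1
  f_mean : ∫ x, f i0 x ∂μ = 0
  n0B : i0 ≠ iB
  n20 : i2 ≠ i0
  n2B : i2 ≠ iB
  B_le : ∀ j, B j ≤ m0
  B_cg : ∀ j, CG (B j)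
  mξ : Measurable[B 0] ξ
  mζ : Measurable ζ
  mr : Measurable r
  η_le : mE.comap (r ∘ ζ) ≤ B 0
  mS : ∀ d, Measurable (S d)
  S_B : ∀ d j, Measurable[B j, B j] (S d)
  S_zero : ∀ ω, S 0 ω = ω
  S_add : ∀ a b ω, S (a + b) ω = S a (S b ω)
  S_pres : ∀ d, P0.map (S d) = P0
  S_ξ : ∀ d ω, ξ (S d ω) = T d (ξ ω)
  S_ζ : ∀ d, mW.comap (ζ ∘ S d) ≤ mW.comap ζ
  S_η : ∀ d, mE.comap ((r ∘ ζ) ∘ S d) ≤ mE.comap (r ∘ ζ)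
  mΘ : ∀ b, Measurable (Θ b)
  Θ_B : ∀ b j, Measurable[B j, B j] (Θ b)
  Θ_pres : ∀ b, P0.map (Θ b) = P0
  Θ_ξ : ∀ b ω, ξ (Θ b ω) = ξ ω
  Θ_ζ : ∀ b, mW.comap (ζ ∘ Θ b) ≤ mW.comap ζ
  Θ_η : ∀ b, mE.comap ((r ∘ ζ) ∘ Θ b) ≤ mE.comap (r ∘ ζ)
  Θ_ciw : ∀ b, CI P0 (m0.comap (Θ b)) (mW.comap ζ) (mW.comap (ζ ∘ Θ b))
  Θ_cie : ∀ b, CI P0 (m0.comap (Θ b)) (mE.comap (r ∘ ζ)) (mE.comap ((r ∘ ζ) ∘ Θ b))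
  ind_ξ : Indep (mX.comap ξ) (mE.comap (r ∘ ζ)) P0
  law_ξ : P0.map ξ = μ
  ind_Θ : Indep (mE.comap ((r ∘ ζ) ∘ Θ false)) (mE.comap ((r ∘ ζ) ∘ Θ true)) P0
  row0 : ∀ j j', j ≠ j' → CI P0 (B j) (B j') (mW.comap ζ)
  law0 : CI P0 (B 0) (mW.comap ζ) (mE.comap (r ∘ ζ))
  mπ : ∀ i, Measurable (π i)
  π_pres : ∀ i, P1.map (π i) = P0
  π_ciw : ∀ i, CI P1 (m0.comap (π i)) (MeasurableSpace.pi.comap fun ω i => ζ (π i ω))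
    (mW.comap (ζ ∘ π i))
  π_cie : ∀ i, CI P1 (m0.comap (π i)) (MeasurableSpace.pi.comap fun ω i => r (ζ (π i ω)))
    (mE.comap ((r ∘ ζ) ∘ π i))
  row1 : ∀ j j', j ≠ j' →
    CI P1 (sl B π j univ) (sl B π j' univ) (MeasurableSpace.pi.comap fun ω i => ζ (π i ω))
  col1 : ∀ (i j : Fin k) (A : Set (Fin k)), i ∉ A → j ≠ i → j ∉ A →
    CI P1 (sl B π 0 {i} ⊔ sl B π 1 {i} ⊔ sl B π 2 {i}) (sl B π 0 A ⊔ sl B π 1 A ⊔ sl B π 2 A)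
      (MeasurableSpace.pi.comap fun ω i => ζ (π i ω))
  clx : ∀ A, A ≠ univ → CI P1 (sl B π 0 A) (sl B π 1 univ ⊔ sl B π 2 univ)
    ((sl B π 1 A ⊔ sl B π 2 A) ⊔ MeasurableSpace.pi.comap fun ω i => ζ (π i ω))
  cly : ∀ A, A ≠ univ → CI P1 (sl B π 1 A) (sl B π 0 univ ⊔ sl B π 2 univ)
    ((sl B π 0 A ⊔ sl B π 2 A) ⊔ MeasurableSpace.pi.comap fun ω i => ζ (π i ω))
  clz : ∀ A, A ≠ univ → CI P1 (sl B π 2 A) (sl B π 0 univ ⊔ sl B π 1 univ)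
    ((sl B π 0 A ⊔ sl B π 1 A) ⊔ MeasurableSpace.pi.comap fun ω i => ζ (π i ω))
  law1 : CI P1 (sl B π 0 univ) (MeasurableSpace.pi.comap fun ω i => ζ (π i ω))
    (MeasurableSpace.pi.comap fun ω i => r (ζ (π i ω)))
  mg : Measurable[B 1] g
  mg' : Measurable[B 2] g'
  g_le : ∀ ω, ‖g ω‖ ≤ 1
  g'_le : ∀ ω, ‖g' ω‖ ≤ 1
  a7 : P1[fun ω => g (π iB ω) * g' (π iB ω) - f iB (ξ (π iB ω)) | sl B π 0 univ] =ᵐ[P1] 0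
  tau : ∫ ω, ∏ i, f i (ξ (π i ω)) ∂P1 ≠ 0
  gaps : ∀ g : ℤ, ∀ᶠ n in (𝔭 : Filter ℕ), Gaps g (t n)
  a5 : ∀ Φ : Fin k → Ω₀ → ℂ, (∀ i, Measurable (Φ i)) → (∀ i ω, ‖Φ i ω‖ ≤ 1) →
    Tendsto (fun n => ∫ ω, ∏ i, Φ i (S (t n i) ω) ∂P0) 𝔭 (𝓝 (∫ ω, ∏ i, Φ i (π i ω) ∂P1))

attribute [instance] Sys.probμ Sys.prob0 Sys.prob1

namespace Sys

variable {k : ℕ} {X Ω₀ Ω₁ W E : Type} [mX : MeasurableSpace X] [m0 : MeasurableSpace Ω₀]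
  [m1 : MeasurableSpace Ω₁] [mW : MeasurableSpace W] [mE : MeasurableSpace E]
  [StandardBorelSpace Ω₀] [Nonempty Ω₀] [StandardBorelSpace Ω₁] [Nonempty Ω₁]
  (Y : Sys k X Ω₀ Ω₁ W E)

def η : Ω₀ → E := Y.r ∘ Y.ζ

def ζ1 : Ω₁ → Fin k → W := fun ω i => Y.ζ (Y.π i ω)

def η1 : Ω₁ → Fin k → E := fun ω i => Y.r (Y.ζ (Y.π i ω))

noncomputable def κw : Kernel W Ω₀ := kd Y.P0 Y.ζ

noncomputable def κe : Kernel E Ω₀ := kd Y.P0 Y.η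

noncomputable def κw1 : Kernel (Fin k → W) Ω₁ := kd Y.P1 Y.ζ1

noncomputable def κe1 : Kernel (Fin k → E) Ω₁ := kd Y.P1 Y.η1

instance : IsMarkovKernel Y.κw := by unfold κw; infer_instance

instance : IsMarkovKernel Y.κe := by unfold κe; infer_instance

instance : IsMarkovKernel Y.κw1 := by unfold κw1; infer_instance

instance : IsMarkovKernel Y.κe1 := by unfold κe1; infer_instance

/-- The label functions. -/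
def F (i : Fin k) (d : ℤ) : Ω₀ → ℂ := fun ω => Y.f i (Y.T d (Y.ξ ω))

/-- The weight of `a` in the fibre `e`. -/
noncomputable def wt (e : E) (a : Ω₀ → ℂ) : ℝ := (Y.κe e).real {ω | Ch Y.B (Y.κw (Y.ζ ω)) a}

/-- Atoms. -/
def O (σ ε : ℝ) (e : E) (i : Fin k) (d : ℤ) : Set (UG (Y.B 0)) :=
  {a | σ ≤ Y.wt e a ∧ ε ≤ ‖∫ ω, (a : Ω₀ → ℂ) ω * Y.F i d ω ∂Y.κe e‖}

/-- Constants of the fibre `e`. -/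
noncomputable def K (e : E) : Subgroup (UG (Y.B 0)) := TG (Y.κe e) (Y.B 0)

/-- Good points. -/
def Gw (ω : Ω₀) : Prop :=
  Good Y.B (Y.κw (Y.ζ ω)) ∧ Agree (Y.B 0) (Y.κw (Y.ζ ω)) (Y.κe (Y.η ω))

/-- Good fibres. -/
def Ge (e : E) : Prop :=
  ∀ᵐ ω ∂Y.κe e, Good Y.B (Y.κw (Y.ζ ω)) ∧ Agree (Y.B 0) (Y.κw (Y.ζ ω)) (Y.κe e)

/-- `Θ` maps the fibre `e` onto the fibre `e'`, compatibly with the finer fibres. -/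
def Mor (Θ : Ω₀ → Ω₀) (e e' : E) : Prop :=
  (Y.κe e).map Θ = Y.κe e' ∧ ∀ᵐ ω ∂Y.κe e, (Y.κw (Y.ζ ω)).map Θ = Y.κw (Y.ζ (Θ ω))

/-- Output of the fibre lemma at a point of the big system. -/
def Out (ω : Ω₁) : Prop :=
  ∀ v : Ω₁ → ℂ, MemLp v 2 (Y.κw1 (Y.ζ1 ω)) → Measurable[sl Y.B Y.π 0 {Y.iB}ᶜ] v →
    ∫ ω', v ω' * (Y.g (Y.π Y.iB ω') * Y.g' (Y.π Y.iB ω')) ∂Y.κw1 (Y.ζ1 ω) ≠ 0 →
    ∃ a : Fin k → UG (Y.B 0), (∀ i, Ch Y.B (Y.κw (Y.ζ (Y.π i ω))) (a i)) ∧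
      (∀ᵐ ω' ∂Y.κw1 (Y.ζ1 ω), ∏ i, (a i : Ω₀ → ℂ) (Y.π i ω') = 1) ∧
      ∫ ω', v ω' * conj ((a Y.iB : Ω₀ → ℂ) (Y.π Y.iB ω')) ∂Y.κw1 (Y.ζ1 ω) ≠ 0

/-- Labelled characters of positive weight with a relation. -/
def Atom (ω : Ω₁) : Prop :=
  ∃ a : Fin k → UG (Y.B 0), (∀ᵐ ω' ∂Y.κw1 (Y.ζ1 ω), ∏ i, (a i : Ω₀ → ℂ) (Y.π i ω') = 1) ∧
    ∀ i, Ch Y.B (Y.κw (Y.ζ (Y.π i ω))) (a i) ∧ 0 < Y.wt (Y.η (Y.π i ω)) (a i) ∧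
      ∫ ω', (a i : Ω₀ → ℂ) ω' * Y.F i 0 ω' ∂Y.κe (Y.η (Y.π i ω)) ≠ 0

end Sys

end Vale.Agent.P102
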