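import Vale.Agent.P102.Sys
import Vale.Agent.P102.Ker2
import Vale.Agent.P102.Count

/-! P102, file SysBasic: good points, morphisms, pull-back and finiteness of atoms.

PLAN. `ae_Gw`: `kd_indep'` with `row0`, `kd_row` with `law0`. `ae_Ge`: `ae_ae_kd` + `kd_proper`.
`ae_map_S`: `kd_map` with `CI.of_le` (the two comaps are equal: use `S_ζ (-d)`, `S_add`, `S_zero`,
`MeasurableSpace.comap_comp`). `ae_map_Θ`, `ae_map_π`: `kd_map` (for `π i` the inequality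
`comap (ζ ∘ π i) ≤ comap ζ1` holds because `ζ ∘ π i = eval i ∘ ζ1`). `ae_mor_*`: `ae_ae_kd`.
`pull_mem_O`: the set `{ω | Ch B (κw (ζ ω)) a}` is measurable (`measurableSet_Ch` for the kernel
`κw.comap ζ`), `Measure.map_apply`, `Ch.comp`, `measure_mono_ae`, `integral_map`. `finite_O`: if the
image were infinite pick a finset of more than `1 / (σ ε²)` classes with representatives and
contradict `card_le_of_weight` (`QuotientGroup.eq`, `mem_TG`). -/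

open MeasureTheory ProbabilityTheory Filter Topology Set
open scoped ComplexConjugate ENNReal InnerProductSpace

namespace Vale.Agent.P102

namespace Sys

variable {k : ℕ} {X Ω₀ Ω₁ W E : Type} [mX : MeasurableSpace X] [m0 : MeasurableSpace Ω₀]
  [m1 : MeasurableSpace Ω₁] [mW : MeasurableSpace W] [mE : MeasurableSpace E]
  [StandardBorelSpace X] [StandardBorelSpace Ω₀] [Nonempty Ω₀] [StandardBorelSpace Ω₁]
  [Nonempty Ω₁] [StandardBorelSpace W] [StandardBorelSpace E] (Y : Sys k X Ω₀ Ω₁ W E)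

theorem mη : Measurable Y.η := Y.mr.comp Y.mζ

theorem mζ1 : Measurable Y.ζ1 := measurable_pi_lambda _ fun i => Y.mζ.comp (Y.mπ i)

theorem mη1 : Measurable Y.η1 := measurable_pi_lambda _ fun i => Y.mη.comp (Y.mπ i)

theorem η_le_ζ : mE.comap Y.η ≤ mW.comap Y.ζ :=
  MeasurableSpace.comap_comp.symm.trans_le (MeasurableSpace.comap_mono Y.mr.comap_le)

theorem η1_le_ζ1 : MeasurableSpace.pi.comap Y.η1 ≤ MeasurableSpace.pi.comap Y.ζ1 :=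
  Measurable.comap_le (@measurable_pi_lambda _ _ _ (MeasurableSpace.pi.comap Y.ζ1) _ _ fun i =>
    Y.mr.comp ((measurable_pi_apply i).comp (comap_measurable Y.ζ1)))

theorem η1_le_sl : MeasurableSpace.pi.comap Y.η1 ≤ sl Y.B Y.π 0 univ :=
  Measurable.comap_le (@measurable_pi_lambda _ _ _ (sl Y.B Y.π 0 univ) _ _ fun i =>
    (Measurable.of_comap_le Y.η_le).comp (Measurable.of_comap_le
      (le_iSup₂ (f := fun i (_ : i ∈ univ) => (Y.B 0).comap (Y.π i)) i (mem_univ i))))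

theorem sl_le (j : Fin 3) (A : Set (Fin k)) : sl Y.B Y.π j A ≤ m1 :=
  iSup₂_le fun i _ => (MeasurableSpace.comap_mono (Y.B_le j)).trans (Y.mπ i).comap_le

theorem sl_cg (j : Fin 3) (A : Set (Fin k)) : CG (sl Y.B Y.π j A) :=
  cg_biSup (fun i => @MeasurableSpace.CountablyGenerated.comap _ _ (Y.B j) (Y.B_cg j) (Y.π i)) A

theorem sl_mono (j : Fin 3) {A A' : Set (Fin k)} (h : A ⊆ A') :
    sl Y.B Y.π j A ≤ sl Y.B Y.π j A' := biSup_mono h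

theorem sl_union (j : Fin 3) (A A' : Set (Fin k)) :
    sl Y.B Y.π j (A ∪ A') = sl Y.B Y.π j A ⊔ sl Y.B Y.π j A' := iSup_union

theorem sl_singleton (j : Fin 3) (i : Fin k) : sl Y.B Y.π j {i} = (Y.B j).comap (Y.π i) :=
  iSup_singleton

theorem measurable_π_sl (j : Fin 3) {A : Set (Fin k)} {i : Fin k} (hi : i ∈ A) :
    Measurable[sl Y.B Y.π j A, Y.B j] (Y.π i) :=
  Measurable.of_comap_le (le_iSup₂ (f := fun i (_ : i ∈ A) => (Y.B j).comap (Y.π i)) i hi)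

theorem mF (i : Fin k) (d : ℤ) : Measurable[Y.B 0] (Y.F i d) :=
  (Y.mf i).comp ((Y.mT d).comp Y.mξ)

theorem F_le (i : Fin k) (d : ℤ) (ω : Ω₀) : ‖Y.F i d ω‖ ≤ 1 := Y.f_le _ _

theorem F_S (i : Fin k) (d d' : ℤ) : Y.F i d ∘ Y.S d' = Y.F i (d + d') := by
  funext ω
  simp only [F, Function.comp, Y.S_ξ, Y.T_add]

theorem F_Θ (i : Fin k) (d : ℤ) (b : Bool) : Y.F i d ∘ Y.Θ b = Y.F i d := by
  funext ω
  simp only [F, Function.comp, Y.Θ_ξ]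

theorem measurableSet_ch {a : Ω₀ → ℂ} (ha : Uni (Y.B 0) a) :
    MeasurableSet {ω | Ch Y.B (Y.κw (Y.ζ ω)) a} :=
  Y.mζ (measurableSet_Ch Y.B_le Y.B_cg Y.κw ha)

theorem ae_Gw : ∀ᵐ ω ∂Y.P0, Y.Gw ω := by
  filter_upwards [kd_indep' Y.mζ (Y.B_cg 0) (Y.B_cg 1) (Y.row0 0 1 (by decide)),
    kd_indep' Y.mζ (Y.B_cg 0) (Y.B_cg 2) (Y.row0 0 2 (by decide)),
    kd_indep' Y.mζ (Y.B_cg 1) (Y.B_cg 2) (Y.row0 1 2 (by decide)),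
    kd_row Y.mη Y.mζ Y.η_le_ζ (Y.B_cg 0) Y.law0] with ω h1 h2 h3 h4
  exact ⟨⟨h1, h2, h3⟩, h4⟩

theorem ae_Ge : ∀ᵐ ω ∂Y.P0, Y.Ge (Y.η ω) := by
  filter_upwards [ae_ae_kd Y.mη Y.ae_Gw, kd_proper (P := Y.P0) Y.mη] with ω h1 h2
  filter_upwards [h1, h2] with ω' h3 h4
  exact h4 ▸ h3

theorem ae_law : ∀ᵐ ω ∂Y.P0, (Y.κe (Y.η ω)).map Y.ξ = Y.μ :=
  Y.law_ξ ▸ kd_indep (Y.mξ.mono (Y.B_le 0) le_rfl) Y.mη Y.ind_ξ

theorem sb_le {V : Type} {mV : MeasurableSpace V} {φ : Ω₀ → V}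
    (h : ∀ d, mV.comap (φ ∘ Y.S d) ≤ mV.comap φ) (d : ℤ) : mV.comap φ ≤ mV.comap (φ ∘ Y.S d) := by
  have e : φ = (φ ∘ Y.S (-d)) ∘ Y.S d := by
    funext ω
    simp only [Function.comp, ← Y.S_add, neg_add_cancel, Y.S_zero]
  calc mV.comap φ = (mV.comap (φ ∘ Y.S (-d))).comap (Y.S d) := by
        rw [MeasurableSpace.comap_comp, ← e]
    _ ≤ (mV.comap φ).comap (Y.S d) := MeasurableSpace.comap_mono (h _)
    _ = _ := MeasurableSpace.comap_comp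

theorem ae_map_S (d : ℤ) : ∀ᵐ ω ∂Y.P0, (Y.κw (Y.ζ ω)).map (Y.S d) = Y.κw (Y.ζ (Y.S d ω)) ∧
    (Y.κe (Y.η ω)).map (Y.S d) = Y.κe (Y.η (Y.S d ω)) :=
  (kd_map (Y.mS d) (Y.S_pres d) Y.mζ Y.mζ (Y.S_ζ d) (CI.of_le (Y.mS d).comap_le
    (Y.mζ.comp (Y.mS d)).comap_le (Y.sb_le Y.S_ζ d))).and
  (kd_map (Y.mS d) (Y.S_pres d) Y.mη Y.mη (Y.S_η d) (CI.of_le (Y.mS d).comap_le
    (Y.mη.comp (Y.mS d)).comap_le (Y.sb_le Y.S_η d)))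

theorem ae_map_Θ (b : Bool) : ∀ᵐ ω ∂Y.P0, (Y.κw (Y.ζ ω)).map (Y.Θ b) = Y.κw (Y.ζ (Y.Θ b ω)) ∧
    (Y.κe (Y.η ω)).map (Y.Θ b) = Y.κe (Y.η (Y.Θ b ω)) :=
  (kd_map (Y.mΘ b) (Y.Θ_pres b) Y.mζ Y.mζ (Y.Θ_ζ b) (Y.Θ_ciw b)).and
    (kd_map (Y.mΘ b) (Y.Θ_pres b) Y.mη Y.mη (Y.Θ_η b) (Y.Θ_cie b))

theorem ae_map_π : ∀ᵐ ω ∂Y.P1, ∀ i, (Y.κw1 (Y.ζ1 ω)).map (Y.π i) = Y.κw (Y.ζ (Y.π i ω)) ∧
    (Y.κe1 (Y.η1 ω)).map (Y.π i) = Y.κe (Y.η (Y.π i ω)) :=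
  ae_all_iff.2 fun i =>
    (kd_map (Y.mπ i) (Y.π_pres i) Y.mζ Y.mζ1
      ((measurable_pi_apply i).comp (comap_measurable Y.ζ1)).comap_le (Y.π_ciw i)).and
    (kd_map (Y.mπ i) (Y.π_pres i) Y.mη Y.mη1
      ((measurable_pi_apply i).comp (comap_measurable Y.η1)).comap_le (Y.π_cie i))

theorem ae_mor_S (d : ℤ) : ∀ᵐ ω ∂Y.P0, Y.Mor (Y.S d) (Y.η ω) (Y.η (Y.S d ω)) := by
  filter_upwards [Y.ae_map_S d, ae_ae_kd Y.mη (Y.ae_map_S d)] with ω h1 h2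
  exact ⟨h1.2, h2.mono fun _ h => h.1⟩

theorem ae_mor_Θ (b : Bool) : ∀ᵐ ω ∂Y.P0, Y.Mor (Y.Θ b) (Y.η ω) (Y.η (Y.Θ b ω)) := by
  filter_upwards [Y.ae_map_Θ b, ae_ae_kd Y.mη (Y.ae_map_Θ b)] with ω h1 h2
  exact ⟨h1.2, h2.mono fun _ h => h.1⟩

theorem ae_π {p : Ω₀ → Prop} (h : ∀ᵐ ω ∂Y.P0, p ω) : ∀ᵐ ω ∂Y.P1, ∀ i, p (Y.π i ω) :=
  ae_all_iff.2 fun i => ae_of_ae_map (Y.mπ i).aemeasurable ((Y.π_pres i).symm ▸ h)

theorem ae_S {p : Ω₀ → Prop} (h : ∀ᵐ ω ∂Y.P0, p ω) : ∀ᵐ ω ∂Y.P0, ∀ d, p (Y.S d ω) :=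
  ae_all_iff.2 fun d => ae_of_ae_map (Y.mS d).aemeasurable ((Y.S_pres d).symm ▸ h)

theorem ae_Θ {p : Ω₀ → Prop} (h : ∀ᵐ ω ∂Y.P0, p ω) : ∀ᵐ ω ∂Y.P0, ∀ b, p (Y.Θ b ω) :=
  ae_all_iff.2 fun b => ae_of_ae_map (Y.mΘ b).aemeasurable ((Y.Θ_pres b).symm ▸ h)

theorem pull_mem_O {Θ : Ω₀ → Ω₀} (hΘ : Measurable Θ) (hB : ∀ j, Measurable[Y.B j, Y.B j] Θ)
    {e e' : E} (h : Y.Mor Θ e e') {i : Fin k} {d d' : ℤ} (hF : Y.F i d ∘ Θ = Y.F i d') {σ ε : ℝ}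
    {a : UG (Y.B 0)} (ha : a ∈ Y.O σ ε e' i d) : UG.pull Θ (hB 0) a ∈ Y.O σ ε e i d' := by
  have ma : Measurable (a : Ω₀ → ℂ) := (UG.uni a).1.mono (Y.B_le 0) le_rfl
  refine ⟨ha.1.trans ?_, ha.2.trans_eq ?_⟩
  · rw [wt, wt, ← h.1, map_measureReal_apply hΘ (Y.measurableSet_ch (UG.uni a))]
    refine ENNReal.toReal_mono (measure_ne_top _ _) (measure_mono_ae (h.2.mono fun ω h1 h2 => ?_))
    have h3 : Ch Y.B ((Y.κw (Y.ζ ω)).map Θ) a := h1.symm ▸ h2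
    exact (Ch.comp Y.B_le hΘ hB (UG.uni a) h3 :)
  · rw [← h.1, integral_map hΘ.aemeasurable
      (ma.fun_mul ((Y.mF i d).mono (Y.B_le 0) le_rfl)).aestronglyMeasurable, ← hF]
    rfl

theorem pull_mem_K {Θ : Ω₀ → Ω₀} (hΘ : Measurable Θ) (hB : ∀ j, Measurable[Y.B j, Y.B j] Θ)
    {e e' : E} (h : Y.Mor Θ e e') (a : UG (Y.B 0)) : UG.pull Θ (hB 0) a ∈ Y.K e ↔ a ∈ Y.K e' := by
  rw [K, K, mem_TG, mem_TG, ← h.1, triv_map_iff hΘ ((UG.uni a).1.mono (Y.B_le 0) le_rfl)]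
  rfl

theorem finite_O {e : E} (he : Y.Ge e) {σ ε : ℝ} (hσ : 0 < σ) (hε : 0 < ε) (i : Fin k) (d : ℤ) :
    ((QuotientGroup.mk : UG (Y.B 0) → UG (Y.B 0) ⧸ Y.K e) '' Y.O σ ε e i d).Finite := by
  by_contra hinf
  have hp : 0 < σ * ε ^ 2 := by positivity
  obtain ⟨n, hn⟩ := exists_nat_gt (1 / (σ * ε ^ 2))
  obtain ⟨T, hT, hc⟩ := Set.Infinite.exists_subset_card_eq hinf n
  choose! a ha using fun q (hq : q ∈ T) => hT (Finset.mem_coe.2 hq)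
  have := card_le_of_weight Y.B_le Y.B_cg (Y.κe e) (Y.κe e) (Y.κw.comap Y.ζ Y.mζ) he (Y.mF i d)
    (Y.F_le i d) (σ := σ) hε.le T (a := fun q => (a q : Ω₀ → ℂ))
    (fun q hq => ⟨UG.uni (a q), (ha q hq).1.1, (ha q hq).1.2⟩) fun q hq q' hq' hne ht => hne ?_
  · rw [hc] at this
    rw [div_lt_iff₀ hp] at hn
    linarith
  · rw [← (ha q hq).2, ← (ha q' hq').2, QuotientGroup.eq_iff_div_mem, K, mem_TG, UG.coe_div]
    exact ht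

end Sys

end Vale.Agent.P102
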