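import Vale.Agent.P102.Tools

/-! P102, file VdC: polynomial sequences of unimodular functions do not correlate with a mixing
sequence.

PLAN. Prove by induction on `r`, for all `H` and all bounded measurable `f` of mean zero:
`(1 / N) ∑_{n < N} ‖∫ H n * f (T (d n) ξ)‖ → 0`. For `r = 0`, `H n` is a.e. a constant and
`∫ f (T (d n) (ξ ω)) ∂ρ = ∫ f ∂μ = 0`. Step: let `v n ∈ L²(ρ)` be `θ n * H n * f (T (d n) ξ)` with
`‖θ n‖ = 1` such that `∫ v n = ‖∫ H n * ..‖`. Then `‖⟪v n, v (n + h)⟫‖ =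
‖∫ (H (n+h) / H n) * g_h (T (d n) ξ)‖` with `g_h x = f (T (d h) x) * conj (f x)`; write
`g_h = (g_h - c_h) + c_h`, `c_h = ∫ g_h ∂μ → 0` as `h → ∞` (`hmix`). Apply `vdc`, then
`∑ ‖..‖ = ⟪1, ∑ v n⟫ ≤ ‖∑ v n‖`. `vdc` (van der Corput): for fixed `L`,
`‖∑_{n<N} v n - (1/L) ∑_{n<N} ∑_{l<L} v (n + l)‖ ≤ 2 L C`, Cauchy-Schwarz, and
`∑_{n<N} ‖∑_{l<L} v (n+l)‖² ≤ ∑_{l,l'} ∑_n ‖⟪v (n+l), v (n+l')⟫‖`. -/

open MeasureTheory ProbabilityTheory Filter Topology Set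
open scoped ComplexConjugate ENNReal InnerProductSpace

namespace Vale.Agent.P102

theorem vdc_shift {E : Type*} [NormedAddCommGroup E] (g : ℕ → E) {B : ℝ} (hg : ∀ n, ‖g n‖ ≤ B)
    (N k : ℕ) :
    ‖∑ n ∈ Finset.range N, g (n + k) - ∑ n ∈ Finset.range N, g n‖ ≤ 2 * k * B := by
  have h1 := Finset.sum_range_add g k N
  rw [add_comm k N, Finset.sum_range_add] at h1
  have e : ∑ n ∈ Finset.range N, g (n + k) - ∑ n ∈ Finset.range N, g n =
      ∑ n ∈ Finset.range k, g (N + n) - ∑ n ∈ Finset.range k, g n := by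
    simp only [add_comm k] at h1
    rw [sub_eq_sub_iff_add_eq_add, add_comm, ← h1, add_comm]
  have h2 : ∀ g' : ℕ → E, (∀ n, ‖g' n‖ ≤ B) → ‖∑ n ∈ Finset.range k, g' n‖ ≤ k * B :=
    fun g' h => (norm_sum_le _ _).trans ((Finset.sum_le_sum fun n _ => h n).trans_eq (by simp))
  rw [e]
  linarith [norm_sub_le (∑ n ∈ Finset.range k, g (N + n)) (∑ n ∈ Finset.range k, g n),
    h2 _ fun n => hg (N + n), h2 _ hg]

theorem vdc_ev (B : ℝ) {ε : ℝ} (hε : 0 < ε) : ∀ᶠ N : ℕ in atTop, B ≤ ε * N :=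
  (tendsto_natCast_atTop_atTop.const_mul_atTop hε).eventually_ge_atTop B

theorem vdc_inner {Ω : Type*} {m0 : MeasurableSpace Ω} {ρ : Measure Ω} {a b : Ω → ℂ}
    (ha : MemLp a 2 ρ) (hb : MemLp b 2 ρ) :
    ⟪ha.toLp a, hb.toLp b⟫_ℂ = ∫ ω, conj (a ω) * b ω ∂ρ := by
  rw [L2.inner_def]
  refine integral_congr_ae ?_
  filter_upwards [ha.coeFn_toLp, hb.coeFn_toLp] with ω h1 h2
  rw [h1, h2, RCLike.inner_apply']

theorem vdc {H : Type*} [NormedAddCommGroup H] [InnerProductSpace ℂ H] (v : ℕ → H) {C : ℝ}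
    (hv : ∀ n, ‖v n‖ ≤ C) (c : ℕ → ℝ) (hc : Tendsto c atTop (𝓝 0))
    (h : ∀ (l : ℕ) (ε : ℝ), 0 < ε → ∀ᶠ N : ℕ in atTop,
      ∑ n ∈ Finset.range N, ‖⟪v n, v (n + l)⟫_ℂ‖ ≤ (c l + ε) * N) (ε : ℝ) (hε : 0 < ε) :
    ∀ᶠ N : ℕ in atTop, ‖∑ n ∈ Finset.range N, v n‖ ≤ ε * N := by
  have hC : 0 ≤ C := (norm_nonneg _).trans (hv 0)
  have hin : ∀ a b, ‖⟪v a, v b⟫_ℂ‖ ≤ C ^ 2 := fun a b => (norm_inner_le_norm _ _).trans
    ((mul_le_mul (hv a) (hv b) (norm_nonneg _) hC).trans_eq (sq C).symm)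
  obtain ⟨δ, hδ, hδε⟩ : ∃ δ : ℝ, 0 < δ ∧ 16 * δ = ε ^ 2 := ⟨ε ^ 2 / 16, by positivity, by ring⟩
  obtain ⟨L0, hL0⟩ := eventually_atTop.1 ((tendsto_order.1 hc).2 δ hδ)
  obtain ⟨L, hL, hL1⟩ := ((vdc_ev (C ^ 2) hδ).and (eventually_ge_atTop 1)).exists
  have hL' : (0 : ℝ) < L := by exact_mod_cast hL1
  have h1 : ∀ l l' : ℕ, l < l' → ∀ᶠ N : ℕ in atTop,
      ∑ n ∈ Finset.range N, ‖⟪v (n + l * L0), v (n + l' * L0)⟫_ℂ‖ ≤ 3 * δ * N := by
    intro l l' hl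
    obtain ⟨k, rfl⟩ := Nat.exists_eq_add_of_lt hl
    filter_upwards [h ((k + 1) * L0) δ hδ, vdc_ev (2 * (l * L0 : ℕ) * C ^ 2) hδ] with N h2 h3
    have h4 := vdc_shift (fun n => ‖⟪v n, v (n + (k + 1) * L0)⟫_ℂ‖)
      (fun n => (norm_norm _).trans_le (hin _ _)) N (l * L0)
    have h5 := mul_le_mul_of_nonneg_right (hL0 ((k + 1) * L0)
      (Nat.le_mul_of_pos_left _ (Nat.succ_pos k))).le (Nat.cast_nonneg (α := ℝ) N)
    have e : ∀ n, n + (l + k + 1) * L0 = n + l * L0 + (k + 1) * L0 := fun n => by ring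
    simp only [e]
    linarith [(le_abs_self _).trans h4]
  have h2 : ∀ l l' : ℕ, ∀ᶠ N : ℕ in atTop,
      ∑ n ∈ Finset.range N, ‖⟪v (n + l * L0), v (n + l' * L0)⟫_ℂ‖ ≤
        (3 * δ + if l' = l then C ^ 2 else 0) * N := by
    intro l l'
    rcases lt_trichotomy l l' with hl | rfl | hl
    · simpa [hl.ne'] using h1 l l' hl
    · refine .of_forall fun N => (Finset.sum_le_sum fun n _ => hin _ _).trans ?_
      rw [Finset.sum_const, Finset.card_range, nsmul_eq_mul, if_pos rfl, mul_comm]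
      exact mul_le_mul_of_nonneg_right (by linarith) (Nat.cast_nonneg _)
    · simpa [hl.ne, norm_inner_symm (v (_ + l * L0))] using h1 l' l hl
  filter_upwards [(Finset.range L).eventually_all.2 fun l _ =>
    (Finset.range L).eventually_all.2 fun l' _ => h2 l l',
    vdc_ev (2 * (L * L0 : ℕ) * C) (half_pos hε)] with N h3 h4
  have hN : (0 : ℝ) ≤ N := Nat.cast_nonneg _
  have h5 : ∑ n ∈ Finset.range N, ‖∑ l ∈ Finset.range L, v (n + l * L0)‖ ^ 2 ≤
      (L * ε / 2) ^ 2 * N := by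
    have h6 : ∀ n, ‖∑ l ∈ Finset.range L, v (n + l * L0)‖ ^ 2 ≤ ∑ l ∈ Finset.range L,
        ∑ l' ∈ Finset.range L, ‖⟪v (n + l * L0), v (n + l' * L0)⟫_ℂ‖ := fun n => by
      rw [← inner_self_eq_norm_sq (𝕜 := ℂ), inner_self_re_eq_norm, sum_inner]
      refine (norm_sum_le _ _).trans (Finset.sum_le_sum fun l _ => ?_)
      rw [inner_sum]
      exact norm_sum_le _ _
    refine (Finset.sum_le_sum fun n _ => h6 n).trans ?_
    rw [Finset.sum_comm]
    refine (Finset.sum_le_sum (g := fun _ => (L * (3 * δ) + C ^ 2) * N) fun l hl => ?_).trans ?_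
    · rw [Finset.sum_comm]
      refine (Finset.sum_le_sum (h3 l hl)).trans_eq ?_
      rw [← Finset.sum_mul, Finset.sum_add_distrib, Finset.sum_ite_eq' _ l, if_pos hl]
      simp
    · rw [Finset.sum_const, Finset.card_range, nsmul_eq_mul, ← mul_assoc]
      refine mul_le_mul_of_nonneg_right ?_ hN
      rw [div_pow, mul_pow, ← hδε]
      nlinarith
  have h6 : ‖∑ n ∈ Finset.range N, ∑ l ∈ Finset.range L, v (n + l * L0)‖ ≤ L * ε / 2 * N := by
    refine (norm_sum_le _ _).trans (le_of_sq_le_sq (sq_sum_le_card_mul_sum_sq.trans ?_)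
      (by positivity))
    rw [Finset.card_range]
    exact (mul_le_mul_of_nonneg_left h5 hN).trans_eq (by ring)
  have h7 : ‖∑ l ∈ Finset.range L, (∑ n ∈ Finset.range N, v (n + l * L0) -
      ∑ n ∈ Finset.range N, v n)‖ ≤ L * (2 * (L * L0 : ℕ) * C) := by
    refine (norm_sum_le _ _).trans ((Finset.sum_le_sum (g := fun _ => 2 * (L * L0 : ℕ) * C)
      fun l hl => (vdc_shift v hv N _).trans ?_).trans_eq (by simp))
    have := (Finset.mem_range.1 hl).le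
    gcongr
  rw [Finset.sum_sub_distrib, Finset.sum_comm, Finset.sum_const, Finset.card_range,
    norm_sub_rev] at h7
  have h8 := (norm_sub_norm_le _ _).trans h7
  rw [← Nat.cast_smul_eq_nsmul ℝ, norm_smul, Real.norm_natCast] at h8
  refine le_of_mul_le_mul_left ?_ hL'
  nlinarith

theorem vdc_fun {Ω : Type*} {m0 : MeasurableSpace Ω} {ρ : Measure Ω} [IsProbabilityMeasure ρ]
    {u : ℕ → Ω → ℂ} (hu : ∀ n, Measurable (u n)) (hu1 : ∀ n ω, ‖u n ω‖ ≤ 1) {c : ℕ → ℝ}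
    (hc : Tendsto c atTop (𝓝 0)) (h : ∀ (l : ℕ) (ε : ℝ), 0 < ε → ∀ᶠ N : ℕ in atTop,
      ∑ n ∈ Finset.range N, ‖∫ ω, conj (u n ω) * u (n + l) ω ∂ρ‖ ≤ (c l + ε) * N) {ε : ℝ}
    (hε : 0 < ε) : ∀ᶠ N : ℕ in atTop, ‖∑ n ∈ Finset.range N, ∫ ω, u n ω ∂ρ‖ ≤ ε * N := by
  have hb : ∀ {a : Ω → ℂ} (ha : MemLp a 2 ρ), (∀ ω, ‖a ω‖ ≤ 1) → ‖ha.toLp a‖ ≤ 1 :=
    fun {a} ha h1 => by
      have h2 : ∀ᵐ ω ∂ρ, ‖ha.toLp a ω‖ ≤ 1 := ha.coeFn_toLp.mono fun ω h => h.symm ▸ h1 ω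
      simpa [measureUnivNNReal] using Lp.norm_le_of_ae_bound zero_le_one h2
  have hL : ∀ n, MemLp (u n) 2 ρ := fun n =>
    MemLp.of_bound (hu n).aestronglyMeasurable 1 (.of_forall (hu1 n))
  have h1 : MemLp (fun _ : Ω => (1 : ℂ)) 2 ρ := memLp_const 1
  filter_upwards [vdc (fun n => (hL n).toLp (u n)) (fun n => hb _ (hu1 n)) c hc
    (by simpa only [vdc_inner] using h) ε hε] with N hN
  refine le_trans (le_of_eq ?_) (((norm_inner_le_norm (𝕜 := ℂ) (h1.toLp _) _).trans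
    (mul_le_of_le_one_left (norm_nonneg _) (hb h1 fun _ => norm_one.le))).trans hN)
  simp only [inner_sum, vdc_inner, map_one, one_mul]

theorem vdc_split {Ω : Type*} {m0 : MeasurableSpace Ω} {ρ : Measure Ω} [IsProbabilityMeasure ρ]
    {K G : Ω → ℂ} (hK : Measurable K) (hK1 : ∀ ω, ‖K ω‖ = 1) {c : ℂ}
    (hG : Measurable fun ω => (2 : ℂ)⁻¹ * (G ω - c)) (hG1 : ∀ ω, ‖(2 : ℂ)⁻¹ * (G ω - c)‖ ≤ 1) :
    ‖∫ ω, K ω * G ω ∂ρ‖ ≤ ‖c‖ + 2 * ‖∫ ω, K ω * ((2 : ℂ)⁻¹ * (G ω - c)) ∂ρ‖ := by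
  have i1 : Integrable K ρ :=
    Integrable.of_bound hK.aestronglyMeasurable 1 (.of_forall fun ω => (hK1 ω).le)
  have i2 : Integrable (fun ω => K ω * ((2 : ℂ)⁻¹ * (G ω - c))) ρ :=
    Integrable.of_bound (hK.mul hG).aestronglyMeasurable 1
      (.of_forall fun ω => by rw [norm_mul, hK1, one_mul]; exact hG1 _)
  have e : (fun ω => K ω * G ω) = fun ω => c * K ω + 2 * (K ω * ((2 : ℂ)⁻¹ * (G ω - c))) :=
    funext fun ω => by ring
  rw [e, integral_add (i1.const_mul _) (i2.const_mul _), integral_const_mul, integral_const_mul]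
  refine (norm_add_le _ _).trans (add_le_add ?_ (by rw [norm_mul, Complex.norm_two]))
  rw [norm_mul]
  refine mul_le_of_le_one_right (norm_nonneg _) ?_
  simpa using norm_integral_le_of_norm_le_const (μ := ρ) (.of_forall fun ω => (hK1 ω).le)

theorem not_poly {Ω X : Type*} {m m0 : MeasurableSpace Ω} [MeasurableSpace X] (hm : m ≤ m0)
    (ρ : Measure Ω) [IsProbabilityMeasure ρ] (μ : Measure X) [IsProbabilityMeasure μ]
    {ξ : Ω → X} (hξ : Measurable ξ) (hlaw : ρ.map ξ = μ) {T : ℤ → X → X}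
    (hT : ∀ d, Measurable (T d)) (hadd : ∀ a b x, T (a + b) x = T a (T b x))
    (hpres : ∀ d, μ.map (T d) = μ)
    (hmix : ∀ φ ψ : X → ℂ, Measurable φ → Measurable ψ → (∀ x, ‖φ x‖ ≤ 1) → (∀ x, ‖ψ x‖ ≤ 1) →
      Tendsto (fun n : ℤ => ∫ x, φ (T n x) * ψ x ∂μ) atTop (𝓝 ((∫ x, φ x ∂μ) * ∫ x, ψ x ∂μ)))
    {d : ℕ} (hd : 0 < d) {r : ℕ} {H : ℕ → UG m} (hH : Poly (TG ρ m) r H) {f : X → ℂ}
    (hf : Measurable f) (hf1 : ∀ x, ‖f x‖ ≤ 1) (hf0 : ∫ x, f x ∂μ = 0) {ε : ℝ} (hε : 0 < ε) :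
    ¬ ∀ n : ℕ, ε ≤ ‖∫ ω, (H n : Ω → ℂ) ω * f (T ((d : ℤ) * n) (ξ ω)) ∂ρ‖ := by
  have hHm : ∀ K : UG m, Measurable (K : Ω → ℂ) := fun K => (UG.uni K).1.mono hm le_rfl
  have key : ∀ (r : ℕ) (H : ℕ → UG m), Poly (TG ρ m) r H → ∀ f : X → ℂ, Measurable f →
      (∀ x, ‖f x‖ ≤ 1) → ∫ x, f x ∂μ = 0 → ∀ ε : ℝ, 0 < ε → ∀ᶠ N : ℕ in atTop,
        ∑ n ∈ Finset.range N, ‖∫ ω, (H n : Ω → ℂ) ω * f (T ((d : ℤ) * n) (ξ ω)) ∂ρ‖ ≤ ε * N := by
    intro r
    induction r with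
    | zero =>
      intro H hH f hf _ hf0 ε hε
      refine .of_forall fun N => (Finset.sum_eq_zero fun n _ => ?_).trans_le (by positivity)
      obtain ⟨c, hc⟩ := hH n
      have e : ∫ ω, f (T ((d : ℤ) * n) (ξ ω)) ∂ρ = 0 := by
        rw [← hf0, ← hpres ((d : ℤ) * n), integral_map (hT _).aemeasurable hf.aestronglyMeasurable,
          ← hlaw]
        exact (integral_map hξ.aemeasurable (hf.comp (hT _)).aestronglyMeasurable).symm
      rw [integral_congr_ae (g := fun ω => c * f (T ((d : ℤ) * n) (ξ ω)))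
        (hc.mono fun ω h => congrArg (· * _) h), integral_const_mul, e, mul_zero, norm_zero]
    | succ r ih =>
      intro H hH f hf hf1 hf0 ε hε
      choose θ hθ hθ' using fun n : ℕ =>
        Complex.exists_norm_eq_mul_self (∫ ω, (H n : Ω → ℂ) ω * f (T ((d : ℤ) * n) (ξ ω)) ∂ρ)
      obtain ⟨g, hg⟩ : ∃ g : ℕ → X → ℂ, ∀ l x, g l x = f (T ((d : ℤ) * l) x) * conj (f x) :=
        ⟨_, fun _ _ => rfl⟩
      have hfc : Measurable fun x => conj (f x) := Complex.continuous_conj.measurable.comp hf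
      have hgm : ∀ l, Measurable (g l) := fun l => funext (hg l) ▸ (hf.comp (hT _)).mul hfc
      have hg1 : ∀ l x, ‖g l x‖ ≤ 1 := fun l x => by
        rw [hg, norm_mul, Complex.norm_conj]
        exact mul_le_one₀ (hf1 _) (norm_nonneg _) (hf1 _)
      have hc : Tendsto (fun l : ℕ => ‖∫ x, g l x ∂μ‖) atTop (𝓝 0) := by
        have h1 := ((hmix f _ hf hfc hf1 fun x => by simpa using hf1 x).comp
          (tendsto_natCast_atTop_atTop.const_mul_atTop' (Int.natCast_pos.2 hd))).norm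
        rw [hf0, zero_mul, norm_zero] at h1
        simpa only [hg, Function.comp_def] using h1
      refine (vdc_fun (ρ := ρ)
        (u := fun n ω => θ n * ((H n : Ω → ℂ) ω * f (T ((d : ℤ) * n) (ξ ω))))
        (fun n => ((hHm _).mul (hf.comp ((hT _).comp hξ))).const_mul _)
        (fun n ω => by simpa [hθ n, (UG.uni (H n)).2 ω] using hf1 _) hc (fun l δ hδ => ?_)
        hε).mono fun N hN => ?_
      swap
      · simp only [integral_const_mul, ← hθ'] at hN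
        rwa [← Complex.ofReal_sum, Complex.norm_real,
          Real.norm_of_nonneg (Finset.sum_nonneg fun _ _ => norm_nonneg _)] at hN
      · have hi : Integrable (g l) μ :=
          Integrable.of_bound (hgm l).aestronglyMeasurable 1 (.of_forall (hg1 l))
        have hc1 : ‖∫ x, g l x ∂μ‖ ≤ 1 := by
          simpa using norm_integral_le_of_norm_le_const (μ := μ) (.of_forall (hg1 l))
        have h0 : ∫ x, (2 : ℂ)⁻¹ * (g l x - ∫ x, g l x ∂μ) ∂μ = 0 := by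
          rw [integral_const_mul, integral_sub hi (integrable_const _)]
          simp
        generalize ∫ x, g l x ∂μ = c at hc1 h0
        have hm' : Measurable fun x => (2 : ℂ)⁻¹ * (g l x - c) :=
          ((hgm l).sub measurable_const).const_mul _
        have hb : ∀ x, ‖(2 : ℂ)⁻¹ * (g l x - c)‖ ≤ 1 := fun x => by
          rw [norm_mul, norm_inv, Complex.norm_two]
          linarith [norm_sub_le (g l x) c, hg1 l x]
        filter_upwards [ih _ (hH l) _ hm' hb h0 (δ / 2) (half_pos hδ)] with N hN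
        refine (Finset.sum_le_sum fun (n : ℕ) _ => le_trans (le_of_eq ?_) (vdc_split (ρ := ρ)
          (G := fun ω => g l (T ((d : ℤ) * n) (ξ ω))) (hHm (H (n + l) / H n)) (UG.uni _).2
          (hm'.comp ((hT _).comp hξ)) fun _ => hb _)).trans ?_
        · have e1 : (d : ℤ) * (n + l : ℕ) = d * l + d * n := by push_cast; ring
          have e2 : ‖conj (θ n) * θ (n + l)‖ = 1 := by simp [hθ]
          refine Eq.trans ?_ (one_mul _)
          rw [← e2, ← norm_mul, ← integral_const_mul]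
          refine congrArg (fun F : Ω → ℂ => ‖∫ ω, F ω ∂ρ‖) (funext fun ω => ?_)
          simp only [hg, e1, hadd, UG.coe_div, map_mul, Pi.mul_apply, Pi.star_apply,
            RCLike.star_def]
          ring
        · rw [Finset.sum_add_distrib, Finset.sum_const, Finset.card_range, nsmul_eq_mul,
            ← Finset.mul_sum]
          linarith
  intro h
  obtain ⟨N, h1, h2⟩ := ((key r H hH f hf hf1 hf0 (ε / 2) (half_pos hε)).and
    (eventually_ge_atTop 1)).exists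
  have h3 := (Finset.sum_le_sum fun n (_ : n ∈ Finset.range N) => h n).trans h1
  have h4 : (1 : ℝ) ≤ N := by exact_mod_cast h2
  rw [Finset.sum_const, Finset.card_range, nsmul_eq_mul] at h3
  nlinarith

end Vale.Agent.P102
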