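import Vale.Agent.P102.HRel
import Vale.Agent.P102.Det
import Vale.Agent.P102.VdC

/-! P102, file SysMain: no such system exists. -/

open MeasureTheory ProbabilityTheory Filter Topology Set
open scoped ComplexConjugate ENNReal InnerProductSpace

namespace Vale.Agent.P102

namespace Sys

variable {k : ℕ} {X Ω₀ Ω₁ W E : Type} [mX : MeasurableSpace X] [m0 : MeasurableSpace Ω₀]
  [m1 : MeasurableSpace Ω₁] [mW : MeasurableSpace W] [mE : MeasurableSpace E]
  [StandardBorelSpace X] [StandardBorelSpace Ω₀] [Nonempty Ω₀] [StandardBorelSpace Ω₁]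
  [Nonempty Ω₁] [StandardBorelSpace W] [StandardBorelSpace E] (Y : Sys k X Ω₀ Ω₁ W E)

include Y in
theorem false : False := by
  obtain ⟨σ, ε, hσ, hε, hrel⟩ := Y.exists_rel
  obtain ⟨e, hlaw, hGe, hI, hae⟩ := Y.exists_star hσ hε
  have hr : ∀ g : ℤ, ∃ t : Fin k → ℤ, Gaps g t ∧ Rel (Y.K e) (Y.O σ ε e) t := by
    intro g
    obtain ⟨n, h1, h2⟩ := ((Y.gaps g).and hrel).exists
    refine ⟨Y.t n, h1, ?_⟩
    by_contra hc
    exact h2 (hae.mono fun ω hω hr => hc (hω.rel hr))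
  obtain ⟨d, r, H, hd, hH, hP⟩ := exists_poly hI (fun i => Y.finite_O hGe hσ hε i 0) hr Y.i0
  exact not_poly (Y.B_le 0) (Y.κe e) Y.μ (Y.mξ.mono (Y.B_le 0) le_rfl) hlaw Y.mT Y.T_add Y.T_pres
    Y.mix hd hP (Y.mf Y.i0) (Y.f_le Y.i0) Y.f_mean hε fun n => (hH n).2

end Sys

end Vale.Agent.P102
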