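import Vale.Agent.P102.Basic

/-! P102, file Tools: elementary API for `ind`, `BM`, complex conditional expectations, `aeInf`,
`Agree`.

PLAN. BM lemmas: unfold, `filter_upwards`. Pull-out: `condExp_bilin_of_aestronglyMeasurable_left
(ContinuousLinearMap.mul ℝ ℂ)`. `condExp_star`: `ContinuousLinearMap.comp_condExp_comm` with
`Complex.conjCLE`. `ae_zero_of_pi`: `MeasurableSpace.induction_on_inter` gives zero integral on
every `m`-set, then `ae_eq_zero_of_forall_setIntegral_eq_of_finStronglyMeasurable_trim` (or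
`f =ᵐ μ[f|m] =ᵐ 0` through `ae_eq_condExp_of_forall_setIntegral_eq`). `ae_zero_of_sup`: the sets
`s ∩ t` form a pi-system generating `A ⊔ C`. `aesm_of_ae_eq_sets`: true for `D'`-simple functions
(`SimpleFunc.induction`), then take `limUnder` of `D`-measurable versions of `hf.mk.approx n`
(`StronglyMeasurable.limUnder`). `aesm_aeInf`: the `A`-measurable version of `f` is measurable for
`aeInf`. `eq_condExp_of_norm`: expand `∫ ‖f - g‖ ^ 2 = ∫ ‖f‖ ^ 2 - ∫ ‖g‖ ^ 2 ≤ 0`, or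
`∫ (1 - re (conj g * f)) = 0`. `Agree`: it says `ρ.trim hm = ρ'.trim hm`; use `integral_trim`. -/

open MeasureTheory ProbabilityTheory Filter Topology Set
open scoped ComplexConjugate ENNReal InnerProductSpace

namespace Vale.Agent.P102

variable {Ω : Type*} {A A' C D D' m m' m0 : MeasurableSpace Ω} {μ ρ ρ' ρ'' : Measure Ω}
  {f g a : Ω → ℂ} {s t : Set Ω}

theorem norm_ind_le (s : Set Ω) (ω : Ω) : ‖ind s ω‖ ≤ 1 := by
  unfold ind
  by_cases h : ω ∈ s <;> simp [h]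

theorem ind_inter (s t : Set Ω) : ind (s ∩ t) = ind s * ind t := by
  funext ω
  unfold ind
  by_cases h : ω ∈ s <;> by_cases h' : ω ∈ t <;> simp [h, h']

theorem ind_univ : ind (univ : Set Ω) = 1 := indicator_univ _

theorem star_ind (s : Set Ω) : star (ind s) = ind s := by
  funext ω
  unfold ind
  by_cases h : ω ∈ s <;> simp [h]

theorem ind_preimage {Ω' : Type*} (Θ : Ω' → Ω) (s : Set Ω) : ind (Θ ⁻¹' s) = ind s ∘ Θ := rfl

theorem measurable_ind (hs : MeasurableSet[m] s) : Measurable[m] (ind s) :=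
  Measurable.indicator measurable_const hs

theorem integral_ind_mul (hs : MeasurableSet s) (f : Ω → ℂ) :
    ∫ ω, ind s ω * f ω ∂μ = ∫ ω in s, f ω ∂μ := by
  rw [← integral_indicator hs]
  refine integral_congr_ae (Eventually.of_forall fun ω => ?_)
  unfold ind
  by_cases h : ω ∈ s <;> simp [h]

theorem integral_ind (hs : MeasurableSet s) : ∫ ω, ind s ω ∂μ = (μ.real s : ℂ) := by
  unfold ind
  rw [integral_indicator_const _ hs, Complex.real_smul, mul_one]

theorem BM.ind (hs : MeasurableSet[m] s) : BM μ m (ind s) :=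
  ⟨(measurable_ind hs).stronglyMeasurable.aestronglyMeasurable, 1,
    Eventually.of_forall (norm_ind_le s)⟩

theorem BM.const (c : ℂ) : BM μ m fun _ => c :=
  ⟨aestronglyMeasurable_const, ‖c‖, Eventually.of_forall fun _ => le_rfl⟩

theorem BM.mono (h : BM μ m f) (hm : m ≤ m') : BM μ m' f := ⟨h.1.mono hm, h.2⟩

theorem BM.congr (h : BM μ m f) (e : f =ᵐ[μ] g) : BM μ m g := by
  obtain ⟨h1, c, hc⟩ := h
  refine ⟨h1.congr e, c, ?_⟩
  filter_upwards [hc, e] with ω h2 h3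
  rwa [← h3]

theorem BM.mul (hf : BM μ m f) (hg : BM μ m g) : BM μ m (f * g) := by
  obtain ⟨h1, c, hc⟩ := hf
  obtain ⟨h2, d, hd⟩ := hg
  refine ⟨h1.mul h2, c * d, ?_⟩
  filter_upwards [hc, hd] with ω h3 h4
  rw [Pi.mul_apply, norm_mul]
  exact mul_le_mul h3 h4 (norm_nonneg _) ((norm_nonneg _).trans h3)

theorem BM.add (hf : BM μ m f) (hg : BM μ m g) : BM μ m (f + g) := by
  obtain ⟨h1, c, hc⟩ := hf
  obtain ⟨h2, d, hd⟩ := hg
  refine ⟨h1.add h2, c + d, ?_⟩
  filter_upwards [hc, hd] with ω h3 h4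
  exact (norm_add_le _ _).trans (add_le_add h3 h4)

theorem BM.sub (hf : BM μ m f) (hg : BM μ m g) : BM μ m (f - g) := by
  obtain ⟨h1, c, hc⟩ := hf
  obtain ⟨h2, d, hd⟩ := hg
  refine ⟨h1.sub h2, c + d, ?_⟩
  filter_upwards [hc, hd] with ω h3 h4
  exact (norm_sub_le _ _).trans (add_le_add h3 h4)

theorem BM.star (hf : BM μ m f) : BM μ m (star f) := by
  obtain ⟨h1, c, hc⟩ := hf
  refine ⟨continuous_star.comp_aestronglyMeasurable h1, c, ?_⟩
  filter_upwards [hc] with ω h3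
  rwa [Pi.star_apply, norm_star]

theorem BM.smul (c : ℂ) (hf : BM μ m f) : BM μ m (c • f) := (BM.const c).mul hf

theorem BM.of_aesm (hf : BM μ m f) (h : AEStronglyMeasurable[m'] f μ) : BM μ m' f := ⟨h, hf.2⟩

theorem BM.of_le (hf : Measurable[m] f) {c : ℝ} (h : ∀ ω, ‖f ω‖ ≤ c) : BM μ m f :=
  ⟨hf.stronglyMeasurable.aestronglyMeasurable, c, Eventually.of_forall h⟩

theorem Uni.bm (ha : Uni m a) : BM μ m a := BM.of_le ha.1 fun ω => (ha.2 ω).le

theorem BM.memLp [IsFiniteMeasure μ] (h : BM μ m f) (hm : m ≤ m0) (p : ℝ≥0∞) : MemLp f p μ := by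
  obtain ⟨h1, c, hc⟩ := h
  exact MemLp.of_bound (h1.mono hm) c hc

theorem BM.integrable [IsFiniteMeasure μ] (h : BM μ m f) (hm : m ≤ m0) : Integrable f μ :=
  memLp_one_iff_integrable.1 (h.memLp hm 1)

theorem BM.mul_integrable (h : BM μ m f) (hm : m ≤ m0) (hg : Integrable g μ) :
    Integrable (f * g) μ := by
  obtain ⟨h1, c, hc⟩ := h
  exact hg.bdd_mul (h1.mono hm) hc

theorem BM.mul_memLp (h : BM μ m f) (hm : m ≤ m0) {p : ℝ≥0∞} (hg : MemLp g p μ) :
    MemLp (f * g) p μ := by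
  obtain ⟨h1, c, hc⟩ := h
  refine hg.of_le_mul (c := c) ((h1.mono hm).mul hg.1) ?_
  filter_upwards [hc] with ω h2
  rw [Pi.mul_apply, norm_mul]
  exact mul_le_mul_of_nonneg_right h2 (norm_nonneg _)

theorem norm_condExp_le_of_bound [IsFiniteMeasure μ] {c : ℝ} (hc : 0 ≤ c)
    (h : ∀ᵐ ω ∂μ, ‖f ω‖ ≤ c) (m : MeasurableSpace Ω) : ∀ᵐ ω ∂μ, ‖(μ[f | m]) ω‖ ≤ c :=
  ae_bdd_norm_condExp_of_ae_bdd_norm h

theorem BM.condExp [IsFiniteMeasure μ] (h : BM μ m f) (m' : MeasurableSpace Ω) :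
    BM μ m' (μ[f | m']) := by
  obtain ⟨-, c, hc⟩ := h
  exact ⟨stronglyMeasurable_condExp.aestronglyMeasurable, c, ae_bdd_norm_condExp_of_ae_bdd_norm hc⟩

theorem condExp_mul_left (hf : AEStronglyMeasurable[m] f μ) (hfg : Integrable (f * g) μ)
    (hg : Integrable g μ) : μ[f * g | m] =ᵐ[μ] f * μ[g | m] :=
  condExp_bilin_of_aestronglyMeasurable_left (ContinuousLinearMap.mul ℝ ℂ) hf hfg hg

theorem condExp_mul_right (hg : AEStronglyMeasurable[m] g μ) (hfg : Integrable (f * g) μ)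
    (hf : Integrable f μ) : μ[f * g | m] =ᵐ[μ] μ[f | m] * g :=
  condExp_bilin_of_aestronglyMeasurable_right (ContinuousLinearMap.mul ℝ ℂ) hg hfg hf

theorem condExp_star (f : Ω → ℂ) : μ[star f | m] =ᵐ[μ] star (μ[f | m]) := by
  by_cases hf : Integrable f μ
  · exact ((Complex.conjCLE : ℂ →L[ℝ] ℂ).comp_condExp_comm hf).symm
  · have h1 : ¬ Integrable (star f) μ := fun h =>
      hf ((Complex.conjCLE : ℂ ≃L[ℝ] ℂ).integrable_comp_iff.1 h)
    rw [condExp_of_not_integrable hf, condExp_of_not_integrable h1, star_zero]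

/-- `∫ f * E[g | m] = ∫ f * g` for `m`-measurable `f`. -/
theorem integral_mul_condExp [IsFiniteMeasure μ] (hm : m ≤ m0) (hf : AEStronglyMeasurable[m] f μ)
    (hfg : Integrable (f * g) μ) (hg : Integrable g μ) :
    ∫ ω, f ω * (μ[g | m]) ω ∂μ = ∫ ω, f ω * g ω ∂μ :=
  (integral_congr_ae (condExp_mul_left hf hfg hg)).symm.trans (integral_condExp hm)

theorem setIntegral_zero_of_pi (hm : m ≤ m0) {p : Set (Set Ω)} (hp : IsPiSystem p)
    (hgen : m = MeasurableSpace.generateFrom p) (hf : Integrable f μ) (h0 : ∫ ω, f ω ∂μ = 0)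
    (h : ∀ s ∈ p, ∫ ω in s, f ω ∂μ = 0) : ∀ s, MeasurableSet[m] s → ∫ ω in s, f ω ∂μ = 0 := by
  refine MeasurableSpace.induction_on_inter (m := m) (C := fun s _ => ∫ ω in s, f ω ∂μ = 0)
    hgen hp setIntegral_empty h (fun t ht h2 => ?_) fun u hd hu h2 => ?_
  · have h3 := integral_add_compl (hm t ht) hf
    rwa [h2, h0, zero_add] at h3
  · rw [integral_iUnion (fun i => hm _ (hu i)) hd hf.integrableOn]
    simp only [h2, tsum_zero]

theorem ae_zero_of_pi [IsFiniteMeasure μ] (hm : m ≤ m0) {p : Set (Set Ω)} (hp : IsPiSystem p)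
    (hgen : m = MeasurableSpace.generateFrom p) (hf : Integrable f μ)
    (hfm : AEStronglyMeasurable[m] f μ) (h0 : ∫ ω, f ω ∂μ = 0)
    (h : ∀ s ∈ p, ∫ ω in s, f ω ∂μ = 0) : f =ᵐ[μ] 0 := by
  have h1 := setIntegral_zero_of_pi hm hp hgen hf h0 h
  refine ae_eq_of_forall_setIntegral_eq_of_sigmaFinite' hm (fun s _ _ => hf.integrableOn)
    (fun s _ _ => (integrable_zero _ _ _).integrableOn) (fun s hs _ => ?_) hfm
    aestronglyMeasurable_const
  rw [h1 s hs]
  exact (integral_zero _ _).symm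

/-- The intersections `s ∩ t`. -/
def piInter (A C : MeasurableSpace Ω) : Set (Set Ω) :=
  {u | ∃ s t, MeasurableSet[A] s ∧ MeasurableSet[C] t ∧ u = s ∩ t}

theorem isPiSystem_piInter (A C : MeasurableSpace Ω) : IsPiSystem (piInter A C) := by
  rintro _ ⟨s, t, hs, ht, rfl⟩ _ ⟨s', t', hs', ht', rfl⟩ -
  exact ⟨s ∩ s', t ∩ t', hs.inter hs', ht.inter ht', inter_inter_inter_comm _ _ _ _⟩

theorem sup_eq_generateFrom_piInter (A C : MeasurableSpace Ω) :
    A ⊔ C = MeasurableSpace.generateFrom (piInter A C) := by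
  refine le_antisymm (sup_le (fun s hs => ?_) fun s hs => ?_)
    (MeasurableSpace.generateFrom_le ?_)
  · exact MeasurableSpace.measurableSet_generateFrom ⟨s, univ, hs, .univ, (inter_univ s).symm⟩
  · exact MeasurableSpace.measurableSet_generateFrom ⟨univ, s, .univ, hs, (univ_inter s).symm⟩
  · rintro _ ⟨s, t, hs, ht, rfl⟩
    exact MeasurableSet.inter ((le_sup_left : A ≤ A ⊔ C) s hs) ((le_sup_right : C ≤ A ⊔ C) t ht)

theorem ae_zero_of_sup [IsFiniteMeasure μ] (hA : A ≤ m0) (hC : C ≤ m0) (hf : Integrable f μ)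
    (hfm : AEStronglyMeasurable[A ⊔ C] f μ)
    (h : ∀ s t, MeasurableSet[A] s → MeasurableSet[C] t → ∫ ω in s ∩ t, f ω ∂μ = 0) :
    f =ᵐ[μ] 0 := by
  refine ae_zero_of_pi (sup_le hA hC) (isPiSystem_piInter A C) (sup_eq_generateFrom_piInter A C) hf
    hfm ?_ ?_
  · have h1 := h univ univ .univ .univ
    rwa [inter_self, Measure.restrict_univ] at h1
  · rintro _ ⟨s, t, hs, ht, rfl⟩
    exact h s t hs ht

theorem aesm_of_ae_eq_sets
    (h : ∀ s, MeasurableSet[D'] s → ∃ t, MeasurableSet[D] t ∧ s =ᵐ[μ] t)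
    (hf : AEStronglyMeasurable[D'] f μ) : AEStronglyMeasurable[D] f μ := by
  obtain ⟨g, hg, e⟩ := hf
  refine AEStronglyMeasurable.congr ?_ e.symm
  refine @StronglyMeasurable.induction Ω ℂ D' _ _ (fun g _ => AEStronglyMeasurable[D] g μ)
    (fun c s hs => ?_) (fun _ _ _ _ _ _ h1 h2 => h1.add h2) (fun u v _ _ h1 h2 => ?_) g hg
  · obtain ⟨t, ht, e'⟩ := h s hs
    exact ⟨t.indicator fun _ => c, stronglyMeasurable_const.indicator ht,
      indicator_ae_eq_of_ae_eq_set e'⟩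
  · choose w hw e' using h1
    refine ⟨fun ω => limUnder atTop fun n => w n ω,
      @StronglyMeasurable.limUnder _ _ _ D _ _ _ _ _ _ _ hw, ?_⟩
    filter_upwards [ae_all_iff.2 e'] with ω hω
    have h3 := h2 ω
    simp only [hω] at h3
    exact h3.limUnder_eq.symm

theorem aeInf_le (μ : Measure Ω) (A A' : MeasurableSpace Ω) : aeInf μ A A' ≤ A := fun _ h => h.1

theorem aesm_aeInf (hf : AEStronglyMeasurable[A] f μ) (hf' : AEStronglyMeasurable[A'] f μ) :
    AEStronglyMeasurable[aeInf μ A A'] f μ := by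
  obtain ⟨g, hg, e⟩ := hf
  obtain ⟨g', hg', e'⟩ := hf'
  have h1 : Measurable[aeInf μ A A'] g := fun B hB =>
    ⟨hg.measurable hB, g' ⁻¹' B, hg'.measurable hB, (e.symm.trans e').preimage B⟩
  exact ⟨g, h1.stronglyMeasurable, e⟩

theorem aesm_of_aeInf (hf : AEStronglyMeasurable[aeInf μ A A'] f μ) :
    AEStronglyMeasurable[A'] f μ :=
  aesm_of_ae_eq_sets (D' := aeInf μ A A') (fun _ h => h.2) hf

theorem exists_uni (hf : AEStronglyMeasurable[m] f μ) (h : ∀ᵐ ω ∂μ, ‖f ω‖ = 1) :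
    ∃ a, Uni m a ∧ a =ᵐ[μ] f := by
  obtain ⟨g, hg, e⟩ := hf
  have h0 : MeasurableSet[m] {ω | ‖g ω‖ = 1} := hg.norm.measurable (measurableSet_singleton 1)
  refine ⟨fun ω => if ‖g ω‖ = 1 then g ω else 1,
    ⟨Measurable.ite h0 hg.measurable measurable_const, fun ω => ?_⟩, ?_⟩
  · beta_reduce
    split_ifs with h1
    · exact h1
    · exact norm_one
  · filter_upwards [e, h] with ω h1 h2
    rw [← h1, if_pos h2]

theorem eq_condExp_of_norm [IsFiniteMeasure μ] (hm : m ≤ m0) (hf : AEStronglyMeasurable f μ)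
    (h1 : ∀ᵐ ω ∂μ, ‖f ω‖ ≤ 1) (h2 : ∀ᵐ ω ∂μ, ‖(μ[f | m]) ω‖ = 1) : f =ᵐ[μ] μ[f | m] := by
  have hb : BM μ m0 f := ⟨hf, 1, h1⟩
  have hg := hb.condExp m
  have hi := hb.integrable le_rfl
  have h3 := integral_mul_condExp hm hg.star.1 (hg.star.mul_integrable hm hi) hi
  have i1 : Integrable (fun ω => star (μ[f | m]) ω * (μ[f | m]) ω) μ :=
    hg.star.mul_integrable hm integrable_condExp
  have i2 : Integrable (fun ω => star (μ[f | m]) ω * f ω) μ := hg.star.mul_integrable hm hi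
  have h4 : Integrable (fun ω => star (μ[f | m]) ω * (μ[f | m]) ω - star (μ[f | m]) ω * f ω) μ :=
    i1.sub i2
  have h5 : ∫ ω, (star (μ[f | m]) ω * (μ[f | m]) ω - star (μ[f | m]) ω * f ω).re ∂μ = 0 := by
    have h6 := Complex.reCLM.integral_comp_comm h4
    rw [integral_sub i1 i2, h3, sub_self, map_zero] at h6
    exact h6
  have key : ∀ x y : ℂ, ‖x‖ ≤ 1 → ‖y‖ = 1 → ‖x - y‖ ^ 2 ≤ 2 * (star y * y - star y * x).re := by
    intro x y hx hy
    have e1 := pow_le_one₀ (n := 2) (norm_nonneg x) hx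
    have e2 : ‖y‖ ^ 2 = 1 := by rw [hy, one_pow]
    rw [Complex.sq_norm, Complex.normSq_apply] at e1 e2 ⊢
    simp only [Complex.sub_re, Complex.sub_im, Complex.mul_re, RCLike.star_def, Complex.conj_re,
      Complex.conj_im]
    linarith
  have h6 := (integral_eq_zero_iff_of_nonneg_ae (by
    filter_upwards [h1, h2] with ω e1 e2
    have e3 := (sq_nonneg _).trans (key _ _ e1 e2)
    exact (mul_nonneg_iff_of_pos_left two_pos).1 e3) h4.re).1 h5
  filter_upwards [h1, h2, h6] with ω e1 e2 e3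
  have e4 := key _ _ e1 e2
  have e5 : (star ((μ[f | m]) ω) * (μ[f | m]) ω - star ((μ[f | m]) ω) * f ω).re = 0 := e3
  rw [e5, mul_zero] at e4
  exact sub_eq_zero.1 (norm_eq_zero.1
    ((pow_eq_zero_iff two_ne_zero).1 (le_antisymm e4 (sq_nonneg _))))

/-- Conditional expectations commute with pull-back. -/
theorem condExp_comp_map {Ω' : Type*} {mΩ' : MeasurableSpace Ω'} {P : Measure Ω'}
    [IsFiniteMeasure P] {Θ : Ω' → Ω} (hΘ : Measurable Θ) (hm : m ≤ m0)
    (hf : Integrable f (P.map Θ)) :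
    P[f ∘ Θ | m.comap Θ] =ᵐ[P] (P.map Θ)[f | m] ∘ Θ := by
  have hm' : m.comap Θ ≤ mΩ' := (MeasurableSpace.comap_mono hm).trans hΘ.comap_le
  refine (ae_eq_condExp_of_forall_setIntegral_eq hm' (hf.comp_measurable hΘ)
    (fun s _ _ => (integrable_condExp.comp_measurable hΘ).integrableOn) ?_
    (stronglyMeasurable_condExp.comp_measurable
      (@comap_measurable Ω' Ω m Θ)).aestronglyMeasurable).symm
  rintro _ ⟨t, ht, rfl⟩ -
  have h1 := setIntegral_map (hm t ht) hf.1 hΘ.aemeasurable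
  have h2 := setIntegral_map (f := (P.map Θ)[f | m]) (hm t ht) integrable_condExp.1 hΘ.aemeasurable
  exact h2.symm.trans ((setIntegral_condExp hm hf ht).trans h1)

theorem Agree.refl (m : MeasurableSpace Ω) (ρ : @Measure Ω m0) : Agree m ρ ρ := fun _ _ => rfl

theorem Agree.symm (h : Agree m ρ ρ') : Agree m ρ' ρ := fun s hs => (h s hs).symm

theorem Agree.trans (h : Agree m ρ ρ') (h' : Agree m ρ' ρ'') : Agree m ρ ρ'' :=
  fun s hs => (h s hs).trans (h' s hs)

theorem Agree.mono (h : Agree m ρ ρ') (hm : m' ≤ m) : Agree m' ρ ρ' := fun s hs => h s (hm s hs)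

theorem Agree.trim_eq (h : Agree m ρ ρ') (hm : m ≤ m0) : ρ.trim hm = ρ'.trim hm :=
  @Measure.ext Ω m _ _ fun s hs => by
    rw [trim_measurableSet_eq hm hs, trim_measurableSet_eq hm hs, h s hs]

theorem Agree.integral_eq {V : Type*} [NormedAddCommGroup V] [NormedSpace ℝ V] (h : Agree m ρ ρ')
    (hm : m ≤ m0) {F : Ω → V} (hF : StronglyMeasurable[m] F) :
    ∫ ω, F ω ∂ρ = ∫ ω, F ω ∂ρ' := by
  rw [integral_trim hm hF, integral_trim hm hF, h.trim_eq hm]

theorem Agree.ae (h : Agree m ρ ρ') {p : Ω → Prop} (hp : MeasurableSet[m] {ω | p ω})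
    (H : ∀ᵐ ω ∂ρ, p ω) : ∀ᵐ ω ∂ρ', p ω := (h _ hp.compl).symm.trans H

theorem Agree.ae_eq (h : Agree m ρ ρ') (hf : Measurable[m] f) (hg : Measurable[m] g)
    (H : f =ᵐ[ρ] g) : f =ᵐ[ρ'] g := h.ae (measurableSet_eq_fun hf hg) H

theorem Agree.triv (h : Agree m ρ ρ') (hf : Measurable[m] f) (H : Triv ρ f) : Triv ρ' f := by
  obtain ⟨c, hc⟩ := H
  exact ⟨c, h.ae_eq hf measurable_const hc⟩

theorem Agree.memLp (h : Agree m ρ ρ') (hm : m ≤ m0) (hf : Measurable[m] f) {p : ℝ≥0∞}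
    (H : MemLp f p ρ) : MemLp f p ρ' := by
  refine ⟨(hf.mono hm le_rfl).aestronglyMeasurable, ?_⟩
  rw [← eLpNorm_trim hm hf.stronglyMeasurable, ← h.trim_eq hm,
    eLpNorm_trim hm hf.stronglyMeasurable]
  exact H.2

theorem Agree.indep (h : Agree m ρ ρ') (hA : A ≤ m) (hC : C ≤ m) (H : Indep A C ρ) :
    Indep A C ρ' := by
  rw [Indep_iff] at H ⊢
  intro s t hs ht
  rw [← h s (hA s hs), ← h t (hC t ht), ← h _ ((hA s hs).inter (hC t ht)), H s t hs ht]

theorem triv_map_iff {Ω' : Type*} {mΩ' : MeasurableSpace Ω'} {P : Measure Ω'} {Θ : Ω' → Ω}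
    (hΘ : Measurable Θ) (hf : Measurable f) : Triv (P.map Θ) f ↔ Triv P (f ∘ Θ) :=
  exists_congr fun _ => ae_map_iff hΘ.aemeasurable (measurableSet_eq_fun hf measurable_const)

end Vale.Agent.P102
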